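import Vale.Agent.P251.M.Strict
import Vale.Agent.P251.Q.GoodBase
import Vale.Agent.P251.Q.LineCls
import Vale.Agent.P241.H588.LensQ

/-!
# P257, block T: comparison of the Thom classes of two orientations

`cmpU o o' V` is the class `t` of the base with `U' = t U`, `U`, `U'` the Thom classes of `V`. It is
natural, multiplicative and invariant under isomorphisms; `cmpU_line`: for a line bundle it is
`∑ c_i e ^ i`, if `z' = ∑ c_i z ^ (i + 1)`.
-/

set_option linter.unusedSectionVars false
set_option linter.style.haveILetI false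

open CategoryTheory MonoidalCategory OnePoint Topology Matrix
open Vale.Agent.P251.G Vale.Agent.P251.G.LC Vale.Agent.P251.G.Bun

universe v

noncomputable section

namespace Vale.Agent.P257.V4.T

open Vale.Agent.P251.Q Vale.Agent.P251.Q.MultTheory Vale.Agent.P251.M
open Vale.Agent.P217 Vale.Agent.P251.F

/-! ### The classes of the vector spaces -/

section lin

variable {E : MultTheory.{v}} (o o' : Orientation E)

theorem lin_eq_fin (n : ℕ) : o.lin (Fin n) = o'.lin (Fin n) := by
  induction n with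
  | zero =>
    rw [← map_inv_hom (E := E) (cpowEmpty (Fin 0)) (o.lin (Fin 0)), lin_empty,
      ← lin_empty o' (I := Fin 0), map_inv_hom]
  | succ n ih =>
    have h1 : o.lin Unit = o'.lin Unit := by
      rw [← map_hom_inv (E := E) cpowUnit (o.lin Unit), lin_unit, ← lin_unit o', map_hom_inv]
    have h2 : o.lin (Fin n ⊕ Unit) = o'.lin (Fin n ⊕ Unit) := by
      rw [← map_inv_hom (E := E) (Th.csum (Fin n) Unit) (o.lin (Fin n ⊕ Unit)), lin_sum, ih, h1,
        ← lin_sum, map_inv_hom]
    rw [← lin_reindex o (finSumUnit n).symm, h2, lin_reindex]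

theorem lin_eq (I : Type) [Fintype I] [DecidableEq I] : o.lin I = o'.lin I := by
  rw [← lin_reindex o (Fintype.equivFin I), lin_eq_fin o o', lin_reindex]

end lin

/-! ### The comparison class -/

section cmp

variable {E : MultTheory.{v}} (o o' : Orientation E) {B B' Z : LC} [CompactSpace B]
  [CompactSpace B'] [hB : GoodBase E B] [hB' : GoodBase E B'] {L L' : Type} [Fintype L]
  [Fintype L'] {n m : ℕ}

theorem exists_cmpU (V : Bun B L) (hV : V.IsRank n) : ∃ t : E.U B, o.phi V hV t = o'.thom V hV := by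
  haveI := hB.tot V hV
  exact (phi_bijective o V hV).2 _

/-- the class `t` with `U' = t U` -/
def cmpU (V : Bun B L) (hV : V.IsRank n) : E.U B := (exists_cmpU o o' V hV).choose

theorem phi_cmpU (V : Bun B L) (hV : V.IsRank n) :
    o.phi V hV (cmpU o o' V hV) = o'.thom V hV := (exists_cmpU o o' V hV).choose_spec

theorem cmpU_unique {V : Bun B L} {hV : V.IsRank n} {t : E.U B}
    (h : o.phi V hV t = o'.thom V hV) : cmpU o o' V hV = t := by
  haveI := hB.tot V hV
  exact (phi_bijective o V hV).1 ((phi_cmpU o o' V hV).trans h.symm)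

/-- comparison of the Thom maps over a space over a compact space -/
theorem phi_pull_cmp [E.Good Z] (f : C(Z, B)) (V : Bun B L) (hV : V.IsRank n)
    [E.Good (V.pullback f).tot] (hV' : (V.pullback f).IsRank n) (u : E.U Z) :
    o'.phi (V.pullback f) hV' u = o.phi (V.pullback f) hV' (E.act f (cmpU o o' V hV) u) := by
  haveI := hB.tot V hV
  rw [phi_pullback o' f V hV hV', ← phi_cmpU o o' V hV, ← totMap_graph, MultTheory.map_comp,
    ← phi_cross_right o V hV, ← phi_natural o (graph f) (over_graph' f V) hV' (isRank_pullF hV)]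
  rfl

theorem phi_cmp (V : Bun B L) (hV : V.IsRank n) (u : E.U B) :
    o'.phi V hV u = o.phi V hV (cmpU o o' V hV * u) := by
  haveI := hB.tot V hV
  haveI : E.Good (V.pullback (ContinuousMap.id B)).tot := hB.tot V hV
  exact phi_pull_cmp o o' (ContinuousMap.id B) V hV hV u

theorem cmpU_pullback (f : C(B', B)) (V : Bun B L) (hV : V.IsRank n)
    (hV' : (V.pullback f).IsRank n) :
    cmpU o o' (V.pullback f) hV' = E.mapAlg f (cmpU o o' V hV) := by
  haveI := hB'.tot (V.pullback f) hV'
  apply cmpU_unique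
  have h1 := phi_pull_cmp o o' f V hV hV' (E.oneU B')
  rw [act_eq_mul] at h1
  have h2 : E.map (cmap f) (cmpU o o' V hV) * E.oneU B' = E.mapAlg f (cmpU o o' V hV) :=
    mul_one _
  rw [h2] at h1
  exact h1.symm

theorem cmpU_isom {V : Bun B L} {V' : Bun B L'} (φ : V.Isom V') (hV : V.IsRank n)
    (hV' : V'.IsRank n) : cmpU o o' V hV = cmpU o o' V' hV' := by
  haveI := hB.tot V hV
  haveI := hB.tot V' hV'
  apply cmpU_unique
  rw [phi_isom o φ hV hV', phi_cmpU]
  exact (phi_isom o' φ hV hV' _).symm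

theorem cmpU_congr_rank {V : Bun B L} {n n' : ℕ} (h : n = n') (hV : V.IsRank n)
    (hV' : V.IsRank n') : cmpU o o' V hV = cmpU o o' V hV' := by
  subst h; rfl

theorem cmpU_sum (V : Bun B L) (W : Bun B L') (hV : V.IsRank n) (hW : W.IsRank m) {p : ℕ}
    (h : n + m = p) :
    cmpU o o' (V.sum W) (isRank_sum hV hW h) = cmpU o o' V hV * cmpU o o' W hW := by
  haveI := hB.tot V hV
  haveI := hB.tot W hW
  haveI := hB.tot (V.sum W) (isRank_sum hV hW h)
  haveI : E.Good (Bun.tot (X := V.tot) (W.pullback (tcb V))) :=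
    MultTheory.Good.of_iso E (sumIso V W)
  apply cmpU_unique
  have h1 := phi_pull_cmp o o' (Z := V.tot) (tcb V) W hW (isRank_pullback_base (V := V) hW)
    (o.phi V hV (cmpU o o' V hV))
  have h2 := phi_act o (ContinuousMap.id B) V hV (cmpU o o' W hW) (cmpU o o' V hV)
  have h3 : (ContinuousMap.id B).comp (tcb V) = tcb V := rfl
  rw [h3, ← mul_def] at h2
  rw [← h2] at h1
  have h4 := phi_sum o' V W hV hW h (E.oneU B)
  have h5 : o'.phi V hV (E.oneU B) = o.phi V hV (cmpU o o' V hV) := (phi_cmpU o o' V hV).symm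
  rw [h5] at h4
  have h6 := phi_sum o V W hV hW h (cmpU o o' V hV * cmpU o o' W hW)
  rw [mul_comm] at h6
  rw [mul_comm, h6]
  exact ((congrArg (E.map (sumIso V W).hom) h1).symm.trans h4.symm)

theorem cmpU_triv [DecidableEq L] : cmpU o o' (triv B L) (isRank_triv B L) = 1 := by
  haveI := hB.tot (triv B L) (isRank_triv B L)
  apply cmpU_unique
  rw [phi_triv o, lin_eq o o', ← phi_triv o']
  rfl

theorem e_cmp (V : Bun B L) (hV : V.IsRank n) :
    o'.e V hV = o.e V hV * cmpU o o' V hV := by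
  haveI := hB.tot V hV
  rw [← map_zeroMor_thom, ← phi_cmpU o o' V hV, ← euler_apply, euler_eq_mul]

end cmp

/-! ### Line bundles -/

section line

variable {E : MultTheory.{v}} (o o' : Orientation E) {B : LC} [CompactSpace B]
  [hB : GoodBase E B] {L : Type} [Fintype L]

/-- the coefficients of the comparison series: `z' = ∑ c_i z ^ (i + 1)` -/
def cc (i : ℕ) : E.A := (CPSys.Coord.cmp (coordO o) (coordO o') (z_one_eq o' o)).c i

theorem cc_mem (i : ℕ) : cc o o' i ∈ E.degA (-(i : ℤ)) := cmp_c_mem o o' (z_one_eq o' o) i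

theorem z_eq_sum_cc (N : ℕ) : o'.z (Fin (N + 1)) =
    ∑ i : Fin N, cc o o' i • o.z (Fin (N + 1)) ^ ((i : ℕ) + 1) :=
  z_eq_sum_cmp o o' (z_one_eq o' o) N

/-- the tautological bundle is the restriction of the tautological bundle -/
def tautIncl {I J : Type} [Fintype I] [Fintype J] [DecidableEq I] [DecidableEq J]
    (u : Matrix J I ℂ) (hu : uᴴ * u = 1) :
    (taut 1 I).Isom ((taut 1 J).pullback (grMapC 1 u hu)) where
  u x := u * Gr.P x
  cont := continuous_const.matrix_mul Gr.continuous_P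
  left x := by
    rw [Matrix.conjTranspose_mul, Matrix.mul_assoc, ← Matrix.mul_assoc uᴴ, hu, Matrix.one_mul,
      x.isProj.herm, x.isProj.idem]
    rfl
  right x := by
    rw [Matrix.conjTranspose_mul, Matrix.mul_assoc, ← Matrix.mul_assoc (Gr.P x), x.isProj.herm,
      x.isProj.idem, ← Matrix.mul_assoc]
    rfl

theorem cmpU_taut (I : Type) [Fintype I] {N : ℕ} (hN : Fintype.card I ≤ N) :
    cmpU o o' (B := CP I) (taut 1 I) (taut_isRank 1 I) =
      ∑ i ∈ Finset.range N, cc o o' i • o.z I ^ i := by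
  classical
  obtain ⟨a, ha⟩ := (freeOn_z o (N + 1) (Fin (N + 1)) (Fintype.card_fin _)).bijective_smul.2
    (cmpU o o' (B := CP (Fin (N + 1))) (taut 1 (Fin (N + 1))) (taut_isRank 1 _))
  have h1 := e_cmp o o' (B := CP (Fin (N + 1))) (taut 1 (Fin (N + 1))) (taut_isRank 1 _)
  rw [e_taut_z, e_taut_z, ← ha] at h1
  have h2 : (Fin.cases (0 : E.A) (fun j : Fin N => a j.castSucc) : Fin (N + 1) → E.A) =
      (Fin.cases (0 : E.A) (fun j : Fin N => cc o o' j) : Fin (N + 1) → E.A) := by
    apply (freeOn_z o (N + 1) (Fin (N + 1)) (Fintype.card_fin _)).bijective_smul.1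
    change ∑ i : Fin (N + 1), (Fin.cases (0 : E.A) (fun j : Fin N => a j.castSucc) :
        Fin (N + 1) → E.A) i • o.z (Fin (N + 1)) ^ (i : ℕ) =
      ∑ i : Fin (N + 1), (Fin.cases (0 : E.A) (fun j : Fin N => cc o o' j) :
        Fin (N + 1) → E.A) i • o.z (Fin (N + 1)) ^ (i : ℕ)
    rw [Fin.sum_univ_succ, Fin.sum_univ_succ]
    simp only [Fin.cases_zero, Fin.cases_succ, zero_smul, zero_add, Fin.val_succ]
    rw [← z_eq_sum_cc, h1]
    change _ = o.z (Fin (N + 1)) * ∑ i : Fin (N + 1), a i • o.z (Fin (N + 1)) ^ (i : ℕ)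
    rw [Fin.sum_univ_castSucc, mul_add, Finset.mul_sum, mul_smul_comm]
    have h3 : o.z (Fin (N + 1)) * o.z (Fin (N + 1)) ^ ((Fin.last N : Fin (N + 1)) : ℕ) = 0 := by
      rw [Fin.val_last, ← pow_succ']
      exact z_pow_eq_zero o (N + 1) _ (by simp)
    rw [h3, smul_zero, add_zero]
    refine Finset.sum_congr rfl fun i _ => ?_
    rw [mul_smul_comm, ← pow_succ']
    rfl
  have h3 : ∀ i : Fin N, a i.castSucc = cc o o' i := fun i => by
    have := congrFun h2 i.succ
    simpa using this
  obtain ⟨e⟩ : Nonempty (I ↪ Fin (N + 1)) :=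
    Function.Embedding.nonempty_of_card_le (by rw [Fintype.card_fin]; omega)
  have h4 := cmpU_isom o o' (B := CP I) (tautIncl (injMat e) (injMat_isom e.injective))
    (taut_isRank 1 I) ((taut_isRank 1 (Fin (N + 1))).pullback _)
  rw [h4, cmpU_pullback o o' (B := CP (Fin (N + 1))) (B' := CP I) (grMapC 1 (injMat e)
    (injMat_isom e.injective)) (taut 1 (Fin (N + 1))) (taut_isRank 1 _) _, ← ha]
  change E.mapAlg _ (∑ i : Fin (N + 1), a i • o.z (Fin (N + 1)) ^ (i : ℕ)) = _
  rw [map_sum, Fin.sum_univ_castSucc, Finset.sum_range]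
  have h5 : E.mapAlg (grMapC 1 (injMat e) (injMat_isom e.injective)) (o.z (Fin (N + 1))) =
      o.z I := z_map o (injMat e) (injMat_isom e.injective)
  simp only [_root_.map_smul, map_pow, h5]
  rw [Fin.val_last, z_pow_eq_zero o N I hN, smul_zero, add_zero]
  refine Finset.sum_congr rfl fun i _ => ?_
  rw [h3]
  rfl

theorem cmpU_line (V : Bun B L) (hV : V.IsRank 1) {N : ℕ} (hN : Fintype.card L ≤ N) :
    cmpU o o' V hV = ∑ i ∈ Finset.range N, cc o o' i • o.e V hV ^ i := by
  have h1 := cmpU_pullback o o' (B := CP L) (B' := B) (lineCls V hV) (taut 1 L)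
    (taut_isRank 1 L) hV
  have h2 : cmpU o o' V hV = cmpU o o' ((taut 1 L).pullback (lineCls V hV)) hV := rfl
  rw [h2, h1, cmpU_taut o o' L hN, map_sum, e_eq_map_z]
  simp only [_root_.map_smul, map_pow]

end line

end Vale.Agent.P257.V4.T
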