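import Vale.Agent.P257.V4.T.HTq
import Vale.Agent.P257.V4.T.Cmp

/-!
# P257, V(4), part T: the comparison series over `R ⊗ R` and the lift of `α₁`

* `cc_push` : naturality of the coefficients of the comparison series;
* `exists_tau` : for `b : BData D p`, `R = b.obj`, the coefficient `τ` at `p - 1` of the comparison
  series of the left and the right orientation of `R ⊗ R` satisfies
  `(θ ≫ τ) ≫ (R ◁ ρ) ≫ (R ◁ inC (𝟙 J) i) = - inC aJ i ≫ unitMap R (J ⊗ C)`.
-/

open CategoryTheory MonoidalCategory Limits Pretriangulated MonObj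

set_option linter.unusedSectionVars false

universe w v u

namespace Vale.Agent.P257.V4.T.HT

open Vale.Agent.P251.S Vale.Agent.P251.T Vale.Agent.P251.M Vale.Agent.P251.F Vale.Agent.P251.I
  Vale.Agent.P251.G Vale.Agent.P251 Vale.Agent.P257.V4.B Vale.Agent.P257.V4.E
  Vale.Agent.P251.G.LC

theorem oEv_X_zero {E : Q.MultTheory.{v}} (o o' : Q.Orientation E) (m : ℕ) :
    oEv ![o, o'] (MvPolynomial.X ((0 : Fin 1), m)) = cc o o' (m + 1) := by
  rw [oEv, LChain.ev_X]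
  rfl

theorem cc_push {E : Q.MultTheory.{v}} {E' : Q.MultTheory.{w}} (φ : Q.MultTheory.Hom E E')
    (o o' : Q.Orientation E) {i : ℕ} (hi : 0 < i) :
    φ.mapA (cc o o' i) = cc (φ.push o) (φ.push o') i := by
  obtain ⟨m, rfl⟩ := Nat.exists_eq_succ_of_ne_zero hi.ne'
  have h1 := mapA_oEv φ ![o, o'] (MvPolynomial.X ((0 : Fin 1), m))
  have h2 : (fun i => φ.push ((![o, o'] : Fin (1 + 1) → Q.Orientation E) i)) =
      ![φ.push o, φ.push o'] := by
    funext i
    fin_cases i <;> rfl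
  rw [h2, oEv_X_zero, oEv_X_zero] at h1
  exact h1

section am2

variable {T : Type u} [Category.{v} T] [MonoidalCategory T] [SymmetricCategory T]
variable (R : T) [MonObj R] [IsCommMonObj R]

instance isMonHom_am2 : IsMonHom (am2 R).hom :=
  inferInstanceAs (IsMonHom ((λ_ R).hom ▷ R))

end am2

section main

variable {T : Type u} [Category.{v} T] [Preadditive T] [HasZeroObject T]
    [HasShift T ℤ] [∀ n : ℤ, (shiftFunctor T n).Additive] [Pretriangulated T] [IsTriangulated T]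
    [MonoidalCategory T] [SymmetricCategory T] [TensorTriangulated T] [MonoidalClosed T]
    [HasCoproducts.{0} T] [HasProducts.{0} T] [StableCat T]
variable {F : SpaceFunctor T} (e : F.S.obj CCF ≅ (stdEven T).L)

section push

variable {R : T} [MonObj R] [IsCommMonObj R] (o : Q.Orientation (thK e R))

/-- the left and the right orientation of `R ⊗ R` from the orientations of `Am R 2` -/
theorem push_am2 (j : Fin 2) (f : R ⟶ R ⊗ R) [IsMonHom f] (hf : Am.v R j ≫ (am2 R).hom = f) :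
    (thKHom e (am2 R).hom).push (amO e R o j) = (thKHom e f).push o :=
  thKHom_push_comp e (Am.v R j) (am2 R).hom f hf o

/-- the comparison series of the left and the right orientation -/
theorem coefK_cc_am2 {i : ℕ} (hi : 0 < i) :
    coefK e (R ⊗ R) (cc ((thKHom e (inlM R R)).push o) ((thKHom e (inrM R R)).push o) i) =
      HRing.map (E := stdEven T) (am2 R).hom
        (coefK e (Am R 2) (cc (amO e R o (0 : Fin 2)) (amO e R o (1 : Fin 2)) i)) := by
  rw [← coefK_mapA, cc_push _ _ _ hi, push_am2 e o 0 (inlM R R) (v0_am2 R),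
    push_am2 e o 1 (inrM R R) (v1_am2 R)]

end push

variable {D : MUData T} (oD : Q.Orientation (thK e D.R))
  (hD : ∀ (s : ℕ) (z : Cob Laz s), D.ev s z = amEv e D.R oD s z)
variable {p : ℕ} [hp : Fact p.Prime] (b : BData D p)
variable {C : T} {i : 𝟙_ T ⟶ C} {δC : C ⟶ (𝟙_ T)⟦(1 : ℤ)⟧}
  (hC : Triangle.mk ((p : ℤ) • 𝟙 (𝟙_ T)) i δC ∈ distTriang T)
  {U : UnitCof b.obj} (Z : T0D b.rmod U p)

include hD hC in
/-- **The coefficient `τ` of the comparison series over `R ⊗ R`.** -/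
theorem exists_tau (hp2 : p ≠ 2) :
    ∃ τ : (stdEven T).S ((p : ℤ) - 1) ⟶ b.obj ⊗ b.obj,
      coefK e (b.obj ⊗ b.obj) (cc ((thKHom e (inlM b.obj b.obj)).push ((thKHom e b.u).push oD))
        ((thKHom e (inrM b.obj b.obj)).push ((thKHom e b.u).push oD)) (p - 1)) =
        HRing.of (stdEven T) (b.obj ⊗ b.obj) ((p : ℤ) - 1) τ ∧
      ((sphI T ((p : ℤ) - 1)).inv ≫ τ) ≫ (b.obj ◁ U.ρ) ≫ (b.obj ◁ inC (𝟙 U.J) i) =
        (-1 : ℤ) • (inC Z.aJ i ≫ unitMap b.obj (U.J ⊗ C)) := by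
  obtain ⟨x, hx⟩ := exists_of_cpm e oD hD b
  obtain ⟨y, hy⟩ := exists_cmp_aJ e oD hD b hC Z hp2 x hx
  refine ⟨x ≫ (am2 b.obj).hom, ?_, ?_⟩
  · rw [coefK_cc_am2 e _ (by have := hp.out.two_le; omega), ← HRing.map_of, hx]
    rfl
  · have hi : (p : ℤ) • i = 0 := by
      have h := comp_distTriang_mor_zero₁₂ _ hC
      change ((p : ℤ) • 𝟙 (𝟙_ T)) ≫ i = 0 at h
      rwa [Preadditive.zsmul_comp, Category.id_comp] at h
    have h1 : (p : ℤ) • (b.obj ◁ inC (𝟙 U.J) i) = 0 := by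
      have h2 : (p : ℤ) • (U.J ◁ i) = 0 := by
        have h3 : U.J ◁ ((p : ℤ) • i) = (p : ℤ) • (U.J ◁ i) := (tensorLeft U.J).map_zsmul
        rw [← h3, hi]
        exact MonoidalPreadditive.whiskerLeft_zero
      have h4 : (p : ℤ) • inC (𝟙 U.J) i = 0 := by
        rw [inC, ← Preadditive.comp_zsmul, ← Preadditive.comp_zsmul, h2, comp_zero, comp_zero]
      have h5 : b.obj ◁ ((p : ℤ) • inC (𝟙 U.J) i) = (p : ℤ) • (b.obj ◁ inC (𝟙 U.J) i) :=
        (tensorLeft b.obj).map_zsmul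
      rw [← h5, h4]
      exact MonoidalPreadditive.whiskerLeft_zero
    have h6 : ((sphI T ((p : ℤ) - 1)).inv ≫ x ≫ (am2 b.obj).hom) ≫ (b.obj ◁ U.ρ) =
        - (Z.aJ ≫ unitMap b.obj U.J) + (p : ℤ) • y := by
      rw [← hy]
      simp only [Category.assoc]
    have h7 : (Z.aJ ≫ unitMap b.obj U.J) ≫ (b.obj ◁ inC (𝟙 U.J) i) =
        inC Z.aJ i ≫ unitMap b.obj (U.J ⊗ C) := by
      rw [Category.assoc, ← unitMap_nat, ← Category.assoc]
      congr 1
      simp only [inC, Category.id_comp]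
    rw [← Category.assoc ((sphI T ((p : ℤ) - 1)).inv ≫ x ≫ (am2 b.obj).hom), h6,
      Preadditive.add_comp, Preadditive.neg_comp, h7, Preadditive.zsmul_comp,
      ← Preadditive.comp_zsmul, h1, comp_zero, add_zero, neg_one_zsmul]

include hD hC in
/-- The same for every name of the degree `p - 1`. -/
theorem exists_tau' (hp2 : p ≠ 2) {w : ℤ} (hw : w = ((p - 1 : ℕ) : ℤ)) :
    ∃ (θ : (𝟙_ T)⟦2 * ((p : ℤ) - 1)⟧ ≅ (stdEven T).S w)
      (τ : (stdEven T).S w ⟶ b.obj ⊗ b.obj),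
      coefK e (b.obj ⊗ b.obj) (cc ((thKHom e (inlM b.obj b.obj)).push ((thKHom e b.u).push oD))
        ((thKHom e (inrM b.obj b.obj)).push ((thKHom e b.u).push oD)) (p - 1)) =
        HRing.of (stdEven T) (b.obj ⊗ b.obj) w τ ∧
      (θ.hom ≫ τ) ≫ (b.obj ◁ U.ρ) ≫ (b.obj ◁ inC (𝟙 U.J) i) =
        (-1 : ℤ) • (inC Z.aJ i ≫ unitMap b.obj (U.J ⊗ C)) := by
  obtain rfl : w = (p : ℤ) - 1 := by
    rw [hw, Nat.cast_sub hp.out.one_lt.le, Nat.cast_one]
  obtain ⟨τ, h1, h2⟩ := exists_tau e oD hD b hC Z hp2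
  exact ⟨(sphI T ((p : ℤ) - 1)).symm, τ, h1, h2⟩

end main

end Vale.Agent.P257.V4.T.HT
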