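import Vale.Agent.P257.V4.B.XMB
import Vale.Agent.P257.V4.K.PSer3
import Vale.Agent.P251.M.ChainMU

/-!
# P257, block T: sparseness of the comparison series and of the multiplication series

Over a `p`-local theory, for orientations whose laws are in normal form:
* `cc_eq_zero` : the coefficients `c_j` of the comparison series (`csp`, which is the `cc` of
  `T/Cmp.lean`) vanish unless `p - 1 ∣ j`;
* `coeff_mult_eq_zero` : the coefficient of `x ^ (k + 1)` in `[m](x)` vanishes unless `p - 1 ∣ k`.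
For the theory of a `p`-local commutative monoid `K` and morphisms of monoids `g : MU ⟶ K` with
normal law, in particular for the tensor powers of the retract `b : BData D p`: `isNF_push`,
`ploc_thK`, `cc_b_eq_zero`, `coeff_b_eq_zero`, `hc_b`, `hc_am`.
-/

open CategoryTheory MonoidalCategory MonObj Limits Pretriangulated

universe v u

set_option linter.unusedSectionVars false

noncomputable section

namespace Vale.Agent.P257.V4.T.Spar

open Vale.Agent.P251.Q Vale.Agent.P251.Q.MultTheory Vale.Agent.P251.M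
open Vale.Agent.P217 Vale.Agent.P251.F Vale.Agent.P257.V4.B
open Vale.Agent.P251.S Vale.Agent.P251.T Vale.Agent.P251.I
open Vale.Agent.P251.X Vale.Agent.P093.PLoc EvenSpheres

/-! ### Functions on chains -/

section alg

variable {p : ℕ} [hp : Fact p.Prime] {s : ℕ} {B : Type v} [CommRing B]

/-- **Sparseness**, for rings in any universe. -/
theorem hom_eq_zero [PLoc p B] (φ : Cob Laz s →+* B) (hφ : ∀ i, IsNF p (vtxH φ i)) {w : ℤ}
    (hw : ¬ ((p - 1 : ℕ) : ℤ) ∣ w) {z : Cob Laz s} (hz : Cob.IsWt w z) : φ z = 0 := by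
  set S := (prM p).map (Nat.castRingHom (Cob Laz s)) with hS
  set L := Localization S with hL
  have hloc : PLoc p L := ⟨fun m hm => by
    have h := IsLocalization.map_units L (⟨(m : Cob Laz s), ⟨m, hm, rfl⟩⟩ : S)
    rwa [map_natCast] at h⟩
  set c₀ : Chain Laz s L := (Cob.univ Laz s).map (algebraMap _ L) with hc₀
  have hu : ∀ y : S, IsUnit (φ (y : Cob Laz s)) := by
    rintro ⟨_, m, hm, rfl⟩
    change IsUnit (φ ((m : ℕ) : Cob Laz s))
    rw [map_natCast]
    exact PLoc.isUnit (p := p) m hm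
  set ψ : L →+* B := IsLocalization.lift hu with hψ
  have hψφ : ψ.comp (algebraMap _ L) = φ := IsLocalization.lift_comp hu
  have hv : ∀ i, (c₀.vertex i).map ψ = vtxH φ i := by
    intro i
    rw [hc₀, vtx_map, Chain.vertex, InvSeries.map_smul, InvSeries.map_smul, Law.map_map,
      Law.map_map, InvSeries.map_map, vtxH, hψφ]
    congr 2
  have h1 : ψ.comp (Cob.ev (nfC p c₀)) = φ := by
    apply hom_ext_chain
    · have h2 : ((ψ.comp (Cob.ev (nfC p c₀))).comp MvPolynomial.C) = ψ.comp (nfC p c₀).pt := by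
        ext a
        simp
      rw [h2, ← Law.map_map]
      have h3 : Laz.univ.map (nfC p c₀).pt = nf p (c₀.vertex 0) • c₀.vertex 0 := by
        rw [← vertex_nfC, vtx_zero]
        rfl
      rw [h3, InvSeries.map_smul, map_nf, hv, nf_eq_one (hφ 0), one_smul, vtxH,
        (Cob.univ Laz s).zero, map_one, one_smul]
    · intro i
      have h2 : InvSeries.map (ψ.comp (Cob.ev (nfC p c₀))) ((Cob.univ Laz s).g i) =
          InvSeries.map ψ ((nfC p c₀).g i) := by
        rw [← InvSeries.map_map]
        congr 1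
        exact congrArg (fun c => Chain.g c i) (Cob.univ_map_ev (nfC p c₀))
      rw [h2, nfC_g, map_mul, map_mul, map_inv, map_nf, map_nf, hv, hv, nf_eq_one (hφ 0),
        nf_eq_one (hφ i), _root_.one_mul, inv_one, _root_.mul_one, hc₀, Chain.map_g,
        InvSeries.map_map, hψφ]
  have h2 : ψ (Cob.ev (nfC p c₀) z) = φ z := congrArg (fun f => f z) h1
  rw [← h2, ev_eq_zero_of_isNC (isNC_nfC c₀) hw hz, map_zero]

theorem not_dvd_int {k : ℕ} (hk : ¬ p - 1 ∣ k) : ¬ ((p - 1 : ℕ) : ℤ) ∣ (k : ℤ) := fun h =>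
  hk (Int.natCast_dvd_natCast.1 h)

end alg

/-! ### Theories -/

section theory

variable {p : ℕ} [hp : Fact p.Prime] {E : MultTheory.{v}} [PLoc p E.A]

/-- the laws of the chain of orientations -/
theorem vtxH_oEv {n : ℕ} (o : Fin (n + 1) → Orientation E) (i : Fin (n + 1)) :
    vtxH (oEv o) i = (o i).law := by
  have h1 := LChain.univ_map_ev (oChain o)
  have h2 : vtxH (oEv o) i = ((LChain.ofChain (Cob.univ Laz n)).map (oEv o)).vertex i := by
    rw [vtxH, LChain.vertex, LChain.map_g, LChain.map_law]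
    congr 1
  rw [h2]
  change ((LChain.ofChain (Cob.univ Laz n)).map (LChain.ev (oChain o))).vertex i = _
  rw [h1, oChain_vertex]

/-- The functions on chains of weight `w`, `(p - 1) ∤ w`, vanish on orientations with normal laws
of a `p`-local theory. -/
theorem oEv_eq_zero {n : ℕ} (o : Fin (n + 1) → Orientation E) (h : ∀ i, IsNF p (o i).law)
    {w : ℤ} (hw : ¬ ((p - 1 : ℕ) : ℤ) ∣ w) {z : Cob Laz n} (hz : Cob.IsWt w z) :
    oEv o z = 0 :=
  hom_eq_zero (oEv o) (fun i => by rw [vtxH_oEv]; exact h i) hw hz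

/-- **Sparseness of the comparison series.** -/
theorem cmp_c_eq_zero (o o' : Orientation E) (h : IsNF p o.law) (h' : IsNF p o'.law)
    (hz : (coordO o').z 1 = (coordO o).z 1) {j : ℕ} (hj : ¬ p - 1 ∣ j) :
    (CPSys.Coord.cmp (coordO o) (coordO o') hz).c j = 0 := by
  obtain ⟨m, rfl⟩ : ∃ m, j = m + 1 := by
    rcases j with _ | m
    · exact absurd (dvd_zero _) hj
    · exact ⟨m, rfl⟩
  have h1 := oEv_eq_zero (p := p) (n := 1) ![o, o'] (by
    intro i
    fin_cases i
    · exact h
    · exact h') (w := ((m + 1 : ℕ) : ℤ)) (not_dvd_int hj)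
      (z := MvPolynomial.X ((0 : Fin 1), m)) (by exact_mod_cast Cob.isWt_X 0 m)
  rw [oEv, LChain.ev_X] at h1
  exact h1

/-- the coefficients of the comparison series (the `cc` of `T/Cmp.lean`) -/
abbrev csp {E : MultTheory.{v}} (o o' : Orientation E) (i : ℕ) : E.A :=
  (CPSys.Coord.cmp (coordO o) (coordO o') (z_one_eq o' o)).c i

/-- **Sparseness of the comparison series.** -/
theorem cc_eq_zero (o o' : Orientation E) (h : IsNF p o.law) (h' : IsNF p o'.law)
    {j : ℕ} (hj : ¬ p - 1 ∣ j) : csp o o' j = 0 :=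
  cmp_c_eq_zero o o' h h' (z_one_eq o' o) hj

/-- **Sparseness of the multiplication series.** -/
theorem coeff_mult_eq_zero (o : Orientation E) (h : IsNF p o.law) (m : ℕ) {k : ℕ}
    (hk : ¬ p - 1 ∣ k) : PowerSeries.coeff (k + 1) (multSeries o.law.toFG m) = 0 := by
  have h1 := oEv_eq_zero (p := p) (n := 0) (fun _ => o) (fun _ => h) (w := (k : ℤ))
    (not_dvd_int hk) (K.isWt_coeff_mult m k)
  rw [oEv_C, ← K.coeff_map_law, Laz.univ_map_lift] at h1
  exact h1

theorem not_dvd_of_lt {k : ℕ} (h0 : 0 < k) (h1 : k < p - 1) : ¬ p - 1 ∣ k := fun h =>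
  absurd (Nat.le_of_dvd h0 h) (by omega)

theorem cc_eq_zero_of_lt (o o' : Orientation E) (h : IsNF p o.law) (h' : IsNF p o'.law)
    {j : ℕ} (h0 : 0 < j) (h1 : j < p - 1) : csp o o' j = 0 :=
  cc_eq_zero o o' h h' (not_dvd_of_lt h0 h1)

/-- the coefficients of `[m](x)` in degrees `2, …, p - 1` vanish -/
theorem coeff_mult_eq_zero_of_lt (o : Orientation E) (h : IsNF p o.law) (m : ℕ) {l : ℕ}
    (h0 : 2 ≤ l) (h1 : l < p) : PowerSeries.coeff l (multSeries o.law.toFG m) = 0 := by
  obtain ⟨k, rfl⟩ : ∃ k, l = k + 1 := ⟨l - 1, by omega⟩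
  exact coeff_mult_eq_zero o h m (not_dvd_of_lt (by omega) (by omega))

end theory

/-! ### The theory of a commutative monoid -/

section thK

variable {T : Type u} [Category.{v} T] [Preadditive T] [HasZeroObject T]
    [HasShift T ℤ] [∀ n : ℤ, (shiftFunctor T n).Additive] [Pretriangulated T] [IsTriangulated T]
    [MonoidalCategory T] [SymmetricCategory T] [TensorTriangulated T] [MonoidalClosed T]
    [HasCoproducts.{0} T] [HasProducts.{0} T] [StableCat T]
  {D : MUData T} {p : ℕ} [hp : Fact p.Prime] {F : SpaceFunctor T}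
  (e : F.S.obj CCF ≅ (stdEven T).L) {K : T} [MonObj K] [IsCommMonObj K]

omit hp in
theorem isNF_of_map {A B : Type*} [CommRing A] [CommRing B] {φ : A →+* B}
    (hφ : Function.Injective φ) {L : Law A} (h : IsNF p (L.map φ)) : IsNF p L := fun n hn =>
  hφ (by rw [map_xC, h n hn, map_zero])

/-- the coefficient ring of the theory of a `p`-local monoid is `p`-local -/
theorem ploc_thK (hK : IsPLocal p K) : PLoc p (thK e K).A := by
  have h1 : PLoc p (HRing (stdEven T) K) := ploc_HRing hK
  exact PLoc.of_hom (RingEquiv.ofBijective (coefK e K) (coefK_bijective e K)).symm.toRingHom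

theorem push_law_map (o : Orientation (thK e D.R)) (hD : D.ev 0 = amEv e D.R o 0)
    (g : D.R ⟶ K) [IsMonHom g] : ((thKHom e g).push o).law.map (coefK e K) = lawOf g := by
  have h1 : (coefK e K).comp (thKHom e g).mapA =
      (HRing.map (E := stdEven T) g).comp (coefK e D.R) :=
    RingHom.ext fun a => coefK_mapA e g a
  rw [law_push, Law.map_map, h1, ← Law.map_map, ← law_of_amEv e D o hD]
  rfl

/-- the law of the orientation of `K` given by `g : MU ⟶ K` is normal if `lawOf g` is -/
theorem isNF_push (o : Orientation (thK e D.R)) (hD : D.ev 0 = amEv e D.R o 0)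
    (g : D.R ⟶ K) [IsMonHom g] (hg : IsNF p (lawOf g)) : IsNF p ((thKHom e g).push o).law :=
  isNF_of_map (coefK_bijective e K).1 (by rwa [push_law_map e o hD g])

variable (b : BData D p)

/-- the orientation of a commutative monoid under `b.obj` is normal -/
theorem isNF_push_b (o : Orientation (thK e D.R)) (hD : D.ev 0 = amEv e D.R o 0)
    (g : b.obj ⟶ K) [IsMonHom g] :
    IsNF p ((thKHom e g).push ((thKHom e b.u).push o)).law := by
  rw [law_push]
  exact (isNF_push e o hD b.u b.isNF).map _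

/-- **(S2)** for two morphisms `g, g' : b.obj ⟶ K`, `K` a `p`-local commutative monoid -/
theorem cc_b_eq_zero (o : Orientation (thK e D.R)) (hD : D.ev 0 = amEv e D.R o 0)
    (hK : IsPLocal p K) (g g' : b.obj ⟶ K) [IsMonHom g] [IsMonHom g'] {j : ℕ}
    (hj : ¬ p - 1 ∣ j) :
    csp ((thKHom e g).push ((thKHom e b.u).push o)) ((thKHom e g').push ((thKHom e b.u).push o))
      j = 0 := by
  have := ploc_thK (p := p) e hK
  exact cc_eq_zero _ _ (isNF_push_b e b o hD g) (isNF_push_b e b o hD g') hj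

/-- **(S1)** for a morphism `g : b.obj ⟶ K`, `K` a `p`-local commutative monoid -/
theorem coeff_b_eq_zero (o : Orientation (thK e D.R)) (hD : D.ev 0 = amEv e D.R o 0)
    (hK : IsPLocal p K) (g : b.obj ⟶ K) [IsMonHom g] (m : ℕ) {k : ℕ} (hk : ¬ p - 1 ∣ k) :
    PowerSeries.coeff (k + 1)
      (multSeries ((thKHom e g).push ((thKHom e b.u).push o)).law.toFG m) = 0 := by
  have := ploc_thK (p := p) e hK
  exact coeff_mult_eq_zero _ (isNF_push_b e b o hD g) m hk

/-- **(S2)** in the form of the hypothesis `hc` of `cmpU_kRho` -/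
theorem hc_b (o : Orientation (thK e D.R)) (hD : D.ev 0 = amEv e D.R o 0)
    (hK : IsPLocal p K) (g g' : b.obj ⟶ K) [IsMonHom g] [IsMonHom g'] :
    ∀ i, 0 < i → i < p - 1 → ∃ a : (thK e K).A,
      csp ((thKHom e g).push ((thKHom e b.u).push o)) ((thKHom e g').push ((thKHom e b.u).push o))
        i = p • a := fun i h0 h1 =>
  ⟨0, by rw [cc_b_eq_zero e b o hD hK g g' (not_dvd_of_lt h0 h1), smul_zero]⟩

/-- `hc_b` for two vertices of a tensor power of `b.obj` -/
theorem hc_am (o : Orientation (thK e D.R)) (hD : D.ev 0 = amEv e D.R o 0) {s : ℕ}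
    (j k : Fin (s + 1)) : ∀ i, 0 < i → i < p - 1 → ∃ a : (thK e (Am b.obj (s + 1))).A,
      csp (amO e b.obj ((thKHom e b.u).push o) j) (amO e b.obj ((thKHom e b.u).push o) k)
        i = p • a :=
  hc_b e b o hD (isPLocal_am b.isPLocal s) (Am.v b.obj j) (Am.v b.obj k)

end thK

end Vale.Agent.P257.V4.T.Spar

end
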