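import Vale.Agent.P257.V4.T.BetaDies
import Vale.Agent.P257.V4.E.CupX
import Vale.Agent.P257.V4.E.CompFin
import Vale.Agent.P251.F.T1Coc

/-!
# P257, V(4), part T: the elements `α₁`, `β₁` and the Toda relation

`E : RMod cobK R`, `U : UnitCof R`. `T0D E U p` : lifts `a : 𝟙⟦2(p-1)⟧ ⟶ B 1 𝟙` and
`x : 𝟙⟦2p(p-1)⟧ ⟶ B 2 𝟙` with classes `t`, `bcls p t`, `p t = d v₁`.

* `T0D.α : 𝟙⟦2(p-1)-1⟧ ⟶ 𝟙`, `T0D.β : 𝟙⟦2p(p-1)-2⟧ ⟶ 𝟙`;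
* `T0D.at_eq`, `T0D.bt_eq`, `T0D.at_class`, `T0D.bt_class`: the lifts on the spheres `S w`;
* `T0D.kill`: if `α β ^ p = 0` in `S/p` and the filtration `3` part of
  `π (S/p ⊗ C(α) ^ (p-1))` vanishes in the stem of `β`, then for every `Y` with a unital action of
  `X` (`p u = 0` for `u : 𝟙 ⟶ X`), `y α = 0` implies `y β ^ ((p-1)^2) = 0`.
-/

set_option linter.unusedSectionVars false

open CategoryTheory MonoidalCategory Limits MonObj Pretriangulated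

universe v u

namespace Vale.Agent.P257.V4.T

open Vale.Agent.P251.T Vale.Agent.P251.S Vale.Agent.P251.M Vale.Agent.P251.M.EvenSpheres
open Vale.Agent.P251.F Vale.Agent.P251.I Vale.Agent.P257.V4.E Vale.Agent.P257.V4.B

variable {T : Type u} [Category.{v} T] [Preadditive T] [HasZeroObject T] [HasShift T ℤ]
  [∀ n : ℤ, (shiftFunctor T n).Additive] [Pretriangulated T] [MonoidalCategory T]
  [SymmetricCategory T] [TensorTriangulated T] [HasCoproducts.{0} T]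

/-- Data for `α₁` and `β₁`. -/
structure T0D {R : T} [MonObj R] [IsCommMonObj R] (E : RMod cobK R) (U : UnitCof R) (p : ℕ)
    [Fact p.Prime] where
  /-- the cocycle `t` -/
  t : Cob Laz 1
  isT1 : IsT1 p t
  wt : t ∈ cobK.wt 1 ((p : ℤ) - 1)
  wb : bcls p t ∈ cobK.wt 2 ((p : ℤ) * ((p : ℤ) - 1))
  /-- the lift of `α₁` -/
  a : (𝟙_ T)⟦2 * ((p : ℤ) - 1)⟧ ⟶ U.cobar.B 1 (𝟙_ T)
  a_class : coch U (E.evw 1 ((p : ℤ) - 1) ⟨t, wt⟩) ≫ U.cobar.q 1 (𝟙_ T) = a ≫ unitMap R _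
  /-- the lift of `β₁` -/
  x : (𝟙_ T)⟦2 * ((p : ℤ) * ((p : ℤ) - 1))⟧ ⟶ U.cobar.B 2 (𝟙_ T)
  x_class : coch U (E.evw 2 ((p : ℤ) * ((p : ℤ) - 1)) ⟨bcls p t, wb⟩) ≫ U.cobar.q 2 (𝟙_ T) =
    x ≫ unitMap R _

namespace T0D

variable {R : T} [MonObj R] [IsCommMonObj R] {E : RMod cobK R} {U : UnitCof R} {p : ℕ}
  [Fact p.Prime] (Z : T0D E U p)

/-- the element `α₁` -/
noncomputable def α : (𝟙_ T)⟦2 * ((p : ℤ) - 1) - 1⟧ ⟶ 𝟙_ T :=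
  (sh (2 * ((p : ℤ) - 1) - 1) 1 (2 * ((p : ℤ) - 1)) (by ring)).symm (Z.a ≫ U.bd 0 (𝟙_ T))

lemma sh_α : sh (2 * ((p : ℤ) - 1) - 1) 1 (2 * ((p : ℤ) - 1)) (by ring) Z.α =
    Z.a ≫ U.bd 0 (𝟙_ T) := AddEquiv.apply_symm_apply _ _

/-- the element `β₁` -/
noncomputable def β : (𝟙_ T)⟦2 * ((p : ℤ) * ((p : ℤ) - 1)) - 2⟧ ⟶ 𝟙_ T :=
  toD0 U ((p : ℤ) * ((p : ℤ) - 1)) Z.x

/-- the cochain `t` on the sphere -/
noncomputable def tE : (stdEven T).S ((p : ℤ) - 1) ⟶ Am R 2 := E.evw 1 ((p : ℤ) - 1) ⟨Z.t, Z.wt⟩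

/-- the cochain `b` on the sphere -/
noncomputable def bE : (stdEven T).S ((p : ℤ) * ((p : ℤ) - 1)) ⟶ Am R 3 :=
  E.evw 2 ((p : ℤ) * ((p : ℤ) - 1)) ⟨bcls p Z.t, Z.wb⟩

omit [Fact p.Prime] in
lemma d_t [Fact p.Prime] (Z : T0D E U p) : Cob.d 1 Z.t = 0 := by
  have hp0 : (p : ℤ) ≠ 0 := by exact_mod_cast (Fact.out : p.Prime).ne_zero
  apply Cob.eq_zero_of_smul hp0
  rw [← map_zsmul, show (p : ℤ) • Z.t = _ from Z.isT1, Cob.d_d]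

lemma isCoc_tE : IsCoc Z.tE := by
  have h1 : E.evw 2 ((p : ℤ) - 1) (cobK.d 1 ((p : ℤ) - 1) ⟨Z.t, Z.wt⟩) = 0 := by
    have h2 : cobK.d 1 ((p : ℤ) - 1) ⟨Z.t, Z.wt⟩ = 0 := by
      apply Subtype.ext
      rw [CosR.d_apply, AddSubgroup.val_finsetSum]
      refine Eq.trans ?_ Z.d_t
      rw [Cob.d_apply]
      rfl
    rw [h2, map_zero]
  rw [CosR.d_apply, map_sum] at h1
  rw [IsCoc, Preadditive.comp_sum, ← h1]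
  refine Finset.sum_congr rfl fun j _ => ?_
  rw [map_zsmul, Preadditive.comp_zsmul, E.evw_map]
  rfl

lemma bb_bE : bb p (tv Z.tE 3 0 1) (tv Z.tE 3 1 2) =
    HRing.of (stdEven T) (Am R 3) ((p : ℤ) * ((p : ℤ) - 1)) Z.bE := by
  have h1 : HRing.of (stdEven T) (Am R 3) ((p : ℤ) * ((p : ℤ) - 1)) Z.bE =
      E.ev 2 (bcls p Z.t) := E.of_evw ⟨bcls p Z.t, Z.wb⟩
  have h2 : ∀ α : Fin 2 → Fin 3, E.ev 2 (Cob.map α Z.t) = tv Z.tE 3 (α 0) (α 1) := by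
    intro α
    have h3 := E.ev_map 1 2 α Z.t
    have h4 : E.ev 1 Z.t = HRing.of (stdEven T) (Am R 2) ((p : ℤ) - 1) Z.tE :=
      (E.of_evw ⟨Z.t, Z.wt⟩).symm
    rw [h4, HRing.map_of] at h3
    have h5 : α = ![α 0, α 1] := by
      funext j
      fin_cases j <;> rfl
    refine h3.symm.trans ?_
    rw [tv, ← h5]
  have hf : E.ev 2 (Cob.map (Cob.front 1 1) Z.t) = tv Z.tE 3 0 1 := h2 _
  have hb : E.ev 2 (Cob.map (Cob.back 1 1) Z.t) = tv Z.tE 3 1 2 := h2 _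
  have h6 : ∀ i : ℕ, Cob.cup (Z.t ^ i) (Z.t ^ (p - i)) =
      Cob.map (Cob.front 1 1) Z.t ^ i * Cob.map (Cob.back 1 1) Z.t ^ (p - i) := by
    intro i
    change Cob.map (Cob.front 1 1) (Z.t ^ i) * Cob.map (Cob.back 1 1) (Z.t ^ (p - i)) = _
    rw [map_pow, map_pow]
  have h7 : ∀ i : ℕ,
      E.ev 2 (Cob.map (Cob.front 1 1) Z.t ^ i * Cob.map (Cob.back 1 1) Z.t ^ (p - i)) =
      tv Z.tE 3 0 1 ^ i * tv Z.tE 3 1 2 ^ (p - i) := by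
    intro i
    rw [← hf, ← hb]
    refine (map_mul (E.ev 2) _ _).trans ?_
    exact congrArg₂ (· * ·) (map_pow (E.ev 2) _ _) (map_pow (E.ev 2) _ _)
  rw [h1, bb_symm, bcls]
  refine Eq.trans ?_ (map_sum (E.ev 2) _ _).symm
  refine Finset.sum_congr rfl fun i _ => ?_
  refine Eq.trans ?_ (map_zsmul (E.ev 2) _ _).symm
  rw [zsmul_eq_mul]
  refine Eq.trans ?_ (congrArg _ ((congrArg (E.ev 2) (h6 i)).trans (h7 i)).symm)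
  rw [Int.cast_natCast]
  rfl

/-! ### The lifts on the spheres `S w` -/

/-- the lift of `α` on the sphere `S (p-1)` -/
noncomputable def at' : (stdEven T).S ((p : ℤ) - 1) ⟶ U.cobar.B 1 (𝟙_ T) :=
  (sphI T ((p : ℤ) - 1)).hom ≫ Z.a

/-- the lift of `β` on the sphere `S (p(p-1))` -/
noncomputable def bt' : (stdEven T).S ((p : ℤ) * ((p : ℤ) - 1)) ⟶ U.cobar.B 2 (𝟙_ T) :=
  (sphI T ((p : ℤ) * ((p : ℤ) - 1))).hom ≫ Z.x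

/-- `S (p-1) ≅ A⟦1⟧` -/
noncomputable def ea : (stdEven T).S ((p : ℤ) - 1) ≅
    ((𝟙_ T)⟦2 * ((p : ℤ) - 1) - 1⟧)⟦(1 : ℤ)⟧ :=
  sphI T ((p : ℤ) - 1) ≪≫
    (shiftFunctorAdd' T (2 * ((p : ℤ) - 1) - 1) 1 (2 * ((p : ℤ) - 1)) (by ring)).app (𝟙_ T)

/-- `S (p(p-1)) ≅ B⟦1⟧⟦1⟧` -/
noncomputable def eb : (stdEven T).S ((p : ℤ) * ((p : ℤ) - 1)) ≅
    (((𝟙_ T)⟦2 * ((p : ℤ) * ((p : ℤ) - 1)) - 2⟧)⟦(1 : ℤ)⟧)⟦(1 : ℤ)⟧ :=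
  sphI T ((p : ℤ) * ((p : ℤ) - 1)) ≪≫
    (shiftFunctorAdd' T (2 * ((p : ℤ) * ((p : ℤ) - 1)) - 1) 1 (2 * ((p : ℤ) * ((p : ℤ) - 1)))
      (by ring)).app (𝟙_ T) ≪≫
    (shiftFunctor T (1 : ℤ)).mapIso
      ((shiftFunctorAdd' T (2 * ((p : ℤ) * ((p : ℤ) - 1)) - 2) 1
        (2 * ((p : ℤ) * ((p : ℤ) - 1)) - 1) (by ring)).app (𝟙_ T))

theorem at_bd : Z.at' ≫ U.bd 0 (𝟙_ T) = (ea (p := p)).hom ≫ (Z.α)⟦(1 : ℤ)⟧' := by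
  have h1 : sh (2 * ((p : ℤ) - 1) - 1) 1 (2 * ((p : ℤ) - 1)) (by ring) Z.α =
      Z.a ≫ U.bd 0 (𝟙_ T) := Z.sh_α
  rw [at', Category.assoc, ← h1, ea, Iso.trans_hom, Category.assoc]
  rfl

theorem bt_bd : Z.bt' ≫ U.bd 1 (𝟙_ T) ≫ (U.bd 0 (𝟙_ T))⟦(1 : ℤ)⟧' =
    (eb (p := p)).hom ≫ ((Z.β)⟦(1 : ℤ)⟧')⟦(1 : ℤ)⟧' := by
  set w : ℤ := (p : ℤ) * ((p : ℤ) - 1) with hw
  let y : (Cpl U (𝟙_ T)).D 2 (2 * w - 2) := inD2 U w Z.x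
  let y1 : (Cpl U (𝟙_ T)).D 1 (2 * w - 2) := (Cpl U (𝟙_ T)).i 1 (2 * w - 2) y
  let d1 : (𝟙_ T)⟦2 * w - 1⟧ ⟶ U.cobar.B 1 (𝟙_ T) :=
    (U.tow (𝟙_ T)).eD (𝟙_ T) (s := 1) (n := 2 * w - 2) (t := 2 * w - 1) (by push_cast; ring) y1
  have h0 : (U.tow (𝟙_ T)).eD (𝟙_ T) (s := 2) (n := 2 * w - 2) (t := 2 * w)
      (by push_cast; ring) y = Z.x := AddEquiv.apply_symm_apply _ _
  have h1 : sh (2 * w - 1) 1 (2 * w) (by ring) d1 = Z.x ≫ U.bd 1 (𝟙_ T) := by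
    have h := (U.tow (𝟙_ T)).eD_i (𝟙_ T) (s := 1) (n := 2 * w - 2) (t := 2 * w - 1) (t' := 2 * w)
      (by push_cast; ring) (by push_cast; ring) (by ring) y
    rw [h0] at h
    exact h
  have h2 : sh (2 * w - 2) 1 (2 * w - 1) (by ring) Z.β = d1 ≫ U.bd 0 (𝟙_ T) :=
    (U.tow (𝟙_ T)).eD_i (𝟙_ T) (s := 0) (n := 2 * w - 2) (t := 2 * w - 2) (t' := 2 * w - 1)
      (by simp) (by push_cast; ring) (by ring) y1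
  have h3 : Z.x ≫ U.bd 1 (𝟙_ T) ≫ (U.bd 0 (𝟙_ T))⟦(1 : ℤ)⟧' =
      sh (2 * w - 1) 1 (2 * w) (by ring) (sh (2 * w - 2) 1 (2 * w - 1) (by ring) Z.β) := by
    rw [h2, sh_comp, h1, Category.assoc]
  rw [bt', Category.assoc, h3, eb, Iso.trans_hom, Iso.trans_hom, Category.assoc, Category.assoc]
  refine congrArg (fun f => (sphI T w).hom ≫ f) ?_
  change (shiftFunctorAdd' T (2 * w - 1) 1 (2 * w) (by ring)).hom.app (𝟙_ T) ≫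
      ((shiftFunctorAdd' T (2 * w - 2) 1 (2 * w - 1) (by ring)).hom.app (𝟙_ T) ≫
        (Z.β)⟦(1 : ℤ)⟧')⟦(1 : ℤ)⟧' = _
  rw [Functor.map_comp]
  rfl

lemma coch_qX {s : ℕ} {w : ℤ} (z : cobK.wt s w) {X : T} (u : 𝟙_ T ⟶ X)
    (y : (𝟙_ T)⟦2 * w⟧ ⟶ U.cobar.B s (𝟙_ T))
    (hy : coch U (E.evw s w z) ≫ U.cobar.q s (𝟙_ T) = y ≫ unitMap R _) :
    (((sphI T w).hom ≫ y) ≫ U.cobar.Bm s u) ≫ unitMap R _ = E.qX U u s w z := by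
  have h1 := coch_Qm U (E.evw s w z) u
  have h2 : E.qX U u s w z = (sphI T w).hom ≫ (coch U (E.evw s w z) ≫ U.cobar.Qm (s + 1) u) ≫
      U.cobar.q s X := by
    rw [h1, RMod.qX_apply, RMod.cX_apply, RMod.evX_apply, ux]
    simp only [Category.assoc, Iso.hom_inv_id_assoc]
  rw [h2, Category.assoc, Category.assoc, Category.assoc]
  congr 1
  have h3 := U.cobar.q_naturality s u
  rw [unitMap_nat, ← Category.assoc, ← hy, Category.assoc]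
  exact (congrArg _ h3).symm

/-- the class of `α₁` in `X` -/
theorem at_class {X : T} (u : 𝟙_ T ⟶ X) :
    (Z.at' ≫ U.cobar.Bm 1 u) ≫ unitMap R _ = E.qX U u 1 _ ⟨Z.t, Z.wt⟩ :=
  coch_qX ⟨Z.t, Z.wt⟩ u Z.a Z.a_class

/-- the class of `β₁` in `X` -/
theorem bt_class {X : T} (u : 𝟙_ T ⟶ X) :
    (Z.bt' ≫ U.cobar.Bm 2 u) ≫ unitMap R _ = E.qX U u 2 _ ⟨bcls p Z.t, Z.wb⟩ :=
  coch_qX ⟨bcls p Z.t, Z.wb⟩ u Z.x Z.x_class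

/-! ### The nilpotence -/

/-- **`β₁` is nilpotent on the kernel of `α₁`.** -/
theorem kill {Sp : T} {ip : 𝟙_ T ⟶ Sp} {δp : Sp ⟶ (𝟙_ T)⟦(1 : ℤ)⟧}
    (hSp : Triangle.mk ((p : ℤ) • 𝟙 (𝟙_ T)) ip δp ∈ distTriang T)
    {C : T} {i : 𝟙_ T ⟶ C} {δ : C ⟶ ((𝟙_ T)⟦2 * ((p : ℤ) - 1) - 1⟧)⟦(1 : ℤ)⟧}
    (hC : Triangle.mk Z.α i δ ∈ distTriang T)
    (h0 : mulPow Z.α Z.β p ≫ ip = 0)
    (hvan : ∀ y : (Cpl U (It C (p - 1) Sp)).D 3 (2 * ((p : ℤ) * ((p : ℤ) - 1)) - 2),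
      (Cpl U (It C (p - 1) Sp)).i 2 (2 * ((p : ℤ) * ((p : ℤ) - 1)) - 2) y = 0)
    {X Y V : T} (u : 𝟙_ T ⟶ X) (hu : (p : ℤ) • u = 0) (a : X ⊗ Y ⟶ Y)
    (ha : (u ▷ Y) ≫ a = (λ_ Y).hom) (y : V ⟶ Y) (hy : Ann y Z.α) :
    mulPow y Z.β ((p - 1) ^ 2) = 0 := by
  have hp := (Fact.out : p.Prime)
  have hpip : (p : ℤ) • ip = 0 := by
    have h := comp_distTriang_mor_zero₁₂ _ hSp
    change ((p : ℤ) • 𝟙 (𝟙_ T)) ≫ ip = 0 at h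
    rwa [Preadditive.zsmul_comp, Category.id_comp] at h
  obtain ⟨g, hg⟩ : ∃ g : Sp ⟶ X, u = ip ≫ g := Triangle.yoneda_exact₂ _ hSp u (by
    change ((p : ℤ) • 𝟙 (𝟙_ T)) ≫ u = 0
    rw [Preadditive.zsmul_comp, Category.id_comp, hu])
  have h1 : (Z.β ≫ ip ≫ itι i (p - 2 + 1) Sp) = 0 := by
    have h2 := beta_dies U hp (isCoc_tE Z) hC Z.a Z.sh_α Z.a_class Z.bE Z.bb_bE Z.x Z.x_class
      ip hpip hvan
    have h3 : p - 2 + 1 = p - 1 := by have := hp.two_le; omega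
    rw [h3]
    exact h2
  have h4 := toda_descent' hC Z.β ip p h0 (p - 2) h1 (g ▷ Y ≫ a)
    (by rw [← comp_whiskerRight_assoc, ← hg, ha]) y hy
  have h5 : p * (p - 2) + 1 = (p - 1) ^ 2 := by
    obtain ⟨m, rfl⟩ : ∃ m, p = m + 2 := ⟨p - 2, by have := hp.two_le; omega⟩
    simp only [Nat.add_sub_cancel, show m + 2 - 1 = m + 1 by omega]
    ring
  rwa [h5] at h4

end T0D

end Vale.Agent.P257.V4.T
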