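import Vale.Agent.P257.V4.O.Cells
import Vale.Agent.P257.V4.E.TenR
import Vale.Agent.P257.V4.T.Toda

/-!
# P257, V(4), part T (T3): no room in filtration 3

`X` with `π_k (R ⊗ B s X) = 0` unless `q ∣ k` (sparseness) and `π_k (B s X) = 0` for `k < q s`
(connectivity), `q = 2 (p - 1)`, `C` the cofibre of `α : 𝟙⟦q - 1⟧ ⟶ 𝟙`. Then
`π_{p q + 1} (B 3 (X ⊗ C ⊗ ... ⊗ C)) = 0`: `room`, and the form needed for `T0D.kill`: `hvan_room`.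
-/

set_option linter.unusedSectionVars false

open CategoryTheory MonoidalCategory Limits MonObj Pretriangulated

universe v u

namespace Vale.Agent.P257.V4.T.T3

open Vale.Agent.P251.T Vale.Agent.P251.S Vale.Agent.P257.V4.O Vale.Agent.P257.V4.E

variable {T : Type u} [Category.{v} T] [Preadditive T] [HasZeroObject T] [HasShift T ℤ]
  [∀ n : ℤ, (shiftFunctor T n).Additive] [Pretriangulated T] [MonoidalCategory T]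
  [SymmetricCategory T] [TensorTriangulated T] {R : T} [MonObj R] (U : UnitCof R) {X : T} {q : ℤ}

/-- Below the connectivity line. -/
lemma zr_E_of_lt (hcon : ∀ (s : ℕ) (k : ℤ), k < q * s → Zr ((𝟙_ T)⟦k⟧) (U.cobar.B s X))
    (hq : 0 ≤ q) (s : ℕ) (k : ℤ) (hk : k < q * s) : Zr ((𝟙_ T)⟦k⟧) (R ⊗ U.cobar.B s X) := by
  intro f
  have h1 : f ≫ U.cobar.k s X = 0 := hcon (s + 1) k (by push_cast; nlinarith) _
  obtain ⟨g, hg⟩ := Triangle.coyoneda_exact₂ _ (U.towerTriangle_distinguished s X) f h1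
  have h2 : g = 0 := hcon s k hk _
  rw [hg, h2]
  exact zero_comp

/-- Descending induction in the tower. -/
lemma zr_of_E {s₀ : ℕ} {n : ℤ} (hE : ∀ s, s₀ ≤ s → Zr ((𝟙_ T)⟦n + (s : ℤ)⟧) (R ⊗ U.cobar.B s X))
    {r : ℕ} (hr : ∀ s, r ≤ s → Zr ((𝟙_ T)⟦n + (s : ℤ)⟧) (U.cobar.B s X)) :
    Zr ((𝟙_ T)⟦n + (s₀ : ℤ)⟧) (U.cobar.B s₀ X) := by
  have key : ∀ d s, s₀ ≤ s → s + d = max s₀ r → Zr ((𝟙_ T)⟦n + (s : ℤ)⟧) (U.cobar.B s X) := by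
    intro d
    induction d with
    | zero =>
      intro s _ hs
      exact hr s (by omega)
    | succ d ih =>
      intro s hs0 hs
      have h1 := ih (s + 1) (by omega) (by omega)
      intro y
      obtain ⟨y', hy'⟩ := ((U.tow X).couple (𝟙_ T)).exact_j s n y (hE s hs0 _)
      rw [← hy', show y' = 0 from h1 y']
      exact map_zero (((U.tow X).couple (𝟙_ T)).i s n)
  exact key (max s₀ r - s₀) s₀ le_rfl (by omega)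

/-- The groups of `X`. -/
lemma room_X (hspa : ∀ (s : ℕ) (k : ℤ), ¬ q ∣ k → Zr ((𝟙_ T)⟦k⟧) (R ⊗ U.cobar.B s X))
    (hcon : ∀ (s : ℕ) (k : ℤ), k < q * s → Zr ((𝟙_ T)⟦k⟧) (U.cobar.B s X))
    {p : ℤ} (hp : 3 ≤ p) (hq : q = 2 * (p - 1)) (m : ℤ) (hm : m ≤ p) :
    Zr ((𝟙_ T)⟦q * m - 2 + ((3 : ℕ) : ℤ)⟧) (U.cobar.B 3 X) := by
  have hq4 : 4 ≤ q := by omega
  refine zr_of_E U (fun s hs => ?_) (r := (q * m).toNat) (fun s hs => ?_)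
  · have hs3 : (3 : ℤ) ≤ s := by exact_mod_cast hs
    by_cases h : q ∣ q * m - 2 + (s : ℤ)
    · obtain ⟨c, hc⟩ := h
      refine zr_E_of_lt U hcon (by omega) s _ ?_
      -- `s - 2 = q (c - m)`
      obtain ⟨l, hl⟩ : ∃ l, l = c - m := ⟨_, rfl⟩
      have h1 : (s : ℤ) - 2 = q * l := by rw [hl]; linarith
      have h2 : 1 ≤ l := by
        by_contra h3
        have : l ≤ 0 := by omega
        nlinarith
      have h4 : m + l < 2 + q * l := by nlinarith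
      have h5 : q * m - 2 + (s : ℤ) = q * (m + l) := by rw [mul_add]; linarith
      have h6 : (s : ℤ) = 2 + q * l := by linarith
      rw [h5, h6]
      exact mul_lt_mul_of_pos_left h4 (by omega)
    · exact hspa s _ h
  · refine hcon s _ ?_
    have h1 : q * m ≤ (s : ℤ) := (Int.self_le_toNat (q * m)).trans (by exact_mod_cast hs)
    have h2 : (0 : ℤ) ≤ s := Int.natCast_nonneg s
    rcases h2.lt_or_eq with h3 | h3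
    · nlinarith
    · rw [← h3] at h1 ⊢
      linarith

/-- One cell. -/
lemma room_step {C : T} {α : (𝟙_ T)⟦q - 1⟧ ⟶ 𝟙_ T} {i : 𝟙_ T ⟶ C}
    {δ : C ⟶ ((𝟙_ T)⟦q - 1⟧)⟦(1 : ℤ)⟧} (hC : Triangle.mk α i δ ∈ distTriang T) (s : ℕ) {Y : T}
    (k : ℤ) (h1 : Zr ((𝟙_ T)⟦k⟧) (U.cobar.B s Y)) (h2 : Zr ((𝟙_ T)⟦k - q⟧) (U.cobar.B s Y)) :
    Zr ((𝟙_ T)⟦k⟧) (U.cobar.B s (Y ⊗ C)) := by
  refine Zr.iso_right (τB U C s Y) ?_
  set N := U.cobar.B s Y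
  have hN : Zr ((𝟙_ T)⟦k⟧) (((N ⊗ ((𝟙_ T)⟦q - 1⟧)))⟦(1 : ℤ)⟧) := by
    have e1 : (N⟦q⟧) ≅ ((N ⊗ ((𝟙_ T)⟦q - 1⟧)))⟦(1 : ℤ)⟧ :=
      (shiftFunctorAdd' T (q - 1) 1 q (by ring)).app N ≪≫
        (shiftFunctor T (1 : ℤ)).mapIso (tensorSph (q - 1) N).symm
    refine Zr.iso_right e1 ?_
    refine Zr.iso ((shiftFunctorAdd' T (k - q) q k (by ring)).app (𝟙_ T)).symm ?_
    exact h2.shift q
  intro f
  obtain ⟨g, hg⟩ := Triangle.coyoneda_exact₃ _ (dist_whiskerLeft N hC) f (hN _)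
  have h3 : Zr ((𝟙_ T)⟦k⟧) (N ⊗ 𝟙_ T) := h1.iso_right (ρ_ N).symm
  have h4 : g = 0 := h3 g
  rw [hg, h4]
  exact zero_comp

/-- **No room.** -/
theorem room (hspa : ∀ (s : ℕ) (k : ℤ), ¬ q ∣ k → Zr ((𝟙_ T)⟦k⟧) (R ⊗ U.cobar.B s X))
    (hcon : ∀ (s : ℕ) (k : ℤ), k < q * s → Zr ((𝟙_ T)⟦k⟧) (U.cobar.B s X))
    {p : ℤ} (hp : 3 ≤ p) (hq : q = 2 * (p - 1))
    {C : T} {α : (𝟙_ T)⟦q - 1⟧ ⟶ 𝟙_ T} {i : 𝟙_ T ⟶ C}
    {δ : C ⟶ ((𝟙_ T)⟦q - 1⟧)⟦(1 : ℤ)⟧} (hC : Triangle.mk α i δ ∈ distTriang T) (k : ℕ) :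
    ∀ m : ℤ, m ≤ p → Zr ((𝟙_ T)⟦q * m - 2 + ((3 : ℕ) : ℤ)⟧) (U.cobar.B 3 (It C k X)) := by
  induction k with
  | zero => exact fun m hm => room_X U hspa hcon hp hq m hm
  | succ k ih =>
    intro m hm
    refine room_step U hC 3 _ (ih m hm) ?_
    have h1 : q * m - 2 + ((3 : ℕ) : ℤ) - q = q * (m - 1) - 2 + ((3 : ℕ) : ℤ) := by ring
    rw [h1]
    exact ih (m - 1) (by omega)

/-- The vanishing needed for `T0D.kill`. -/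
theorem hvan_room {p : ℕ} (hp : 3 ≤ p)
    (hspa : ∀ (s : ℕ) (k : ℤ), ¬ (2 * ((p : ℤ) - 1)) ∣ k → Zr ((𝟙_ T)⟦k⟧) (R ⊗ U.cobar.B s X))
    (hcon : ∀ (s : ℕ) (k : ℤ), k < 2 * ((p : ℤ) - 1) * s → Zr ((𝟙_ T)⟦k⟧) (U.cobar.B s X))
    {C : T} {α : (𝟙_ T)⟦2 * ((p : ℤ) - 1) - 1⟧ ⟶ 𝟙_ T} {i : 𝟙_ T ⟶ C}
    {δ : C ⟶ ((𝟙_ T)⟦2 * ((p : ℤ) - 1) - 1⟧)⟦(1 : ℤ)⟧}
    (hC : Triangle.mk α i δ ∈ distTriang T) (k : ℕ)
    (y : (Cpl U (It C k X)).D 3 (2 * ((p : ℤ) * ((p : ℤ) - 1)) - 2)) : y = 0 := by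
  have h1 := room U (p := p) hspa hcon (by exact_mod_cast hp) rfl hC k p le_rfl
  have h2 : 2 * ((p : ℤ) - 1) * p - 2 + ((3 : ℕ) : ℤ) =
      2 * ((p : ℤ) * ((p : ℤ) - 1)) - 2 + ((3 : ℕ) : ℤ) := by ring
  rw [h2] at h1
  exact h1 y

end Vale.Agent.P257.V4.T.T3
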