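import Vale.Agent.P257.V4.T.ZDiv
import Vale.Agent.P257.V4.T.T1Spar
import Vale.Agent.P257.V4.T.T3Room
import Vale.Agent.P257.V4.B.ConnB
import Vale.Agent.P251.M.MUFinal

/-!
# P257, block T (T1): the topological inputs of `t1_core` for the retract `B`

`b : BData D p`, `p` odd, `C` the cofibre of `p`, `U : UnitCof b.obj`:
* `zr_one` : `π_1 C = 0`, `p_cone` : `p = 0` on `C`;
* `hcon_B`, `hcon1`, `hcon2` : connectivity of `J ⊗ C`, `J ⊗ (J ⊗ C)`;
* `hev_b` : `π_j (B ⊗ C) = 0` for `0 < j < 2 (p - 1)`;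
* `famPush` : the Thom classes of a commutative monoid under `MU`, with their orientation;
* `hz_b` : the zero section `S(Th(CP; kρ)) ⟶ S(Th(CP; kρ ⊕ l^p))` vanishes in
  `B`-homology with coefficients in `C`.
-/

open CategoryTheory MonoidalCategory MonObj Limits Pretriangulated Topology

universe v u

set_option linter.unusedSectionVars false

noncomputable section

namespace Vale.Agent.P257.V4.T.InB

open Vale.Agent.P251 Vale.Agent.P251.G Vale.Agent.P251.G.LC Vale.Agent.P251.G.Bun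
open Vale.Agent.P251.M Vale.Agent.P251.T Vale.Agent.P251.S Vale.Agent.P251.I
open Vale.Agent.P251.F Vale.Agent.P257.V4.B Vale.Agent.P257.V4.O Vale.Agent.P257.V4.E
open Vale.Agent.P251.X Vale.Agent.P093.PLoc EvenSpheres

variable {T : Type u} [Category.{v} T] [Preadditive T] [HasZeroObject T]
    [HasShift T ℤ] [∀ n : ℤ, (shiftFunctor T n).Additive] [Pretriangulated T] [IsTriangulated T]
    [MonoidalCategory T] [SymmetricCategory T] [TensorTriangulated T] [MonoidalClosed T]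
    [HasCoproducts.{0} T] [HasProducts.{0} T] [StableCat T]

section con

variable {D : MUData T} {p : ℕ} [hp : Fact p.Prime] (b : BData D p) (U : UnitCof b.obj)
  {C : T} {iC : 𝟙_ T ⟶ C} {δC : C ⟶ (𝟙_ T)⟦(1 : ℤ)⟧}
  (hC : Triangle.mk ((p : ℤ) • 𝟙 (𝟙_ T)) iC δC ∈ distTriang T)

include hC in
omit hp in
theorem conn_cone (h0 : Conn (T := T) 0 (𝟙_ T)) : Conn 0 C :=
  Conn.ext₃ _ hC h0 (h0.mono (by norm_num))

theorem two_le (p : ℕ) [hp : Fact p.Prime] : (2 : ℤ) ≤ 2 * ((p : ℤ) - 1) := by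
  have := hp.out.two_le
  omega

include hC in
/-- connectivity of the tower of the cone of `p` -/
theorem hcon_B (hp2 : p ≠ 2) (s : ℕ) (k : ℤ) (hk : k < 2 * ((p : ℤ) - 1) * s) :
    Zr ((𝟙_ T)⟦k⟧) (U.cobar.B s C) :=
  b.conn_B U (two_le p) (isPLocal_cone hC) (conn_cone hC D.conn_unit)
    (fun s => (b.xM hC hp2).spa s) s k hk

include hC in
/-- sparseness of the tower of the cone of `p` -/
theorem hspa_B (hp2 : p ≠ 2) (s : ℕ) (k : ℤ) (hk : ¬ (2 * ((p : ℤ) - 1)) ∣ k) :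
    Zr ((𝟙_ T)⟦k⟧) (b.obj ⊗ U.cobar.B s C) :=
  b.spj_iv U (b.xM hC hp2) 0 s k hk

include hC in
theorem hcon1 (hp2 : p ≠ 2) {q : ℤ} (hq : q = 2 * ((p : ℤ) - 1)) :
    ∀ k : ℤ, k < q → ∀ f : (𝟙_ T)⟦k⟧ ⟶ U.J ⊗ C, f = 0 := by
  intro k hk f
  exact hcon_B b U hC hp2 1 k (by push_cast; omega) f

include hC in
theorem hcon2 (hp2 : p ≠ 2) {q : ℤ} (hq : q = 2 * ((p : ℤ) - 1)) :
    ∀ k : ℤ, k < 2 * q → ∀ f : (𝟙_ T)⟦k⟧ ⟶ U.J ⊗ (U.J ⊗ C), f = 0 := by
  intro k hk f
  exact hcon_B b U hC hp2 2 k (by push_cast; omega) f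

include b hC in
/-- `π_1` of the cone of `p` vanishes, `p` odd -/
theorem zr_one (hp2 : p ≠ 2) : Zr ((𝟙_ T)⟦(1 : ℤ)⟧) C := by
  obtain ⟨U⟩ := exists_unitCof b.obj
  have h2 := hp.out.two_le
  have h3 : (3 : ℤ) ≤ p := by
    have : 3 ≤ p := by omega
    exact_mod_cast this
  refine Vale.Agent.P257.V4.T.T3.zr_of_E U (s₀ := 0) (n := 1) (X := C) (fun s _ => ?_) (r := 1)
    (fun s hs => ?_)
  · by_cases h : (2 * ((p : ℤ) - 1)) ∣ 1 + (s : ℤ)
    · obtain ⟨c, hc⟩ := h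
      refine Vale.Agent.P257.V4.T.T3.zr_E_of_lt U (hcon_B b U hC hp2) (by omega) s _ ?_
      have hc1 : 1 ≤ c := by
        by_contra h4
        have h5 : c ≤ 0 := by omega
        have h6 : (0 : ℤ) ≤ s := Int.natCast_nonneg s
        nlinarith
      have hc2 : c < s := by nlinarith
      rw [hc]
      exact mul_lt_mul_of_pos_left hc2 (by omega)
    · exact hspa_B b U hC hp2 s _ h
  · refine hcon_B b U hC hp2 s _ ?_
    have h4 : (1 : ℤ) ≤ s := by exact_mod_cast hs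
    nlinarith

include b hC in
/-- `p = 0` on the cone of `p`, `p` odd -/
theorem p_cone (hp2 : p ≠ 2) : (p : ℤ) • 𝟙 C = 0 := by
  have h1 : ((p : ℤ) • 𝟙 (𝟙_ T)) ≫ iC = 0 := comp_distTriang_mor_zero₁₂ _ hC
  have h2 : iC ≫ ((p : ℤ) • 𝟙 C) = 0 := by
    rw [Preadditive.comp_zsmul, Category.comp_id, ← h1, Preadditive.zsmul_comp, Category.id_comp]
  obtain ⟨g, hg⟩ : ∃ g : (𝟙_ T)⟦(1 : ℤ)⟧ ⟶ C, (p : ℤ) • 𝟙 C = δC ≫ g :=
    Triangle.yoneda_exact₃ _ hC _ h2
  rw [hg, zr_one b hC hp2 g, comp_zero]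

include hC in
/-- `π_(2j) (B ⊗ C) = 0` for `0 < j < p - 1` -/
theorem hev_b (hp2 : p ≠ 2) : ∀ j : ℤ, 0 < j → j < (p : ℤ) - 1 →
    ∀ f : (stdEven T).S j ⟶ b.obj ⊗ C, f = 0 := by
  intro j h0 h1 f
  have h2 : Zr ((𝟙_ T)⟦2 * j⟧) (Am b.obj (0 + 1) ⊗ C) := by
    refine (b.xM hC hp2).spa 0 (2 * j) ?_
    rintro ⟨c, hc⟩
    have h3 : j = ((p : ℤ) - 1) * c := by linarith
    have h4 : 1 ≤ c := by
      by_contra h5
      have h6 : c ≤ 0 := by omega
      nlinarith
    nlinarith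
  let e1 : Am b.obj (0 + 1) ⊗ C ≅ b.obj ⊗ C := whiskerRightIso (λ_ b.obj) C
  exact Zr.iso (sphE T j).symm (h2.iso_right e1) f

end con

section fam

variable {F : SpaceFunctor T} (e : F.S.obj CCF ≅ (stdEven T).L) {K K' : T} [MonObj K]
  [IsCommMonObj K] [MonObj K'] [IsCommMonObj K']

/-- Thom classes pushed along a morphism of commutative monoids -/
def famPush (W : ThomFam (RSys K (stdEven T)) F (lineCls e (SeqMonoid.const K))) (g : K ⟶ K')
    [IsMonHom g] : ThomFam (RSys K' (stdEven T)) F (lineCls e (SeqMonoid.const K')) :=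
  W.push ((SeqMonoid.Hom.const g).msys (stdEven T)) (lineCls_msys e (SeqMonoid.Hom.const g))

theorem famPush_orientation (W : ThomFam (RSys K (stdEven T)) F (lineCls e (SeqMonoid.const K)))
    (g : K ⟶ K') [IsMonHom g] :
    (famPush e W g).orientation (cofTriangles F) (isSusp_lineCls e (SeqMonoid.const K')) =
      (thKHom e g).push (W.orientation (cofTriangles F)
        (isSusp_lineCls e (SeqMonoid.const K))) :=
  (W.push_orientation ((SeqMonoid.Hom.const g).msys (stdEven T)) (cofTriangles F)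
    (isSusp_lineCls e (SeqMonoid.const K)) (isSusp_lineCls e (SeqMonoid.const K'))
    (lineCls_msys e (SeqMonoid.Hom.const g))).symm

variable {e} (M : MUMon F (stdEven T) e)

/-- the Thom classes of a commutative monoid under `MU` -/
abbrev famM (g : M.R ⟶ K) [IsMonHom g] :
    ThomFam (RSys K (stdEven T)) F (lineCls e (SeqMonoid.const K)) := famPush e M.fam g

/-- their orientation is the one given by the orientation of `MU` -/
theorem famM_orientation (g : M.R ⟶ K) [IsMonHom g] :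
    (famM M g).orientation (cofTriangles F) (isSusp_lineCls e (SeqMonoid.const K)) =
      (thKHom e g).push M.ori := by
  rw [famPush_orientation, M.ori_eq, M.orient_eq]

end fam

section zero

variable {F : SpaceFunctor T} {e : F.S.obj CCF ≅ (stdEven T).L} {D : MUData T} {p : ℕ}
  [hp : Fact p.Prime] (b : BData D p)
  {C : T} {iC : 𝟙_ T ⟶ C} {δC : C ⟶ (𝟙_ T)⟦(1 : ℤ)⟧}
  (hC : Triangle.mk ((p : ℤ) • 𝟙 (𝟙_ T)) iC δC ∈ distTriang T)

include hC in
/-- The zero section vanishes in `B`-homology with coefficients in the cone of `p`; `W` are Thom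
classes with values in `MU` (for `M : MUMon`, `W = M.fam`). -/
theorem hz_b (hp2 : p ≠ 2)
    (W : ThomFam (RSys D.R (stdEven T)) F (lineCls e (SeqMonoid.const D.R)))
    (K : Type) [Fintype K] [DecidableEq K] :
    b.obj ◁ (mp F.S (zHom (Z := CPO (Fin p)) (kRho p (Fin p) K) (lineP p (Fin p))) ▷ C) = 0 :=
  z_zero (famPush e W b.u) hC (p_cone b hC hp2) (hev_b b hC hp2) K

end zero

end Vale.Agent.P257.V4.T.InB

end
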