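import Vale.Agent.P251.S.CobarR
import Vale.Agent.P251.S.TensorShift

/-!
# P257, part T (T1): the abstract lifting argument

`R` a monoid with a cofibre `J` of the unit, `YL ⟶ YC ⟶ Y' ⟶ YL⟦1⟧` a distinguished triangle.
If a class `f : A ⟶ R ⊗ (YC ⊗ C)` has the same image as `w : A ⟶ J ⊗ (YL ⊗ C)` in
`R ⊗ (J ⊗ (YC ⊗ C))`, and the obstruction groups vanish, then `w` dies under the boundary of `J`.
-/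

open CategoryTheory MonoidalCategory Limits Pretriangulated MonObj

universe v u

noncomputable section

namespace Vale.Agent.P257.V4.T

open Vale.Agent.P251.T Vale.Agent.P251.S

variable {T : Type u} [Category.{v} T] [Preadditive T] [HasZeroObject T] [HasShift T ℤ]
  [∀ n : ℤ, (shiftFunctor T n).Additive] [Pretriangulated T] [MonoidalCategory T]
  [SymmetricCategory T] [TensorTriangulated T]

omit [MonoidalCategory T] [SymmetricCategory T] [TensorTriangulated T] in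
theorem dist_exact₂ {X Y Z : T} {f : X ⟶ Y} {g : Y ⟶ Z} {h : Z ⟶ X⟦(1 : ℤ)⟧}
    (H : Triangle.mk f g h ∈ distTriang T) {A : T} (x : A ⟶ Y) (hx : x ≫ g = 0) :
    ∃ y : A ⟶ X, x = y ≫ f := Triangle.coyoneda_exact₂ _ H x hx

omit [MonoidalCategory T] [SymmetricCategory T] [TensorTriangulated T] in
theorem dist_inj {X Y Z : T} {f : X ⟶ Y} {g : Y ⟶ Z} {h : Z ⟶ X⟦(1 : ℤ)⟧}
    (H : Triangle.mk f g h ∈ distTriang T) {A : T} (hZ : ∀ g : A⟦(1 : ℤ)⟧ ⟶ Z, g = 0)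
    (x : A ⟶ X) (hx : x ≫ f = 0) : x = 0 := by
  have h1 : x⟦(1 : ℤ)⟧' ≫ f⟦(1 : ℤ)⟧' = 0 := by
    rw [← Functor.map_comp, hx, Functor.map_zero]
  obtain ⟨k, h2⟩ : ∃ k : A⟦(1 : ℤ)⟧ ⟶ Z, x⟦(1 : ℤ)⟧' = k ≫ h :=
    Triangle.coyoneda_exact₁ _ H (x⟦(1 : ℤ)⟧') h1
  have h3 : k = 0 := hZ k
  have h4 : x⟦(1 : ℤ)⟧' = 0 := by rw [h2, h3, zero_comp]
  exact (shiftFunctor T (1 : ℤ)).map_injective (by rw [h4, Functor.map_zero])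

/-- Tensoring a distinguished triangle on the left. -/
theorem dist_left {X Y Z : T} {f : X ⟶ Y} {g : Y ⟶ Z} {h : Z ⟶ X⟦(1 : ℤ)⟧}
    (H : Triangle.mk f g h ∈ distTriang T) (C : T) :
    ∃ k : C ⊗ Z ⟶ (C ⊗ X)⟦(1 : ℤ)⟧, Triangle.mk (C ◁ f) (C ◁ g) k ∈ distTriang T :=
  ⟨_, tensorLeftTriangle_distinguished C _ H⟩

/-- Tensoring a distinguished triangle on the right. -/
theorem dist_right {X Y Z : T} {f : X ⟶ Y} {g : Y ⟶ Z} {h : Z ⟶ X⟦(1 : ℤ)⟧}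
    (H : Triangle.mk f g h ∈ distTriang T) (C : T) :
    ∃ k : Z ⊗ C ⟶ (X ⊗ C)⟦(1 : ℤ)⟧, Triangle.mk (f ▷ C) (g ▷ C) k ∈ distTriang T := by
  obtain ⟨k, hk⟩ := dist_left H C
  refine ⟨(β_ Z C).hom ≫ k ≫ ((β_ C X).hom)⟦(1 : ℤ)⟧', ?_⟩
  refine isomorphic_distinguished _ hk _ ?_
  refine Triangle.isoMk _ _ (β_ X C) (β_ Y C) (β_ Z C) ?_ ?_ ?_
  · exact BraidedCategory.braiding_naturality_left _ _
  · exact BraidedCategory.braiding_naturality_left _ _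
  · change ((β_ Z C).hom ≫ k ≫ ((β_ C X).hom)⟦(1 : ℤ)⟧') ≫ ((β_ X C).hom)⟦(1 : ℤ)⟧' =
      (β_ Z C).hom ≫ k
    simp only [Category.assoc]
    rw [← Functor.map_comp, SymmetricCategory.symmetry, CategoryTheory.Functor.map_id,
      Category.comp_id]

variable {R : T} [MonObj R] (U : UnitCof R)

theorem abs_lift {YL YC Y' : T} {r : YL ⟶ YC} {z : YC ⟶ Y'} {c : Y' ⟶ YL⟦(1 : ℤ)⟧}
    (h : Triangle.mk r z c ∈ distTriang T) {C A : T}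
    (ha : R ◁ (z ▷ C) = 0)
    (hb : ∀ g : A⟦(1 : ℤ)⟧ ⟶ R ⊗ (U.J ⊗ (Y' ⊗ C)), g = 0)
    (hc : ∀ g : A⟦(1 : ℤ)⟧ ⟶ U.J ⊗ (U.J ⊗ (YL ⊗ C)), g = 0)
    (f : A ⟶ R ⊗ (YC ⊗ C)) (w : A ⟶ U.J ⊗ (YL ⊗ C))
    (hw : f ≫ (U.ρ ▷ (YC ⊗ C)) ≫ unitMap R (U.J ⊗ (YC ⊗ C)) =
      w ≫ (U.J ◁ (r ▷ C)) ≫ unitMap R (U.J ⊗ (YC ⊗ C))) :
    ∃ fL : A ⟶ R ⊗ (YL ⊗ C), w = fL ≫ (U.ρ ▷ (YL ⊗ C)) := by
  obtain ⟨c₁, h₁⟩ := dist_right h C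
  obtain ⟨c₂, h₂⟩ := dist_left h₁ R
  obtain ⟨c₃, h₃⟩ := dist_left h₁ U.J
  obtain ⟨c₄, h₄⟩ := dist_left h₃ R
  obtain ⟨fL, hfL⟩ := dist_exact₂ h₂ f (by rw [ha, comp_zero])
  refine ⟨fL, ?_⟩
  have h5 : (w - fL ≫ (U.ρ ▷ (YL ⊗ C))) ≫ unitMap R (U.J ⊗ (YL ⊗ C)) = 0 := by
    refine dist_inj h₄ hb _ ?_
    rw [Category.assoc, ← unitMap_nat, Preadditive.sub_comp, sub_eq_zero, ← hw, hfL]
    simp only [Category.assoc]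
    rw [whisker_exchange_assoc]
  have h6 : w - fL ≫ (U.ρ ▷ (YL ⊗ C)) = 0 :=
    dist_inj (U.triangle_distinguished (U.J ⊗ (YL ⊗ C))) hc _ h5
  exact sub_eq_zero.mp h6

/-- Under the boundary of `J` the class dies. -/
theorem abs_lift_zero {YL YC Y' : T} {r : YL ⟶ YC} {z : YC ⟶ Y'} {c : Y' ⟶ YL⟦(1 : ℤ)⟧}
    (h : Triangle.mk r z c ∈ distTriang T) {C A : T}
    (ha : R ◁ (z ▷ C) = 0)
    (hb : ∀ g : A⟦(1 : ℤ)⟧ ⟶ R ⊗ (U.J ⊗ (Y' ⊗ C)), g = 0)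
    (hc : ∀ g : A⟦(1 : ℤ)⟧ ⟶ U.J ⊗ (U.J ⊗ (YL ⊗ C)), g = 0)
    (f : A ⟶ R ⊗ (YC ⊗ C)) (w : A ⟶ U.J ⊗ (YL ⊗ C))
    (hw : f ≫ (U.ρ ▷ (YC ⊗ C)) ≫ unitMap R (U.J ⊗ (YC ⊗ C)) =
      w ≫ (U.J ◁ (r ▷ C)) ≫ unitMap R (U.J ⊗ (YC ⊗ C))) :
    w ≫ (U.δ ▷ (YL ⊗ C)) = 0 := by
  obtain ⟨fL, hfL⟩ := abs_lift U h ha hb hc f w hw
  have h1 : U.ρ ≫ U.δ = 0 := comp_distTriang_mor_zero₂₃ _ U.dist
  rw [hfL, Category.assoc, ← comp_whiskerRight, h1]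
  have h2 : (0 : R ⟶ (𝟙_ T)⟦(1 : ℤ)⟧) ▷ (YL ⊗ C) = 0 := MonoidalPreadditive.zero_whiskerRight
  rw [h2, comp_zero]

end Vale.Agent.P257.V4.T
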