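import Vale.Agent.P257.V4.T.Fib
import Vale.Agent.P257.V4.T.T1Abs
import Vale.Agent.P251.M.SpaceCells
import Vale.Agent.P251.G.CellTh
import Vale.Agent.P251.G.Segre

/-!
# P257, part T (T1): cells of the Thom spaces and vanishing groups

* `of_cells`: a class of objects closed under extensions, which contains the spheres of dimensions
  in `D`, contains the suspension spectrum of every space with cells of dimensions in `D`;
* `mid_zero`: if `π_k(N ⊗ (N' ⊗ C)) = 0` for all `k ∈ Z - D` then `π_k(N ⊗ (N' ⊗ (S X ⊗ C))) = 0`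
  for `k ∈ Z`, if `X` has cells of dimensions in `D`;
* `cells_YC'`, `cells_YL`.
-/

set_option linter.unusedSectionVars false

open CategoryTheory MonoidalCategory Limits Pretriangulated MonObj Topology Matrix

universe v u

noncomputable section

namespace Vale.Agent.P257.V4.T

open Vale.Agent.P251 Vale.Agent.P251.G Vale.Agent.P251.G.LC Vale.Agent.P251.G.Bun
open Vale.Agent.P251.M Vale.Agent.P251.T Vale.Agent.P251.S Vale.Agent.P251.I Vale.Agent.P251.H
open Vale.Agent.P251.G.Cell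

variable {T : Type u} [Category.{v} T] [Preadditive T] [HasZeroObject T] [HasShift T ℤ]
  [∀ n : ℤ, (shiftFunctor T n).Additive] [Pretriangulated T] [IsTriangulated T]
  [MonoidalCategory T] [SymmetricCategory T] [TensorTriangulated T]

theorem of_cells (S : SpaceFunctor T) {P : T → Prop} (hP : ExtClosed P) {D : Set ℕ}
    (hD : ∀ a ∈ D, P ((𝟙_ T)⟦(a : ℤ)⟧)) {X : LC} [hX : IsFC X] (h : Cells D X) :
    P (ob S.S X) := by
  have h1 := relCell_cofIn S hP hD (A := FCat.mk FC.empty) (B := ⟨X, hX.out⟩)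
    (FCat.hom (0 : LC.of Empty ⟶ X)) h.relCell
  have h2 : IsZero (S.S.obj (FCat.mk FC.empty)) :=
    S.isZero (inferInstanceAs (IsEmpty Empty))
  have h3 : Dist (S.S.map (FCat.hom (0 : LC.of Empty ⟶ X) : FCat.mk FC.empty ⟶ ⟨X, hX.out⟩))
      (𝟙 (ob S.S X)) 0 := by
    refine (Triangle.distinguished_iff_of_isZero₁ _ h2).mpr ?_
    change IsIso (𝟙 (ob S.S X))
    infer_instance
  exact h1.of_dist hP h3

theorem nonempty_sphere_shift (X : T) (a : ℤ) :
    Nonempty (((𝟙_ T)⟦a⟧) ⊗ X ≅ X⟦a⟧) :=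
  ⟨β_ _ _ ≪≫ tensorUnitShiftIso X a⟩

/-- the vanishing of `π_k(N ⊗ (N' ⊗ (Y ⊗ C)))` for all `k` in `Z` -/
def MidZero (N N' C : T) (Z : Set ℤ) (Y : T) : Prop :=
  ∀ k ∈ Z, ∀ f : (𝟙_ T)⟦k⟧ ⟶ N ⊗ (N' ⊗ (Y ⊗ C)), f = 0

theorem midZero_ext (N N' C : T) (Z : Set ℤ) : ExtClosed (MidZero N N' C Z) where
  zero X hX k _ f := by
    have h1 : IsZero (X ⊗ C) := by
      have := (tensorRight C).map_isZero hX
      exact this
    have h2 : IsZero (N' ⊗ (X ⊗ C)) := (tensorLeft N').map_isZero h1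
    exact ((tensorLeft N).map_isZero h2).eq_of_tgt _ _
  ext {X Y Z'} {f g h} D hX hZ k hk x := by
    obtain ⟨c₁, h₁⟩ := dist_right D C
    obtain ⟨c₂, h₂⟩ := dist_left h₁ N'
    obtain ⟨c₃, h₃⟩ := dist_left h₂ N
    obtain ⟨y, hy⟩ := dist_exact₂ h₃ x (hZ k hk _)
    rw [hy, hX k hk y, zero_comp]

theorem midZero_sphere {N N' C : T} {Z : Set ℤ} {a : ℤ}
    (h : ∀ k ∈ Z, ∀ f : (𝟙_ T)⟦k - a⟧ ⟶ N ⊗ (N' ⊗ C), f = 0) :
    MidZero N N' C Z ((𝟙_ T)⟦a⟧) := by
  intro k hk f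
  obtain ⟨e₁⟩ := nonempty_sphere_shift C a
  let e : N ⊗ (N' ⊗ (((𝟙_ T)⟦a⟧) ⊗ C)) ≅ (N ⊗ (N' ⊗ C))⟦a⟧ :=
    whiskerLeftIso N (whiskerLeftIso N' e₁ ≪≫ tensorShiftIso N' C a) ≪≫
      tensorShiftIso N (N' ⊗ C) a
  have h1 : f ≫ e.hom = 0 := eq_zero_of_shift (k - a) a k (by ring) (h k hk) _
  rw [← cancel_mono e.hom, h1, zero_comp]

theorem mid_zero (S : SpaceFunctor T) {N N' C : T} {Z : Set ℤ} {D : Set ℕ}
    (h : ∀ k ∈ Z, ∀ a ∈ D, ∀ f : (𝟙_ T)⟦k - (a : ℤ)⟧ ⟶ N ⊗ (N' ⊗ C), f = 0)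
    {X : LC} [IsFC X] (hX : Cells D X) : MidZero N N' C Z (ob S.S X) :=
  of_cells S (midZero_ext N N' C Z) (fun a ha => midZero_sphere fun k hk => h k hk a ha) hX

/-! ### Ranks and cells -/

variable (p : ℕ) (hp : p ≠ 0) (κ K : Type) [Fintype κ] [Fintype K] [DecidableEq K]

theorem rhoC_isRank (hp : p ≠ 0) : (rhoC p κ).IsRank p := by
  have h1 : (Bun.sigma fun i : Fin (p - 1) => (taut 1 κ).tpow ((i : ℕ) + 1)).IsRank
      (∑ _i : Fin (p - 1), 1) := by
    apply Bun.IsRank.sigma (n := fun _ => 1)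
    intro i x
    have := ((taut_isRank 1 κ).tpow ((i : ℕ) + 1)) x
    rw [one_pow] at this
    exact this
  have h2 := (isRank_triv (X := Gr 1 κ) (I := Unit)).sum h1
  have h3 : Fintype.card Unit + ∑ _i : Fin (p - 1), 1 = p := by
    simp
    omega
  rw [h3] at h2
  exact h2

theorem kRho_isRank (hp : p ≠ 0) : (kRho p κ K).IsRank (Fintype.card K * p) :=
  (isRank_triv (X := Gr 1 κ) (I := K)).tensor (rhoC_isRank p κ hp)

theorem kRho_lineP_isRank (hp : p ≠ 0) :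
    (Bun.sum (kRho p κ K) (lineP p κ)).IsRank (Fintype.card K * p + 1) := by
  refine (kRho_isRank p κ K hp).sum ?_
  intro x
  have := ((taut_isRank 1 κ).tpow p) x
  rw [one_pow] at this
  exact this

/-- the space `Th(CP; kρ ⊕ l^p)` -/
abbrev YC' : LC := Bun.tot (X := CPO κ) (Bun.sum (kRho p κ K) (lineP p κ))

theorem cells_YC' (hp : p ≠ 0) : Cells (evens 0) (YC' p κ K) := by
  classical
  have h := cells_tot _ (kRho_lineP_isRank p κ K hp) (chain_gr 1 κ)
  exact h.mono ((evens_add 0 _).trans (evens_mono (Nat.zero_le _)))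

theorem ρW_isRank : ((lensFrames p hp κ).ρW K).IsRank (Fintype.card K * p) := by
  rw [lens_ρW]
  exact (kRho_isRank p κ K hp).pullback _

theorem cells_YL : Cells {d | 2 * (Fintype.card K * p) ≤ d} (YL p hp κ K) := by
  classical
  have h1 := chain_Sph (lineP p κ) (r := 1) (fun x => by
    have := ((taut_isRank 1 κ).tpow p) x
    rw [one_pow] at this
    exact this) (chain_gr 1 κ)
  have h2 := cells_tot (Y := Lens p κ) ((lensFrames p hp κ).ρW K) (ρW_isRank p hp κ K) h1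
  refine h2.mono ?_
  rintro _ ⟨a, -, rfl⟩
  exact Nat.le_add_left _ _

end Vale.Agent.P257.V4.T
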