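import Vale.Agent.P257.V4.T.Cmp
import Vale.Agent.P257.V4.T.T1Cells

/-!
# P257, block T: comparison of the Thom classes of `K ⊗ ρ` modulo `p`

If the coefficients `c_i`, `0 < i < p - 1`, of the comparison series are divisible by `p`, then
`U' = (1 + |K| (p - 1) c_{p-1} z ^ (p-1) + p y) U` for the bundle `K ⊗ ρ` over `CP^{p-1}`.
-/

set_option linter.unusedSectionVars false
set_option linter.style.haveILetI false

open CategoryTheory MonoidalCategory OnePoint Topology Matrix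
open Vale.Agent.P251.G Vale.Agent.P251.G.LC Vale.Agent.P251.G.Bun

universe v

noncomputable section

namespace Vale.Agent.P257.V4.T

open Vale.Agent.P251.Q Vale.Agent.P251.Q.MultTheory Vale.Agent.P251.M
open Vale.Agent.P217 Vale.Agent.P251.F Vale.Agent.P241.H588

section sigma

variable {E : MultTheory.{v}} (o o' : Orientation E) {B : LC} [CompactSpace B]
  [hB : GoodBase E B]

theorem cmpU_rank_zero {L : Type} [Fintype L] (V : Bun B L) (hV : V.IsRank 0) :
    cmpU o o' V hV = 1 := by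
  haveI := hB.tot V hV
  have h := e_cmp o o' V hV
  rw [e_rank_zero, e_rank_zero, one_mul] at h
  exact h.symm

theorem cmpU_sigma_fin {k : ℕ} : ∀ {κ : Fin k → Type} [∀ i, Fintype (κ i)]
    (V : ∀ i, Bun B (κ i)) (r : Fin k → ℕ) (hV : ∀ i, (V i).IsRank (r i)),
    cmpU o o' (Bun.sigma V) (IsRank.sigma hV) = ∏ i, cmpU o o' (V i) (hV i) := by
  induction k with
  | zero =>
    intro κ _ V r hV
    have h0 : (∑ i : Fin 0, r i) = 0 := by simp
    have h1 : (Bun.sigma V).IsRank 0 := h0.subst (motive := fun n => (Bun.sigma V).IsRank n)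
      (IsRank.sigma hV)
    rw [cmpU_congr_rank o o' h0 (IsRank.sigma hV) h1, cmpU_rank_zero]
    exact (Finset.prod_eq_one fun i _ => i.elim0).symm
  | succ k ih =>
    intro κ hκ V r hV
    have hA : (Bun.sigma fun i : Fin k => V i.castSucc).IsRank (∑ i : Fin k, r i.castSucc) :=
      IsRank.sigma fun i : Fin k => hV i.castSucc
    have hs : (∑ i : Fin k, r i.castSucc) + r (Fin.last k) = ∑ i, r i :=
      (Fin.sum_univ_castSucc r).symm
    have hS := isRank_sum hA (hV (Fin.last k)) hs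
    have φ : (Bun.sigma V).Isom ((Bun.sigma fun i : Fin k => V i.castSucc).sum
        (V (Fin.last k))) := by
      rw [← Bun.sigma_reindex]
      exact isomReindex _ _
    have e1 := cmpU_isom o o' φ (IsRank.sigma hV) hS
    have e2 := cmpU_sum o o' _ _ hA (hV (Fin.last k)) hs
    have e3 := ih (fun i : Fin k => V i.castSucc) (fun i => r i.castSucc)
      (fun i => hV i.castSucc)
    rw [e1, e2, e3, Fin.prod_univ_castSucc]

/-- The comparison class of a finite direct sum. -/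
theorem cmpU_sigma {J : Type} [Fintype J] [DecidableEq J] {κ : J → Type}
    [∀ i, Fintype (κ i)] (V : ∀ i, Bun B (κ i)) (r : J → ℕ) (hV : ∀ i, (V i).IsRank (r i)) :
    cmpU o o' (Bun.sigma V) (IsRank.sigma hV) = ∏ i, cmpU o o' (V i) (hV i) := by
  let f : J ≃ Fin (Fintype.card J) := Fintype.equivFin J
  have hs : (∑ i, r (f.symm i)) = ∑ i, r i := Equiv.sum_comp f.symm r
  let g : (Σ j, κ j) ≃ (Σ i, κ (f.symm i)) := (Equiv.sigmaCongrLeft f.symm).symm
  have φ : (Bun.sigma V).Isom (Bun.sigma fun i => V (f.symm i)) := by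
    refine (isomReindex (Bun.sigma V) g).trans (Bun.Isom.ofEq ?_)
    intro x
    ext ⟨a, a'⟩ ⟨b, b'⟩
    rw [reindex_P, Matrix.submatrix_apply, sigma_P, sigma_P]
    have hg : ∀ (a : Fin (Fintype.card J)) (a' : κ (f.symm a)),
        g.symm ⟨a, a'⟩ = ⟨f.symm a, a'⟩ := fun a a' => rfl
    rw [hg, hg]
    by_cases h : a = b
    · subst h
      rw [Matrix.blockDiagonal'_apply_eq, Matrix.blockDiagonal'_apply_eq]
    · rw [Matrix.blockDiagonal'_apply_ne _ _ _ h, Matrix.blockDiagonal'_apply_ne]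
      exact fun h' => h (f.symm.injective h')
  have h3 : (Bun.sigma fun i => V (f.symm i)).IsRank (∑ i, r i) :=
    hs ▸ IsRank.sigma fun i => hV (f.symm i)
  rw [cmpU_isom o o' φ (IsRank.sigma hV) h3, cmpU_congr_rank o o' hs.symm h3
    (IsRank.sigma fun i => hV (f.symm i)), cmpU_sigma_fin,
    ← Equiv.prod_comp f.symm fun i => cmpU o o' (V i) (hV i)]

/-- `ℂ^K ⊗ V` is a direct sum of copies of `V` -/
def tensorTrivIsom (K L : Type) [Fintype K] [DecidableEq K] [Fintype L] (V : Bun B L) :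
    ((triv B K).tensor V).Isom (Bun.sigma fun _ : K => V) :=
  (isomReindex ((triv B K).tensor V) (Equiv.sigmaEquivProd K L).symm).trans (Bun.Isom.ofEq (by
    intro x
    ext ⟨a, a'⟩ ⟨b, b'⟩
    rw [reindex_P, Matrix.submatrix_apply, sigma_P]
    change (1 : Matrix K K ℂ) a b * V.P x a' b' = _
    by_cases h : a = b
    · subst h
      rw [Matrix.blockDiagonal'_apply_eq, Matrix.one_apply_eq, one_mul]
    · rw [Matrix.blockDiagonal'_apply_ne _ _ _ h, Matrix.one_apply_ne h, zero_mul]))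

theorem cmpU_tensor_triv {K L : Type} [Fintype K] [DecidableEq K] [Fintype L] (V : Bun B L)
    {n m : ℕ} (hV : V.IsRank n) (h : ((triv B K).tensor V).IsRank m) :
    cmpU o o' ((triv B K).tensor V) h = cmpU o o' V hV ^ Fintype.card K := by
  have h0 : (∑ _i : K, n) = m ∨ IsEmpty B := by
    by_cases hE : IsEmpty B
    · exact Or.inr hE
    · left
      rw [not_isEmpty_iff] at hE
      obtain ⟨b⟩ := hE
      have h1 := ((tensorTrivIsom K L V).isRank h) b
      have h2 := (IsRank.sigma fun _ : K => hV) b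
      exact_mod_cast h2.symm.trans h1
  rcases h0 with h0 | h0
  · have h1 := cmpU_isom o o' (tensorTrivIsom K L V) h ((tensorTrivIsom K L V).isRank h)
    rw [h1, cmpU_congr_rank o o' h0.symm ((tensorTrivIsom K L V).isRank h)
      (IsRank.sigma fun _ : K => hV), cmpU_sigma]
    exact Finset.prod_const (s := (Finset.univ : Finset K)) (cmpU o o' V hV)
  · haveI := subsingleton_of_isEmpty (E := E) B
    exact Subsingleton.elim _ _

end sigma

/-! ### Algebra -/

section algebra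

variable {S : Type*} [CommRing S]

theorem pow_trunc {z : S} {p : ℕ} (hz : z ^ p = 0) (hp : 1 ≤ p) (a w : S) :
    (z * (a + z * w)) ^ (p - 1) = a ^ (p - 1) * z ^ (p - 1) := by
  obtain ⟨t, ht⟩ := sub_dvd_pow_sub_pow (a + z * w) a (p - 1)
  have h1 : (a + z * w) ^ (p - 1) = a ^ (p - 1) + z * (w * t) := by
    have h2 : a + z * w - a = z * w := by ring
    rw [h2] at ht
    rw [← sub_eq_iff_eq_add', ht]
    ring
  have h2 : z ^ (p - 1) * z = 0 := by
    rw [← pow_succ, Nat.sub_add_cancel hp, hz]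
  rw [mul_pow, h1]
  calc z ^ (p - 1) * (a ^ (p - 1) + z * (w * t)) =
      a ^ (p - 1) * z ^ (p - 1) + (z ^ (p - 1) * z) * (w * t) := by ring
    _ = _ := by rw [h2, zero_mul, add_zero]

theorem one_add_pow_sq {x : S} (hx : x * x = 0) (n : ℕ) : (1 + x) ^ n = 1 + n * x := by
  induction n with
  | zero => simp
  | succ n ih =>
    rw [pow_succ, ih]
    push_cast
    linear_combination (n : S) * hx

theorem natCast_pow_eq {p j : ℕ} [hp : Fact p.Prime] (hj : ¬ p ∣ j) :
    ∃ m : ℤ, ((j : ℤ) ^ (p - 1) : ℤ) = 1 + p * m := by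
  have h1 : ((j : ℤ) ^ (p - 1) : ℤ) ≡ 1 [ZMOD p] := by
    rw [← ZMod.intCast_eq_intCast_iff]
    push_cast
    exact ZMod.pow_card_sub_one_eq_one (by rwa [Ne, ZMod.natCast_eq_zero_iff])
  obtain ⟨m, hm⟩ := h1.symm.dvd
  exact ⟨m, by linarith⟩

end algebra

/-! ### The comparison class of `K ⊗ ρ` -/

section rho

variable {E : MultTheory.{v}} (o o' : Orientation E) {p : ℕ} [hp : Fact p.Prime]

theorem exists_e_tpow (j : ℕ) : ∃ w : E.U (CP (Fin p)),
    o.e (B := CP (Fin p)) ((taut 1 (Fin p)).tpow j) ((taut_isRank 1 (Fin p)).tpow1 j) =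
      o.z (Fin p) * ((j : E.U (CP (Fin p))) + o.z (Fin p) * w) := by
  obtain ⟨m, hm⟩ : ∃ m, p = m + 2 := Nat.exists_eq_add_of_le' hp.out.two_le
  have hz : o.z (Fin p) ^ (m + 2) = 0 := z_pow_eq_zero o _ (Fin p) (by simp [← hm])
  rw [e_tpow_z, Vale.Agent.P251.Q.nev1_eq_sum hz, Finset.sum_range_succ', Finset.sum_range_succ']
  refine ⟨∑ i ∈ Finset.range m, PowerSeries.coeff (i + 1 + 1) (multSeries o.law.toFG j) •
    o.z (Fin p) ^ i, ?_⟩
  have h0 : PowerSeries.coeff 0 (multSeries o.law.toFG j) = 0 := by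
    rw [PowerSeries.coeff_zero_eq_constantCoeff_apply, constantCoeff_multSeries]
  rw [h0, zero_smul, add_zero, zero_add, coeff_one_multSeries, pow_one, mul_add, Finset.mul_sum,
    Finset.mul_sum, add_comm]
  congr 1
  · rw [Nat.cast_smul_eq_nsmul, nsmul_eq_mul, mul_comm]
  · refine Finset.sum_congr rfl fun i _ => ?_
    rw [mul_smul_comm, mul_smul_comm]
    congr 1
    ring

theorem cmpU_tpow (hc : ∀ i, 0 < i → i < p - 1 → ∃ a : E.A, cc o o' i = p • a)
    {j : ℕ} (hj : ¬ p ∣ j) :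
    ∃ y : E.U (CP (Fin p)),
      cmpU o o' (B := CP (Fin p)) ((taut 1 (Fin p)).tpow j) ((taut_isRank 1 (Fin p)).tpow1 j) =
        1 + cc o o' (p - 1) • o.z (Fin p) ^ (p - 1) + (p : E.U (CP (Fin p))) * y := by
  obtain ⟨w, hw⟩ := exists_e_tpow o (p := p) j
  have hz : o.z (Fin p) ^ p = 0 := z_pow_eq_zero o _ (Fin p) (by simp)
  have hp1 : 1 ≤ p := hp.out.one_lt.le
  have he : ∀ i, p ≤ i → o.e (B := CP (Fin p)) ((taut 1 (Fin p)).tpow j)
      ((taut_isRank 1 (Fin p)).tpow1 j) ^ i = 0 := by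
    intro i hi
    have h0 : o.z (Fin p) ^ i = 0 := pow_eq_zero_of_le hi hz
    rw [hw, mul_pow, h0, zero_mul]
  have h1 : cmpU o o' (B := CP (Fin p)) ((taut 1 (Fin p)).tpow j)
      ((taut_isRank 1 (Fin p)).tpow1 j) = ∑ i ∈ Finset.range p, cc o o' i •
        o.e (B := CP (Fin p)) ((taut 1 (Fin p)).tpow j) ((taut_isRank 1 (Fin p)).tpow1 j) ^ i := by
    rw [cmpU_line o o' (B := CP (Fin p)) ((taut 1 (Fin p)).tpow j)
      ((taut_isRank 1 (Fin p)).tpow1 j) (N := max p (Fintype.card (Fin j → Fin p)))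
      (le_max_right _ _)]
    symm
    refine Finset.sum_subset (Finset.range_subset_range.mpr (le_max_left _ _)) fun i _ hi => ?_
    rw [he i (by simpa using hi), smul_zero]
  obtain ⟨m, hm⟩ : ∃ m, p = m + 2 := Nat.exists_eq_add_of_le' hp.out.two_le
  have hc0 : cc o o' 0 = 1 := CPSys.Coord.cmp_mem_strict _ _ (z_one_eq o' o)
  have h2 : ∀ i : ℕ, ∃ a : E.A, i < m → cc o o' (i + 1) = p • a := by
    intro i
    by_cases hi : i < m
    · obtain ⟨a, ha⟩ := hc (i + 1) (Nat.succ_pos i) (by omega)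
      exact ⟨a, fun _ => ha⟩
    · exact ⟨0, fun h => absurd h hi⟩
  choose a ha using h2
  obtain ⟨b, hb⟩ := natCast_pow_eq hj
  have h3 : ((j : E.U (CP (Fin p))) ^ (p - 1)) = 1 + p * (b : E.U (CP (Fin p))) := by
    have := congrArg (Int.cast : ℤ → E.U (CP (Fin p))) hb
    push_cast at this
    exact this
  have h4 : o.e (B := CP (Fin p)) ((taut 1 (Fin p)).tpow j)
      ((taut_isRank 1 (Fin p)).tpow1 j) ^ (p - 1) =
        (1 + p * (b : E.U (CP (Fin p)))) * o.z (Fin p) ^ (p - 1) := by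
    rw [hw, pow_trunc hz hp1, h3]
  have hp2 : p - 1 = m + 1 := by omega
  have h5 : Finset.range p = Finset.range (m + 2) := by rw [← hm]
  refine ⟨(b : E.U (CP (Fin p))) * (cc o o' (p - 1) • o.z (Fin p) ^ (p - 1)) +
    ∑ i ∈ Finset.range m, a i • o.e (B := CP (Fin p)) ((taut 1 (Fin p)).tpow j)
      ((taut_isRank 1 (Fin p)).tpow1 j) ^ (i + 1), ?_⟩
  rw [h1, h5, Finset.sum_range_succ, Finset.sum_range_succ', ← hp2, h4, pow_zero, hc0, one_smul,
    mul_add, Finset.mul_sum]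
  have h6 : ∑ i ∈ Finset.range m, cc o o' (i + 1) • o.e (B := CP (Fin p))
      ((taut 1 (Fin p)).tpow j) ((taut_isRank 1 (Fin p)).tpow1 j) ^ (i + 1) =
      ∑ i ∈ Finset.range m, (p : E.U (CP (Fin p))) * (a i • o.e (B := CP (Fin p))
        ((taut 1 (Fin p)).tpow j) ((taut_isRank 1 (Fin p)).tpow1 j) ^ (i + 1)) := by
    refine Finset.sum_congr rfl fun i hi => ?_
    rw [ha i (Finset.mem_range.mp hi), smul_assoc, nsmul_eq_mul]
  rw [h6, add_mul, one_mul, smul_add, mul_assoc, ← mul_smul_comm, ← mul_smul_comm]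
  ring

theorem cmpU_rhoC (hc : ∀ i, 0 < i → i < p - 1 → ∃ a : E.A, cc o o' i = p • a) :
    ∃ y : E.U (CP (Fin p)),
      cmpU o o' (B := CP (Fin p)) (rhoC p (Fin p)) (rhoC_isRank p (Fin p) hp.out.ne_zero) =
        1 + ((p - 1 : ℕ) : E.U (CP (Fin p))) * (cc o o' (p - 1) • o.z (Fin p) ^ (p - 1)) +
          (p : E.U (CP (Fin p))) * y := by
  have hr : ∀ i : Fin (p - 1), ((taut 1 (Fin p)).tpow ((i : ℕ) + 1)).IsRank 1 :=
    fun i => (taut_isRank 1 (Fin p)).tpow1 _
  have hn : (∑ _i : Fin (p - 1), 1) + 1 = p := by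
    simp
    have := hp.out.one_lt
    omega
  have h1 : cmpU o o' (B := CP (Fin p)) (rhoC p (Fin p)) (rhoC_isRank p (Fin p) hp.out.ne_zero) =
      ∏ i : Fin (p - 1), cmpU o o' (B := CP (Fin p)) ((taut 1 (Fin p)).tpow ((i : ℕ) + 1))
        (hr i) := by
    have h2 := cmpU_sum o o' (B := CP (Fin p)) (Bun.triv (Gr 1 (Fin p)) Unit)
      (Bun.sigma fun i : Fin (p - 1) => (taut 1 (Fin p)).tpow ((i : ℕ) + 1))
      (isRank_triv (CP (Fin p)) Unit) (IsRank.sigma hr) (p := p) (by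
        rw [Fintype.card_unit, add_comm, hn])
    have h3 := cmpU_sigma o o' (B := CP (Fin p))
      (fun i : Fin (p - 1) => (taut 1 (Fin p)).tpow ((i : ℕ) + 1)) (fun _ => 1) hr
    have h4 := cmpU_triv o o' (B := CP (Fin p)) (L := Unit)
    exact h2.trans (by rw [h3, h4, one_mul])
  have hj : ∀ i : Fin (p - 1), ¬ p ∣ (i : ℕ) + 1 := fun i h => by
    have h5 := Nat.le_of_dvd (Nat.succ_pos _) h
    have := i.2
    omega
  choose y hy using fun i : Fin (p - 1) => cmpU_tpow o o' hc (hj i)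
  let x : E.U (CP (Fin p)) := cc o o' (p - 1) • o.z (Fin p) ^ (p - 1)
  have hx : x * x = 0 := by
    have h5 : o.z (Fin p) ^ (p - 1) * o.z (Fin p) ^ (p - 1) = 0 := by
      rw [← pow_add]
      exact pow_eq_zero_of_le (by have := hp.out.two_le; omega) (z_pow_eq_zero o p (Fin p) (by simp))
    change (cc o o' (p - 1) • o.z (Fin p) ^ (p - 1)) * (cc o o' (p - 1) • o.z (Fin p) ^ (p - 1)) = 0
    rw [smul_mul_smul_comm, h5, smul_zero]
  let φ := Ideal.Quotient.mk (Ideal.span {(p : E.U (CP (Fin p)))})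
  have hφ : φ (p : E.U (CP (Fin p))) = 0 :=
    Ideal.Quotient.eq_zero_iff_mem.mpr (Ideal.subset_span rfl)
  have h6 : φ (cmpU o o' (B := CP (Fin p)) (rhoC p (Fin p))
      (rhoC_isRank p (Fin p) hp.out.ne_zero)) = φ (1 + ((p - 1 : ℕ) : E.U (CP (Fin p))) * x) := by
    rw [h1, map_prod]
    have h7 : ∀ i : Fin (p - 1), φ (cmpU o o' (B := CP (Fin p))
        ((taut 1 (Fin p)).tpow ((i : ℕ) + 1)) (hr i)) = φ (1 + x) := by
      intro i
      have h8 := hy i
      rw [h8, map_add φ, map_mul φ, hφ, zero_mul, add_zero]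
    rw [Finset.prod_congr rfl fun i _ => h7 i, Finset.prod_const, Finset.card_univ,
      Fintype.card_fin, ← map_pow, one_add_pow_sq hx]
  have h7 := Ideal.Quotient.eq.mp h6
  obtain ⟨y, hy⟩ := Ideal.mem_span_singleton.mp h7
  exact ⟨y, by rw [← hy]; ring⟩

/-- **The comparison class of `K ⊗ ρ` modulo `p`.** -/
theorem cmpU_kRho (hc : ∀ i, 0 < i → i < p - 1 → ∃ a : E.A, cc o o' i = p • a)
    (K : Type) [Fintype K] [DecidableEq K] {m : ℕ} (hK : (kRho p (Fin p) K).IsRank m) :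
    ∃ y : E.U (CP (Fin p)),
      cmpU o o' (B := CP (Fin p)) (kRho p (Fin p) K) hK =
        1 + ((Fintype.card K * (p - 1) : ℕ) : E.U (CP (Fin p))) *
          (cc o o' (p - 1) • o.z (Fin p) ^ (p - 1)) + (p : E.U (CP (Fin p))) * y := by
  obtain ⟨y, hy⟩ := cmpU_rhoC o o' hc
  let x : E.U (CP (Fin p)) := ((p - 1 : ℕ) : E.U (CP (Fin p))) *
    (cc o o' (p - 1) • o.z (Fin p) ^ (p - 1))
  have hx : x * x = 0 := by
    have h5 : o.z (Fin p) ^ (p - 1) * o.z (Fin p) ^ (p - 1) = 0 := by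
      rw [← pow_add]
      exact pow_eq_zero_of_le (by have := hp.out.two_le; omega) (z_pow_eq_zero o p (Fin p) (by simp))
    have h6 : (cc o o' (p - 1) • o.z (Fin p) ^ (p - 1)) *
        (cc o o' (p - 1) • o.z (Fin p) ^ (p - 1)) = 0 := by
      rw [smul_mul_smul_comm, h5, smul_zero]
    change (_ * _) * (_ * _) = _
    rw [mul_mul_mul_comm, h6, mul_zero]
  have h1 := cmpU_tensor_triv o o' (B := CP (Fin p)) (K := K) (rhoC p (Fin p))
    (rhoC_isRank p (Fin p) hp.out.ne_zero) hK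
  let φ := Ideal.Quotient.mk (Ideal.span {(p : E.U (CP (Fin p)))})
  have hφ : φ (p : E.U (CP (Fin p))) = 0 :=
    Ideal.Quotient.eq_zero_iff_mem.mpr (Ideal.subset_span rfl)
  have h6 : φ (cmpU o o' (B := CP (Fin p)) (kRho p (Fin p) K) hK) =
      φ (1 + ((Fintype.card K : ℕ) : E.U (CP (Fin p))) * x) := by
    have h2 : cmpU o o' (B := CP (Fin p)) (kRho p (Fin p) K) hK = _ := h1
    rw [h2, hy, map_pow, map_add φ, map_mul φ _ y, hφ, zero_mul, add_zero, ← map_pow,
      one_add_pow_sq hx]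
  obtain ⟨y', hy'⟩ := Ideal.mem_span_singleton.mp (Ideal.Quotient.eq.mp h6)
  refine ⟨y', ?_⟩
  rw [← hy']
  push_cast
  ring

end rho

end Vale.Agent.P257.V4.T
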