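import Vale.Agent.P257.V4.T.Dual
import Vale.Agent.P257.V4.T.CmpRho
import Vale.Agent.P257.V4.T.T1Cells

/-!
# P257, part T (T1): the pairing of the dual class with the Thom class

`R` an oriented commutative monoid, `l r : R ⟶ K'` monoid maps, `V = K ⊗ ρ` over `CP^{p-1}`. The
class `b` dual to `z ^ (p-1) U` pairs with the Thom class `U` (in `K'`, `b` pushed along `l` and `U`
pushed along `r`) to `|K| (p - 1) c_{p-1}` modulo `p`, `c` the coefficients of the comparison of the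
two orientations.
-/

set_option linter.unusedSectionVars false
set_option linter.style.haveILetI false

open CategoryTheory MonoidalCategory Limits Pretriangulated MonObj
open Vale.Agent.P251.G Vale.Agent.P251.G.LC Vale.Agent.P251.I Vale.Agent.P251.T
open Vale.Agent.P251.M Vale.Agent.P251.S Vale.Agent.P251.M.EvenSpheres Vale.Agent.P251.Q
open Vale.Agent.P251.Q.MultTheory Vale.Agent.P241.H588

universe v u

noncomputable section

namespace Vale.Agent.P257.V4.T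

/-! ### Homogeneous parts -/

section theory

theorem push_thom {E E' : MultTheory.{v}} (φ : MultTheory.Hom E E') (o : Orientation E)
    {Z : LC} [CompactSpace Z] [E.Good Z] {L : Type} [Fintype L] {m : ℕ} (V : Bun Z L)
    [E.Good V.tot] (hV : V.IsRank m) : (φ.push o).thom V hV = φ.app V.tot (o.thom V hV) := by
  have h := push_phi φ o V hV (E.oneU Z)
  have h1 : φ.app Z (E.oneU Z) = E'.oneU Z := by
    rw [MultTheory.oneU, φ.app_map, φ.app_one]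
    rfl
  rw [h1] at h
  exact h

/-- A multiple of a class which is homogeneous is a multiple of a homogeneous class. -/
theorem exists_deg_nsmul {E : MultTheory.{v}} {X : LC} [E.Good X] {n : ℕ} {k : ℤ} {y : E.U X}
    (h : n • y ∈ E.deg X k) : ∃ y' ∈ E.deg X k, n • y' = n • y := by
  refine ⟨E.proj X k y, proj_mem _ _, ?_⟩
  rw [← map_nsmul, proj_of_mem h]

variable {E : MultTheory.{v}} (oL oR : Orientation E) {p : ℕ} [hp : Fact p.Prime]

/-- The Thom class of `K ⊗ ρ` for the second orientation. -/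
theorem thom_kRho (hc : ∀ i, 0 < i → i < p - 1 → ∃ a : E.A, cc oL oR i = p • a)
    (K : Type) [Fintype K] [DecidableEq K] {m : ℕ} (hV : (kRho p (Fin p) K).IsRank m) :
    ∃ y ∈ E.deg (Bun.tot (X := CP (Fin p)) (kRho p (Fin p) K)) m,
      oR.thom (B := CP (Fin p)) (kRho p (Fin p) K) hV =
        zU oL (N := p) (kRho p (Fin p) K) hV 0 + (Fintype.card K * (p - 1)) •
          (cc oL oR (p - 1) • zU oL (N := p) (kRho p (Fin p) K) hV (p - 1)) + p • y := by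
  haveI := good_tot_CP (E := E) (N := p) (kRho p (Fin p) K) hV
  obtain ⟨y, hy⟩ := cmpU_kRho oL oR hc K hV
  have h1 : oR.thom (B := CP (Fin p)) (kRho p (Fin p) K) hV =
        zU oL (N := p) (kRho p (Fin p) K) hV 0 + (Fintype.card K * (p - 1)) •
          (cc oL oR (p - 1) • zU oL (N := p) (kRho p (Fin p) K) hV (p - 1)) +
            p • oL.phi (Z := CP (Fin p)) (kRho p (Fin p) K) hV y := by
    rw [← phi_cmpU oL oR (B := CP (Fin p)) (kRho p (Fin p) K) hV, hy, map_add, map_add, zU, zU,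
      pow_zero, ← nsmul_eq_mul, ← nsmul_eq_mul, map_nsmul, map_nsmul, phi_smul]
  have h2 : p • oL.phi (Z := CP (Fin p)) (kRho p (Fin p) K) hV y ∈
      E.deg (Bun.tot (X := CP (Fin p)) (kRho p (Fin p) K)) m := by
    have h3 : p • oL.phi (Z := CP (Fin p)) (kRho p (Fin p) K) hV y =
        zU oR (N := p) (kRho p (Fin p) K) hV 0 - (zU oL (N := p) (kRho p (Fin p) K) hV 0 +
          (Fintype.card K * (p - 1)) •
          (cc oL oR (p - 1) • zU oL (N := p) (kRho p (Fin p) K) hV (p - 1))) := by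
      have h4 : zU oR (N := p) (kRho p (Fin p) K) hV 0 =
          oR.thom (B := CP (Fin p)) (kRho p (Fin p) K) hV := by
        rw [zU, pow_zero]
        rfl
      rw [h4, h1]
      abel
    rw [h3]
    have h5 := zU_deg oR (N := p) (kRho p (Fin p) K) hV 0
    have h6 := zU_deg oL (N := p) (kRho p (Fin p) K) hV 0
    have h7 := smul_deg (cc_mem oL oR (p - 1)) (zU_deg oL (N := p) (kRho p (Fin p) K) hV (p - 1))
    rw [Nat.cast_zero, zero_add] at h5 h6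
    rw [neg_add_cancel_left] at h7
    exact sub_mem h5 (add_mem h6 (nsmul_mem h7 _))
  obtain ⟨y', hy', hyy⟩ := exists_deg_nsmul h2
  exact ⟨y', hy', by rw [h1, hyy]⟩

end theory

section pairing

variable {T : Type u} [Category.{v} T] [Preadditive T] [HasZeroObject T]
    [HasShift T ℤ] [∀ n : ℤ, (shiftFunctor T n).Additive] [Pretriangulated T] [IsTriangulated T]
    [MonoidalCategory T] [SymmetricCategory T] [TensorTriangulated T] [MonoidalClosed T]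
    [HasCoproducts.{0} T] [HasProducts.{0} T] [StableCat T]
  {S : EvenSpheres T} {F : SpaceFunctor T} {e : F.S.obj CCF ≅ S.L}

theorem IsC.nsmul {K : T} [MonObj K] [IsCommMonObj K] {X : FCat} {k : ℤ} (n : ℕ)
    {u : (thK e K).U X.obj} {f : FM.of (R := K) (F.S.obj X) ⟶ FM.of (S.S k)}
    (hf : IsC e X k u f) : IsC e X k (n • u) (n • f) := by
  induction n with
  | zero =>
    rw [zero_smul, zero_smul]
    exact IsC.zero
  | succ n ih =>
    rw [succ_nsmul, succ_nsmul]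
    exact ih.add hf

theorem hom_nsmul {K : T} [MonObj K] {A B : T} (n : ℕ)
    (f : FM.of (R := K) A ⟶ FM.of (R := K) B) :
    FM.Hom.hom (R := K) (X := FM.of (R := K) A) (Y := FM.of (R := K) B) (n • f) =
      n • FM.Hom.hom (R := K) (X := FM.of (R := K) A) (Y := FM.of (R := K) B) f := by
  induction n with
  | zero =>
    rw [zero_smul, zero_smul]
    rfl
  | succ n ih =>
    rw [succ_nsmul, succ_nsmul, FM.add_hom, ih]

variable {R K' : T} [MonObj R] [IsCommMonObj R] [MonObj K'] [IsCommMonObj K']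
  (o : Orientation (thK e R)) (l r : R ⟶ K') [IsMonHom l] [IsMonHom r]

/-- composite of the two changes of rings -/
theorem hom_pu_comp {A B C : T} (f : FM.of (R := R) A ⟶ FM.of B)
    (g : FM.of (R := R) B ⟶ FM.of C) :
    FM.Hom.hom (R := K') (X := FM.of (R := K') A) (Y := FM.of (R := K') C) (pu l f ≫ pu r g) =
      FM.Hom.hom (R := R) (X := FM.of (R := R) A) (Y := FM.of (R := R) B) f ≫
        R ◁ FM.Hom.hom (R := R) (X := FM.of (R := R) B) (Y := FM.of (R := R) C) g ≫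
          (α_ R R C).inv ≫ descM l r ▷ C := by
  rw [FM.comp_hom, pu_hom, pu_hom, FM.bind, descM, comp_whiskerRight, Category.assoc,
    MonoidalCategory.whiskerLeft_comp, Category.assoc, ← whisker_exchange_assoc,
    MonoidalCategory.tensorHom_def, comp_whiskerRight, associator_inv_naturality_middle_assoc,
    associator_inv_naturality_left_assoc, Category.assoc]

variable {p : ℕ} [hp : Fact p.Prime] (K : Type) [Fintype K] [DecidableEq K]

/-- **The pairing**, as morphisms of free `K'`-modules. -/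
theorem pairing_pu
    (hc : ∀ i, 0 < i → i < p - 1 → ∃ a : (thK e K').A,
      cc ((thKHom e l).push o) ((thKHom e r).push o) i = p • a)
    {ccT : S.S ((p - 1 : ℕ) : ℤ) ⟶ K'}
    (hT : coefK e K' (cc ((thKHom e l).push o) ((thKHom e r).push o) (p - 1)) =
      HRing.of S K' ((p - 1 : ℕ) : ℤ) ccT)
    {m : ℕ} (hV : Bun.IsRank (X := CP (Fin p)) (kRho p (Fin p) K) m)
    (f₀ : FM.of (R := R) (F.S.obj (totF (N := p) (kRho p (Fin p) K) hV)) ⟶
      FM.of (S.S (m : ℤ)))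
    (hf₀ : IsC e (totF (N := p) (kRho p (Fin p) K) hV) (m : ℤ)
      (o.thom (B := CP (Fin p)) (kRho p (Fin p) K) hV) f₀) :
    ∃ (b : FM.of (R := R) (S.S (((p - 1 : ℕ) : ℤ) + m)) ⟶
        FM.of (F.S.obj (totF (N := p) (kRho p (Fin p) K) hV)))
      (y : FM.of (R := K') (S.S (((p - 1 : ℕ) : ℤ) + m)) ⟶ FM.of (S.S (m : ℤ))),
      pu l b ≫ pu r f₀ = (Fintype.card K * (p - 1)) • mulS rfl ccT + p • y := by
  haveI := good_tot_CP (E := thK e R) (N := p) (kRho p (Fin p) K) hV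
  haveI := good_tot_CP (E := thK e K') (N := p) (kRho p (Fin p) K) hV
  have hp1 : p - 1 < p := Nat.sub_lt hp.out.pos Nat.one_pos
  choose f hf using fun i : Fin p => exists_isC (e := e)
    (X := totF (N := p) (kRho p (Fin p) K) hV) (zU_deg o (N := p) (kRho p (Fin p) K) hV i)
  obtain ⟨b, hb⟩ := exists_dual o (N := p) (kRho p (Fin p) K) hV f hf
  obtain ⟨h1, h2⟩ := dual_orth o (N := p) (kRho p (Fin p) K) hV f hf b hb
  obtain ⟨y, hy, hu⟩ := thom_kRho ((thKHom e l).push o) ((thKHom e r).push o) hc K hV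
  -- the classes
  have hF : ∀ i : Fin p, IsC e (totF (N := p) (kRho p (Fin p) K) hV) _
      (zU ((thKHom e l).push o) (N := p) (kRho p (Fin p) K) hV i) (pu l (f i)) := by
    intro i
    rw [push_zU]
    exact (hf i).push l
  have hR : IsC e (totF (N := p) (kRho p (Fin p) K) hV) (m : ℤ)
      (((thKHom e r).push o).thom (B := CP (Fin p)) (kRho p (Fin p) K) hV) (pu r f₀) := by
    rw [push_thom]
    exact hf₀.push r
  obtain ⟨g, hg⟩ := exists_isC (e := e) (X := totF (N := p) (kRho p (Fin p) K) hV) hy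
  -- degree zero
  have h0 : ∀ (k : ℤ) (hk : k = (((⟨0, hp.out.pos⟩ : Fin p) : ℕ) : ℤ) + m),
      ∃ g₀ : FM.of (R := K') (F.S.obj (totF (N := p) (kRho p (Fin p) K) hV)) ⟶ FM.of (S.S k),
        IsC e (totF (N := p) (kRho p (Fin p) K) hV) k
          (zU ((thKHom e l).push o) (N := p) (kRho p (Fin p) K) hV 0) g₀ ∧
        (p - 1 ≠ 0 → pu l (b ⟨p - 1, hp1⟩) ≫ g₀ = 0) := by
    rintro k rfl
    refine ⟨_, hF ⟨0, hp.out.pos⟩, fun h => ?_⟩
    rw [← pu_comp, h2 _ _ (by simpa [Fin.ext_iff] using h), pu_zero]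
  obtain ⟨g₀, hg₀, hg₁⟩ := h0 m (by simp)
  have hp2 : p - 1 ≠ 0 := by have := hp.out.two_le; omega
  have h3 := hR.unique (hu ▸ ((hg₀.add ((IsC.smul rfl hT (hF ⟨p - 1, hp1⟩)).nsmul
    (Fintype.card K * (p - 1)))).add (hg.nsmul p)))
  refine ⟨b ⟨p - 1, hp1⟩, pu l (b ⟨p - 1, hp1⟩) ≫ g, ?_⟩
  rw [h3, Preadditive.comp_add, Preadditive.comp_add, hg₁ hp2, zero_add, Preadditive.comp_nsmul,
    Preadditive.comp_nsmul, ← Category.assoc, ← pu_comp, h1, pu_id, Category.id_comp]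

/-- **(P1)** The pairing in `T`. -/
theorem pairing_T
    (hc : ∀ i, 0 < i → i < p - 1 → ∃ a : (thK e K').A,
      cc ((thKHom e l).push o) ((thKHom e r).push o) i = p • a)
    {ccT : S.S ((p - 1 : ℕ) : ℤ) ⟶ K'}
    (hT : coefK e K' (cc ((thKHom e l).push o) ((thKHom e r).push o) (p - 1)) =
      HRing.of S K' ((p - 1 : ℕ) : ℤ) ccT)
    {m : ℕ} (hV : Bun.IsRank (X := CP (Fin p)) (kRho p (Fin p) K) m)
    (f₀ : FM.of (R := R) (F.S.obj (totF (N := p) (kRho p (Fin p) K) hV)) ⟶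
      FM.of (S.S (m : ℤ)))
    (hf₀ : IsC e (totF (N := p) (kRho p (Fin p) K) hV) (m : ℤ)
      (o.thom (B := CP (Fin p)) (kRho p (Fin p) K) hV) f₀) :
    ∃ (b : S.S (((p - 1 : ℕ) : ℤ) + m) ⟶
        R ⊗ F.S.obj (totF (N := p) (kRho p (Fin p) K) hV))
      (y : S.S (((p - 1 : ℕ) : ℤ) + m) ⟶ K' ⊗ S.S (m : ℤ)),
      b ≫ R ◁ FM.Hom.hom f₀ ≫ (α_ R R (S.S (m : ℤ))).inv ≫ descM l r ▷ S.S (m : ℤ) =
        (Fintype.card K * (p - 1)) •
          ((S.mu ((p - 1 : ℕ) : ℤ) m _ rfl).inv ≫ ccT ▷ S.S (m : ℤ)) + p • y := by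
  obtain ⟨b, y, h⟩ := pairing_pu o l r K hc hT hV f₀ hf₀
  refine ⟨FM.Hom.hom b, FM.Hom.hom y, ?_⟩
  rw [← hom_pu_comp, h, FM.add_hom, hom_nsmul, hom_nsmul, mulS_hom]

/-- the two vertices of `R ⊗ R` -/
theorem descM_v (R : T) [MonObj R] [IsCommMonObj R] :
    descM (Am.v R (0 : Fin 2)) (Am.v R (1 : Fin 2)) ≫ ((λ_ R).hom ▷ R) = 𝟙 (R ⊗ R) := by
  have h0 : Am.v R (0 : Fin 2) = Am.v R (0 : Fin 1) ≫ inlM (Am R 1) R := Am.v_castSucc R 0
  have h1 : Am.v R (1 : Fin 2) = inrM (Am R 1) R := Am.v_last R 1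
  have h2 : Am.v R (0 : Fin 1) = inrM (𝟙_ T) R := Am.v_last R 0
  have h3 : inrM (𝟙_ T) R = (λ_ R).inv := by
    have h4 : η[(𝟙_ T)] = 𝟙 (𝟙_ T) := rfl
    rw [inrM, h4, id_whiskerRight, Category.comp_id]
  have h5 : ((Am.v R (0 : Fin 1) ≫ inlM (Am R 1) R) ⊗ₘ inrM (Am R 1) R) =
      ((Am.v R (0 : Fin 1)) ▷ R) ≫ (inlM (Am R 1) R ⊗ₘ inrM (Am R 1) R) := by
    rw [← tensorHom_id, tensorHom_comp_tensorHom, Category.id_comp]
  have h6 : (inlM (Am R 1) R ⊗ₘ inrM (Am R 1) R) ≫ μ[Am R 1 ⊗ R] = 𝟙 (Am R 1 ⊗ R) :=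
    inlM_inrM_mul (Am R 1) R
  have h7 : descM (Am.v R (0 : Fin 2)) (Am.v R (1 : Fin 2)) = (Am.v R (0 : Fin 1)) ▷ R := by
    rw [descM, h0, h1, h5, Category.assoc]
    exact (congrArg _ h6).trans (Category.comp_id _)
  rw [h7, ← comp_whiskerRight, h2, h3, Iso.inv_hom_id, id_whiskerRight]

/-- **(P2)** The input of `t1_core`. -/
theorem pairing_core
    (hc : ∀ i, 0 < i → i < p - 1 → ∃ a : (thK e K').A,
      cc ((thKHom e l).push o) ((thKHom e r).push o) i = p • a)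
    {ccT : S.S ((p - 1 : ℕ) : ℤ) ⟶ K'}
    (hT : coefK e K' (cc ((thKHom e l).push o) ((thKHom e r).push o) (p - 1)) =
      HRing.of S K' ((p - 1 : ℕ) : ℤ) ccT)
    (w : K' ⟶ R ⊗ R) (hw : descM l r ≫ w = 𝟙 _)
    {m : ℕ} (hV : Bun.IsRank (X := CP (Fin p)) (kRho p (Fin p) K) m)
    (f₀ : FM.of (R := R) (F.S.obj (totF (N := p) (kRho p (Fin p) K) hV)) ⟶
      FM.of (S.S (m : ℤ)))
    (hf₀ : IsC e (totF (N := p) (kRho p (Fin p) K) hV) (m : ℤ)
      (o.thom (B := CP (Fin p)) (kRho p (Fin p) K) hV) f₀)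
    (U : UnitCof R) {Q A : T} (s : Q ⟶ S.S ((p - 1 : ℕ) : ℤ)) (j : A ⟶ S.S (m : ℤ))
    (a : Q ⟶ U.J) (ε : ℤ) (y : Q ⟶ R ⊗ U.J)
    (ha : s ≫ ccT ≫ w ≫ R ◁ U.ρ = ε • (a ≫ unitMap R U.J) + (p : ℤ) • y) :
    ∃ (e₀ : Q ⊗ A ⟶ R ⊗ F.S.obj (totF (N := p) (kRho p (Fin p) K) hV))
      (y' : Q ⊗ A ⟶ R ⊗ (U.J ⊗ S.S (m : ℤ))),
      e₀ ≫ (R ◁ (FM.Hom.hom f₀ ≫ (U.ρ ▷ S.S (m : ℤ)))) =
        (((Fintype.card K * (p - 1) : ℕ) : ℤ) * ε) •
          ((a ⊗ₘ j) ≫ unitMap R (U.J ⊗ S.S (m : ℤ))) + (p : ℤ) • y' := by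
  obtain ⟨b, y₁, h⟩ := pairing_T o l r K hc hT hV f₀ hf₀
  obtain ⟨N, hN⟩ : ∃ N : ℕ, N = Fintype.card K * (p - 1) := ⟨_, rfl⟩
  obtain ⟨UV, hUV⟩ : ∃ UV : F.S.obj (totF (N := p) (kRho p (Fin p) K) hV) ⟶ R ⊗ S.S (m : ℤ),
    UV = FM.Hom.hom f₀ := ⟨_, rfl⟩
  obtain ⟨mu, hmu⟩ : ∃ mu : S.S ((p - 1 : ℕ) : ℤ) ⊗ S.S (m : ℤ) ≅ S.S (((p - 1 : ℕ) : ℤ) + m),
    mu = S.mu ((p - 1 : ℕ) : ℤ) m _ rfl := ⟨_, rfl⟩
  rw [← hN, ← hUV, ← hmu] at h
  rw [← hN, ← hUV]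
  obtain ⟨E, hE⟩ : ∃ E : T, E = S.S (m : ℤ) := ⟨_, rfl⟩
  have h1 : b ≫ R ◁ UV ≫ (α_ R R (S.S (m : ℤ))).inv =
      N • (mu.inv ≫ (ccT ≫ w) ▷ S.S (m : ℤ)) + p • (y₁ ≫ w ▷ S.S (m : ℤ)) := by
    have h2 := congrArg (· ≫ w ▷ S.S (m : ℤ)) h
    simp only [Category.assoc, Preadditive.add_comp, Preadditive.nsmul_comp] at h2
    rw [← comp_whiskerRight, ← comp_whiskerRight, hw, id_whiskerRight, Category.comp_id] at h2
    exact h2
  have h3 : R ◁ (UV ≫ (U.ρ ▷ S.S (m : ℤ))) = R ◁ UV ≫ (α_ R R (S.S (m : ℤ))).inv ≫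
      (R ◁ U.ρ) ▷ S.S (m : ℤ) ≫ (α_ R U.J (S.S (m : ℤ))).hom := by
    rw [MonoidalCategory.whiskerLeft_comp, associator_naturality_middle,
      Iso.inv_hom_id_assoc]
  have h4 : (s ⊗ₘ j) ≫ ((ccT ≫ w) ▷ S.S (m : ℤ)) ≫ (R ◁ U.ρ) ▷ S.S (m : ℤ) ≫
      (α_ R U.J (S.S (m : ℤ))).hom = ε • ((a ⊗ₘ j) ≫ unitMap R (U.J ⊗ S.S (m : ℤ))) +
        (p : ℤ) • ((y ⊗ₘ j) ≫ (α_ R U.J (S.S (m : ℤ))).hom) := by
    have h5 : (s ⊗ₘ j) ≫ ((ccT ≫ w) ▷ S.S (m : ℤ)) ≫ (R ◁ U.ρ) ▷ S.S (m : ℤ) =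
        ((s ≫ ccT ≫ w ≫ R ◁ U.ρ) ⊗ₘ j) := by
      rw [← comp_whiskerRight, ← tensorHom_id, tensorHom_comp_tensorHom, Category.comp_id,
        Category.assoc]
    have h6 : ((a ≫ unitMap R U.J) ⊗ₘ j) ≫ (α_ R U.J (S.S (m : ℤ))).hom =
        (a ⊗ₘ j) ≫ unitMap R (U.J ⊗ S.S (m : ℤ)) := by
      have h7 : ((a ≫ unitMap R U.J) ⊗ₘ j) = (a ⊗ₘ j) ≫ (unitMap R U.J ▷ S.S (m : ℤ)) := by
        rw [← tensorHom_id, tensorHom_comp_tensorHom, Category.comp_id]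
      rw [h7, Category.assoc]
      congr 1
      simp [unitMap]
    rw [reassoc_of% h5, ha, MonoidalPreadditive.add_tensor, Preadditive.add_comp]
    have h8 : ∀ (n : ℤ) {X Y : T} (f : X ⟶ Y), ((n • f) ⊗ₘ j) = n • (f ⊗ₘ j) := by
      intro n X Y f
      rw [MonoidalCategory.tensorHom_def, MonoidalCategory.tensorHom_def]
      have h9 : (n • f) ▷ A = n • (f ▷ A) := (tensorRight A).map_zsmul
      rw [h9, Preadditive.zsmul_comp]
    rw [h8, h8, Preadditive.zsmul_comp, Preadditive.zsmul_comp, h6]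
  refine ⟨(s ⊗ₘ j) ≫ mu.hom ≫ b, N • ((y ⊗ₘ j) ≫ (α_ R U.J (S.S (m : ℤ))).hom) +
    (s ⊗ₘ j) ≫ mu.hom ≫ (y₁ ≫ w ▷ S.S (m : ℤ)) ≫ (R ◁ U.ρ) ▷ S.S (m : ℤ) ≫
      (α_ R U.J (S.S (m : ℤ))).hom, ?_⟩
  have h10 : ((s ⊗ₘ j) ≫ mu.hom ≫ b) ≫ R ◁ (UV ≫ (U.ρ ▷ S.S (m : ℤ))) =
      (s ⊗ₘ j) ≫ mu.hom ≫ (b ≫ R ◁ UV ≫ (α_ R R (S.S (m : ℤ))).inv) ≫
        (R ◁ U.ρ) ▷ S.S (m : ℤ) ≫ (α_ R U.J (S.S (m : ℤ))).hom := by
    rw [h3]
    simp only [Category.assoc]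
  rw [h10, h1, Preadditive.add_comp, Preadditive.comp_add, Preadditive.comp_add,
    Preadditive.nsmul_comp, Preadditive.comp_nsmul, Preadditive.comp_nsmul,
    Preadditive.nsmul_comp, Preadditive.comp_nsmul, Preadditive.comp_nsmul, Category.assoc,
    Iso.hom_inv_id_assoc, h4]
  rw [smul_add, smul_add, mul_smul, natCast_zsmul, natCast_zsmul, natCast_zsmul, natCast_zsmul,
    add_assoc]
  congr 2
  rw [smul_comm]

end pairing

end Vale.Agent.P257.V4.T
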