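import Vale.Agent.P257.V4.T.LensSp
import Vale.Agent.P251.G.PowerProps

/-!
# P257, part T (T1): the fibre inclusions

* `lensR : E(ρW K) ⟶ E(kRho)`: the projection `Th(L; kρ) → Th(CP; kρ)`;
* `fibC e : ℂ^(K × p) ⟶ E(kRho)`: the inclusion of the fibre; `fibre_lensR`.
-/

set_option linter.unusedSectionVars false

open CategoryTheory MonoidalCategory Limits Topology Matrix OnePoint Filter

noncomputable section

namespace Vale.Agent.P257.V4.T

open Vale.Agent.P251 Vale.Agent.P251.G Vale.Agent.P251.G.LC Vale.Agent.P251.G.Bun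
open Vale.Agent.P251.M

section cast

variable {X ι : Type} [TopologicalSpace X] [Fintype ι]

/-- the homeomorphism of the total spaces of equal bundles -/
def castHomeo {V V' : Bun X ι} (h : V = V') : V.E ≃ₜ V'.E where
  toFun q := mkE V' (base q) (vec q) (h ▸ P_vec q)
  invFun q := mkE V (base q) (vec q) (h ▸ P_vec q)
  left_inv _ := rfl
  right_inv _ := rfl
  continuous_toFun := continuous_mkE continuous_base continuous_vec _
  continuous_invFun := continuous_mkE continuous_base continuous_vec _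

end cast

variable (p : ℕ) (hp : p ≠ 0) (κ K : Type) [Fintype κ] [Fintype K] [DecidableEq K]

/-- the projective space of `ℂ^κ` -/
abbrev CPO (κ : Type) [Fintype κ] : LC := LC.of (Gr 1 κ)

/-- the `p`-th power of the tautological line bundle -/
abbrev lineP : Bun (CPO κ) (Fin p → κ) := (taut 1 κ).tpow p

/-- the space `Th(L; kρ)` -/
abbrev YL : LC := Bun.tot (X := LC.of (Lens p κ)) ((lensFrames p hp κ).ρW K)

/-- the space `Th(CP; kρ)` -/
abbrev YC : LC := Bun.tot (X := CPO κ) (kRho p κ K)

/-- the identification of `Th(L; kρ)` with the pull back -/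
def lensIso : YL p hp κ K ≅
    Bun.tot (X := LC.of (Lens p κ)) (Bun.pullback (kRho p κ K) (sphC (Z := CPO κ) (lineP p κ))) :=
  ofHomeo (X := YL p hp κ K) (Y := Bun.tot (X := LC.of (Lens p κ))
    (Bun.pullback (kRho p κ K) (sphC (Z := CPO κ) (lineP p κ)))) (castHomeo (lens_ρW p κ K hp))

/-- the projection `Th(L; kρ) ⟶ Th(CP; kρ)` -/
def lensR : YL p hp κ K ⟶ YC p κ K :=
  (lensIso p hp κ K).hom ≫ rHom (Z := CPO κ) (kRho p κ K) (lineP p κ)

variable {p hp κ K}

theorem app_lensR (q : ((lensFrames p hp κ).ρW K).E) :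
    app (lensR p hp κ K) (q : OnePoint ((lensFrames p hp κ).ρW K).E) =
      (mkE (kRho p κ K) (base q).Q (vec q) (P_vec (V := (kRho p κ K).pullback (Lens.toGr p κ))
        (castHomeo (lens_ρW p κ K hp) q)) : OnePoint (kRho p κ K).E) := rfl

/-- the inclusion of the fibre over the lens space -/
abbrev fibL (e : SS κ) : LC.of (Fin p → K → ℂ) ⟶ YL p hp κ K :=
  (lensFrames p hp κ).fibre e

/-- the inclusion of the fibre over the projective space -/
def fibC (hp : p ≠ 0) (e : SS κ) : LC.of (Fin p → K → ℂ) ⟶ YC p κ K :=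
  fibL (hp := hp) e ≫ lensR p hp κ K

theorem kRho_fib (hp : p ≠ 0) (e : SS κ) (w : Fin p → K → ℂ) :
    (kRho p κ K).P e.line *ᵥ powVec (frameΦ p e.v) w = powVec (frameΦ p e.v) w := by
  have h := (lensFrames p hp κ).ρW_powVec (W := K) e w
  rw [lens_ρW] at h
  exact h

theorem app_fibC (e : SS κ) (w : Fin p → K → ℂ) :
    app (fibC hp e) (w : OnePoint (Fin p → K → ℂ)) =
      (mkE (kRho p κ K) e.line (powVec (frameΦ p e.v) w) (kRho_fib hp e w) :
        OnePoint (kRho p κ K).E) := rfl

end Vale.Agent.P257.V4.T
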