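import Vale.Agent.P257.V4.T.PowLens

/-!
# P257, part T (T2): tensor powers of maps to the unit

`tpM β n : A^{⊗n} ⟶ 𝟙` for `β : A ⟶ 𝟙`, and the form of the extended power theorem used in the
assembly (`toda_tpow_lens`).
-/

open CategoryTheory MonoidalCategory Limits Pretriangulated OnePoint Topology
open Vale.Agent.P251.G Vale.Agent.P251.G.LC Vale.Agent.P251.M Vale.Agent.P251.T
  Vale.Agent.P251.I

universe v u

set_option linter.unusedSectionVars false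

namespace Vale.Agent.P257.V4.T

section mon

variable {C : Type u} [Category.{v} C] [MonoidalCategory C]

/-- the tensor power `A ⊗ (A ⊗ ⋯)` -/
def tpO (A : C) : ℕ → C
  | 0 => 𝟙_ C
  | n + 1 => A ⊗ tpO A n

/-- the tensor power of a map `b : A ⟶ 𝟙` -/
def tpM {A : C} (b : A ⟶ 𝟙_ C) : ∀ n : ℕ, tpO A n ⟶ 𝟙_ C
  | 0 => 𝟙 (𝟙_ C)
  | n + 1 => (b ▷ tpO A n) ≫ (λ_ (tpO A n)).hom ≫ tpM b n

/-- the tensor power of an isomorphism -/
def tpI {A A' : C} (i : A ≅ A') : ∀ n : ℕ, tpO A n ≅ tpO A' n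
  | 0 => Iso.refl _
  | n + 1 => i ⊗ᵢ tpI i n

theorem tpI_tpM {A A' : C} (i : A ≅ A') (b : A' ⟶ 𝟙_ C) (n : ℕ) :
    (tpI i n).hom ≫ tpM b n = tpM (i.hom ≫ b) n := by
  induction n with
  | zero => exact Category.id_comp _
  | succ n ih =>
    change (i.hom ⊗ₘ (tpI i n).hom) ≫ (b ▷ tpO A' n) ≫ (λ_ (tpO A' n)).hom ≫ tpM b n =
      ((i.hom ≫ b) ▷ tpO A n) ≫ (λ_ (tpO A n)).hom ≫ tpM (i.hom ≫ b) n
    rw [← ih, tensorHom_def, Category.assoc, comp_whiskerRight, Category.assoc]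
    congr 1
    rw [whisker_exchange_assoc, leftUnitor_naturality_assoc]

end mon

variable {T : Type u} [Category.{v} T] [Preadditive T] [HasZeroObject T]
    [HasShift T ℤ] [∀ n : ℤ, (shiftFunctor T n).Additive] [Pretriangulated T]
    [MonoidalCategory T] [SymmetricCategory T] [TensorTriangulated T]
variable {S : SpaceFunctor T}

/-- `S (X^n) ≅ (S X)^{⊗n}` -/
noncomputable def pwIso (S : SpaceFunctor T) (X : FCat) :
    ∀ n : ℕ, S.S.obj (pwF X n) ≅ tpO (S.S.obj X) n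
  | 0 => S.S.mapIso (pwZero X) ≪≫ (Functor.Monoidal.εIso S.S).symm
  | n + 1 => S.S.mapIso (consIso X n).symm ≪≫ (Functor.Monoidal.μIso S.S X (pwF X n)).symm ≪≫
      whiskerLeftIso (S.S.obj X) (pwIso S X n)

theorem bpow_eq {X : FCat} (b : S.S.obj X ⟶ 𝟙_ T) (n : ℕ) :
    bpow b n = (pwIso S X n).hom ≫ tpM b n := by
  induction n with
  | zero => exact (Category.comp_id _).symm
  | succ n ih =>
    change S.S.map (consIso X n).inv ≫ Functor.OplaxMonoidal.δ S.S X (pwF X n) ≫ (b ▷ _) ≫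
      (λ_ _).hom ≫ bpow b n =
      (S.S.map (consIso X n).inv ≫ Functor.OplaxMonoidal.δ S.S X (pwF X n) ≫
        (S.S.obj X ◁ (pwIso S X n).hom)) ≫ (b ▷ _) ≫ (λ_ _).hom ≫ tpM b n
    rw [ih, Category.assoc, Category.assoc, whisker_exchange_assoc, leftUnitor_naturality_assoc]

/-- **The extended power over the lens space**, `β : A ⟶ 𝟙` with `A ≅ S(ℂ^K)` (`= 𝟙⟦2 |K|⟧`). -/
theorem toda_tpow_lens (p : ℕ) [NeZero p] (κ K : Type) [Fintype κ] [Fintype K] [DecidableEq K]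
    {A : T} (i : S.S.obj (VF K) ≅ A) (β : A ⟶ 𝟙_ T) :
    ∃ P : S.S.obj (lensE p (NeZero.ne p) κ K) ⟶ 𝟙_ T,
      ∀ x : SS κ, S.S.map (lensFib p κ K x) ≫ P =
        (pwIso S (VF K) p ≪≫ tpI i p).hom ≫ tpM β p := by
  obtain ⟨P, hP⟩ := toda_pow_lens (S := S) p κ K (i.hom ≫ β)
  refine ⟨P, fun x => ?_⟩
  rw [hP x, bpow_eq, Iso.trans_hom, Category.assoc, tpI_tpM]

end Vale.Agent.P257.V4.T
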