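import Vale.Agent.P257.V4.T.T1Cells
import Vale.Agent.P257.V4.T.TPow
import Vale.Agent.P251.M.SpaceConn

/-!
# P257, part T (T1): the lens space lifts the class of the projective space

`t1_lens`: from a class `f` of `R ⊗ (S(Th(CP; kρ)) ⊗ C)` with `d_1 f = c [a] ι` (the output of T1C)
to `c (a δ) ⊗ ι = 0` in `S(Th(L; kρ)) ⊗ C`; `t1_final`: removing `c`.
-/

set_option linter.unusedSectionVars false

open CategoryTheory MonoidalCategory Limits Pretriangulated MonObj Topology Matrix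

universe v u

noncomputable section

namespace Vale.Agent.P257.V4.T

open Vale.Agent.P251 Vale.Agent.P251.G Vale.Agent.P251.G.LC Vale.Agent.P251.G.Bun
open Vale.Agent.P251.M Vale.Agent.P251.T Vale.Agent.P251.S Vale.Agent.P251.I Vale.Agent.P251.H
open Vale.Agent.P251.G.Cell

instance isFC_vecs (p : ℕ) (K : Type) [Fintype K] : IsFC (LC.of (Fin p → K → ℂ)) :=
  ⟨(pwF (VF K) p).property⟩

/-- uncurrying -/
def curryHomeo (p : ℕ) (K : Type) : (Fin p × K → ℂ) ≃ₜ (Fin p → K → ℂ) where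
  toFun f a b := f (a, b)
  invFun g x := g x.1 x.2
  left_inv _ := rfl
  right_inv _ := rfl
  continuous_toFun := by fun_prop
  continuous_invFun := by fun_prop

variable {T : Type u} [Category.{v} T] [Preadditive T] [HasZeroObject T] [HasShift T ℤ]
  [∀ n : ℤ, (shiftFunctor T n).Additive] [Pretriangulated T] [IsTriangulated T]
  [MonoidalCategory T] [SymmetricCategory T] [TensorTriangulated T]

theorem nonempty_vecs (S : SpaceFunctor T) (p : ℕ) (K : Type) [Fintype K] :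
    Nonempty (ob S.S (LC.of (Fin p → K → ℂ)) ≅
      (𝟙_ T)⟦((2 * (Fintype.card K * p) : ℕ) : ℤ)⟧) := by
  have h : Fintype.card (Fin p × K) + Fintype.card (Fin p × K) = 2 * (Fintype.card K * p) := by
    rw [Fintype.card_prod, Fintype.card_fin]
    ring
  rw [← h]
  let e : Sph (Fintype.card (Fin p × K) + Fintype.card (Fin p × K)) ≅
      LC.of (Fin p → K → ℂ) :=
    ofHomeo (X := Sph _) (Y := LC.of (Fin p → K → ℂ))
      ((reImHomeo (Fin p × K)).trans (curryHomeo p K))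
  exact ⟨S.S.mapIso (fcIso (X := ⟨LC.of (Fin p → K → ℂ), IsFC.out⟩) (Y := SphF _) e.symm) ≪≫
    sphIso S _⟩

theorem nonempty_source (S : SpaceFunctor T) (p : ℕ) (K : Type) [Fintype K] (q : ℤ) :
    Nonempty ((((𝟙_ T)⟦q⟧) ⊗ ob S.S (LC.of (Fin p → K → ℂ)))⟦(1 : ℤ)⟧ ≅
      (𝟙_ T)⟦q + ((2 * (Fintype.card K * p) : ℕ) : ℤ) + 1⟧) := by
  obtain ⟨e⟩ := nonempty_vecs S p K
  exact ⟨(shiftFunctor T (1 : ℤ)).mapIso (whiskerLeftIso _ e ≪≫
    tensorUnitShiftIso ((𝟙_ T)⟦q⟧) _ ≪≫ (shiftFunctorAdd' T q _ _ rfl).symm.app (𝟙_ T)) ≪≫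
      (shiftFunctorAdd' T _ 1 _ rfl).symm.app (𝟙_ T)⟩

variable (S : SpaceFunctor T) {R : T} [MonObj R] (U : UnitCof R) {C : T} (i : 𝟙_ T ⟶ C)
variable (p : ℕ) (hp : p ≠ 0) (κ K : Type) [Fintype κ] [Fintype K] [DecidableEq K]

/-- `x` followed by the unit of `C` -/
abbrev inC {X Y : T} (x : X ⟶ Y) (i : 𝟙_ T ⟶ C) : X ⟶ Y ⊗ C := x ≫ (ρ_ Y).inv ≫ (Y ◁ i)

theorem inC_comp {X Y Z : T} (x : X ⟶ Y) (r : Y ⟶ Z) :
    inC x i ≫ (r ▷ C) = inC (x ≫ r) i := by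
  simp only [inC, Category.assoc]
  rw [whisker_exchange, rightUnitor_inv_naturality_assoc r]

theorem t1_lens {q : ℤ} (hq : Even q) (hq1 : 1 < q)
    (hodd : ∀ k : ℤ, Odd k → ∀ f : (𝟙_ T)⟦k⟧ ⟶ R ⊗ (U.J ⊗ C), f = 0)
    (hcon : ∀ k : ℤ, k < 2 * q → ∀ f : (𝟙_ T)⟦k⟧ ⟶ U.J ⊗ (U.J ⊗ C), f = 0)
    (hz : R ◁ (mp S.S (zHom (Z := CPO κ) (kRho p κ K) (lineP p κ)) ▷ C) = 0)
    (a : (𝟙_ T)⟦q⟧ ⟶ U.J) (x : SS κ) (c : ℤ)
    (f : ((𝟙_ T)⟦q⟧) ⊗ ob S.S (LC.of (Fin p → K → ℂ)) ⟶ R ⊗ (ob S.S (YC p κ K) ⊗ C))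
    (hf : f ≫ (U.ρ ▷ _) ≫ unitMap R (U.J ⊗ (ob S.S (YC p κ K) ⊗ C)) =
      (c • (a ⊗ₘ inC (mp S.S (fibC hp x)) i)) ≫ unitMap R (U.J ⊗ (ob S.S (YC p κ K) ⊗ C))) :
    c • ((a ≫ U.δ) ⊗ₘ inC (mp S.S (fibL (hp := hp) x)) i : ((𝟙_ T)⟦q⟧) ⊗
      ob S.S (LC.of (Fin p → K → ℂ)) ⟶ ((𝟙_ T)⟦(1 : ℤ)⟧) ⊗ (ob S.S (YL p hp κ K) ⊗ C)) = 0 := by
  have hcof : IsCofSeq (lensR p hp κ K) (zHom (Z := CPO κ) (kRho p κ K) (lineP p κ))
      (cHom (Z := CPO κ) (kRho p κ K) (lineP p κ) ≫ (lensIso p hp κ K).inv ▷ RR) :=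
    isCofSeq_of_iso₁ (isCofSeq_thom (Z := CPO κ) (kRho p κ K) (lineP p κ)) (lensIso p hp κ K)
  have hdist := hcof.distinguished S
  obtain ⟨e⟩ := nonempty_source S p K q
  have hb : ∀ g : (((𝟙_ T)⟦q⟧) ⊗ ob S.S (LC.of (Fin p → K → ℂ)))⟦(1 : ℤ)⟧ ⟶
      R ⊗ (U.J ⊗ (ob S.S (YC' p κ K) ⊗ C)), g = 0 := by
    intro g
    have h1 : MidZero R U.J C {k | Odd k} (ob S.S (YC' p κ K)) := by
      refine mid_zero S ?_ (cells_YC' p κ K hp)
      rintro k hk b ⟨hb, -⟩ f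
      refine hodd _ (Odd.sub_even hk ?_) f
      exact_mod_cast hb
    rw [← cancel_epi e.inv, comp_zero]
    refine h1 _ ?_ _
    refine Even.add_one (hq.add ?_)
    exact ⟨((Fintype.card K * p : ℕ) : ℤ), by push_cast; ring⟩
  have hc : ∀ g : (((𝟙_ T)⟦q⟧) ⊗ ob S.S (LC.of (Fin p → K → ℂ)))⟦(1 : ℤ)⟧ ⟶
      U.J ⊗ (U.J ⊗ (ob S.S (YL p hp κ K) ⊗ C)), g = 0 := by
    intro g
    have h1 : MidZero U.J U.J C {k | k < 2 * q + ((2 * (Fintype.card K * p) : ℕ) : ℤ)}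
        (ob S.S (YL p hp κ K)) := by
      refine mid_zero S ?_ (cells_YL p hp κ K)
      rintro k hk b hb f
      refine hcon _ ?_ f
      have h2 : k < 2 * q + ((2 * (Fintype.card K * p) : ℕ) : ℤ) := hk
      have h3 : ((2 * (Fintype.card K * p) : ℕ) : ℤ) ≤ b := by exact_mod_cast hb
      omega
    rw [← cancel_epi e.inv, comp_zero]
    refine h1 _ ?_ _
    rw [Set.mem_ofPred_eq]
    omega
  have key := abs_lift_zero U hdist hz hb hc f (c • (a ⊗ₘ inC (mp S.S (fibL (hp := hp) x)) i))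
    (by
      rw [hf]
      have h1 : (a ⊗ₘ inC (mp S.S (fibL (hp := hp) x)) i) ≫ (U.J ◁ (mp S.S (lensR p hp κ K) ▷ C)) =
          a ⊗ₘ inC (mp S.S (fibC hp x)) i := by
        rw [← id_tensorHom, tensorHom_comp_tensorHom, Category.comp_id, inC_comp, ← mp_comp]
        rfl
      rw [← h1]
      simp only [Preadditive.zsmul_comp, Category.assoc])
  have h2 : (a ⊗ₘ inC (mp S.S (fibL (hp := hp) x)) i) ≫ (U.δ ▷ (ob S.S (YL p hp κ K) ⊗ C)) =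
      (a ≫ U.δ) ⊗ₘ inC (mp S.S (fibL (hp := hp) x)) i := by
    rw [← tensorHom_id, tensorHom_comp_tensorHom, Category.comp_id]
  rw [← h2, ← Preadditive.zsmul_comp]
  exact key

omit [IsTriangulated T] in
theorem zsmul_inC {X Y : T} (x : X ⟶ Y) {n : ℤ} (hn : n • i = 0) : n • inC x i = 0 := by
  have h : Y ◁ (n • i) = n • (Y ◁ i) := by
    exact (tensorLeft Y).map_zsmul
  have h1 : n • (Y ◁ i) = 0 := by
    rw [← h, hn]
    exact MonoidalPreadditive.whiskerLeft_zero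
  rw [inC, ← Preadditive.comp_zsmul, ← Preadditive.comp_zsmul, h1, comp_zero, comp_zero]

theorem eq_zero_of_coprime {G : Type*} [AddCommGroup G] {x : G} {m n : ℤ} (h : IsCoprime m n)
    (hm : m • x = 0) (hn : n • x = 0) : x = 0 := by
  obtain ⟨a, b, hab⟩ := h
  calc x = (a * m + b * n) • x := by rw [hab, one_smul]
    _ = 0 := by rw [add_smul, mul_smul, mul_smul, hm, hn, smul_zero, smul_zero, add_zero]

end Vale.Agent.P257.V4.T
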