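import Vale.Agent.P257.V4.T.Dict
import Vale.Agent.P257.V4.T.Fib
import Vale.Agent.P257.V4.T.T1L
import Vale.Agent.P251.Q.Thom

/-!
# P257, part T (T1): the Thom class on a fibre

* `IsC.cross`: cross products;
* `IsSphC X k u`: the class `u` of `X` is given by an isomorphism `S X ≅ S (k)`;
* `isSphC_lin`: the suspension class of `ℂ^I` is spherical;
* `isSphC_fibC`: the restriction of the Thom class of `kRho` to a fibre is spherical.
-/

set_option linter.unusedSectionVars false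
set_option linter.style.haveILetI false

open CategoryTheory MonoidalCategory Limits Pretriangulated MonObj
open Vale.Agent.P251.G Vale.Agent.P251.G.LC Vale.Agent.P251.I Vale.Agent.P251.T
open Vale.Agent.P251.M Vale.Agent.P251.S Vale.Agent.P251.M.EvenSpheres Vale.Agent.P251.Q
open Functor.OplaxMonoidal Matrix OnePoint

universe v u

noncomputable section

namespace Vale.Agent.P257.V4.T

variable {T : Type u} [Category.{v} T] [Preadditive T] [HasZeroObject T]
    [HasShift T ℤ] [∀ n : ℤ, (shiftFunctor T n).Additive] [Pretriangulated T] [IsTriangulated T]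
    [MonoidalCategory T] [SymmetricCategory T] [TensorTriangulated T] [MonoidalClosed T]
    [HasCoproducts.{0} T] [HasProducts.{0} T] [StableCat T]
  {S : EvenSpheres T} {F : SpaceFunctor T} (e : F.S.obj CCF ≅ S.L)
  {K : T} [MonObj K] [IsCommMonObj K]

/-- the class `u` of degree `k` of `X` is given by an isomorphism of `T` -/
def IsSphC (X : FCat) (k : ℤ) (u : (thK e K).U X.obj) : Prop :=
  ∃ j : F.S.obj X ≅ S.S k, tU e K X u = j.hom ≫ FM.unit K (S.S k) ≫ K ◁ S.inPS k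

variable {e} {X Y : FCat} {k l : ℤ}

theorem IsSphC.isC {u : (thK e K).U X.obj} (h : IsSphC e X k u) :
    ∃ j : F.S.obj X ≅ S.S k, IsC e X k u ((FM.free K).map j.hom) := by
  obtain ⟨j, hj⟩ := h
  refine ⟨j, ?_⟩
  unfold IsC
  rw [hj, ← Category.assoc]
  rfl

theorem IsSphC.map_iso {u : (thK e K).U Y.obj} (h : IsSphC e Y k u) (g : X ≅ Y) :
    IsSphC e X k ((thK e K).map g.hom.hom u) := by
  obtain ⟨j, hj⟩ := h
  refine ⟨F.S.mapIso g ≪≫ j, ?_⟩
  rw [tU_map, hj, Iso.trans_hom, Functor.mapIso_hom, Category.assoc]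

theorem IsSphC.cross {q : ℤ} (h : k + l = q) {u : (thK e K).U X.obj} {v : (thK e K).U Y.obj}
    (hu : IsSphC e X k u) (hv : IsSphC e Y l v) :
    IsSphC e (X ⊗ Y) q ((thK e K).cross u v) := by
  obtain ⟨j, hj⟩ := hu
  obtain ⟨j', hj'⟩ := hv
  refine ⟨(Functor.Monoidal.μIso F.S X Y).symm ≪≫ (j ⊗ᵢ j') ≪≫ S.mu k l q h, ?_⟩
  rw [tU_cross, hj, hj']
  have h1 : ((j.hom ≫ FM.unit K (S.S k) ≫ K ◁ S.inPS k) ⊗ₘ
      (j'.hom ≫ FM.unit K (S.S l) ≫ K ◁ S.inPS l)) =
      (((j.hom ≫ FM.unit K (S.S k)) ≫ K ◁ S.inPS k) ⊗ₘ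
      ((j'.hom ≫ FM.unit K (S.S l)) ≫ K ◁ S.inPS l)) := by
    rw [Category.assoc, Category.assoc]
  have h2 : tensorμ K (S.S k) K (S.S l) ≫ (μ[K] ⊗ₘ (S.mu k l q h).hom) =
      FM.ten K (S.S k) (S.S l) ≫ K ◁ (S.mu k l q h).hom := by
    rw [FM.ten, Category.assoc, MonoidalCategory.tensorHom_def]
  rw [h1, in_tensor_mul h, h2, ← tensorHom_comp_tensorHom]
  simp only [Category.assoc]
  rw [FM.unit_ten_assoc, ← FM.unit_naturality_assoc]
  simp only [Iso.trans_hom, Iso.symm_hom, Functor.Monoidal.μIso_inv, Category.assoc,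
    MonoidalCategory.tensorIso_hom]

theorem isSphC_one : IsSphC e (𝟙_ FCat) 0 (thK e K).one := by
  refine ⟨(Functor.Monoidal.εIso F.S).symm ≪≫ S.zero, ?_⟩
  have h2 : tU e K (𝟙_ FCat) (thK e K).one = Functor.OplaxMonoidal.η F.S ≫ η[K ⊗ S.PS] := by
    exact (tK_tpull (K := K) (S := S) (Functor.OplaxMonoidal.η F.S) _).trans
      (congrArg (Functor.OplaxMonoidal.η F.S ≫ ·) tK_tone)
  rw [h2, eta_tensor_PS]
  simp only [Iso.trans_hom, Iso.symm_hom, Functor.Monoidal.εIso_inv, Category.assoc]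

theorem isSphC_sg : IsSphC e CCF 1 (thK e K).sg := by
  refine ⟨e ≪≫ S.oneIso.symm, ?_⟩
  have h1 : tU e K CCF (thK e K).sg = hq K S 1 _ (MSys.cls 0 (lineCls e (SeqMonoid.const K))) ≫
      K ◁ S.inPS 1 := tK_tof 1 _
  have h2 : hq K S 1 _ (MSys.cls 0 (lineCls e (SeqMonoid.const K))) =
      lineCls e (SeqMonoid.const K) := rfl
  rw [h1, h2]
  have h3 : lineCls e (SeqMonoid.const K) = (e.hom ≫ S.oneIso.inv) ≫ FM.unit K (S.S 1) := rfl
  rw [h3]
  simp only [Iso.trans_hom, Iso.symm_hom, Category.assoc]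

/-- the complex vector space as a finite cell space -/
abbrev cpowF (I : Type) [Fintype I] : FCat := ⟨Cpow I, Cell.fc_cvec I⟩

theorem IsSphC.map_iso' {u : (thK e K).U Y.obj}
    (h : IsSphC e Y k u) (g : X.obj ≅ Y.obj) :
    IsSphC e X k ((thK e K).map g.hom u) :=
  IsSphC.map_iso h (fcIso g)

section lin

variable (o : Orientation (thK e K))

theorem isSphC_lin_fin (n : ℕ) : IsSphC e (cpowF (Fin n)) n (o.lin (Fin n)) := by
  induction n with
  | zero =>
    have h1 : o.lin (Fin 0) = (thK e K).map (cpowEmpty (Fin 0)).inv (thK e K).one := by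
      rw [← lin_empty o (I := Fin 0), MultTheory.map_inv_hom]
    rw [h1]
    exact (isSphC_one (F := F)).map_iso' (X := cpowF (Fin 0)) (cpowEmpty (Fin 0)).symm
  | succ n ih =>
    rw [← lin_reindex o (finSumUnit n).symm]
    refine IsSphC.map_iso' (X := cpowF (Fin (n + 1))) (Y := cpowF (Fin n ⊕ Unit)) ?_
      (cpowIso (finSumUnit n).symm)
    have h1 : o.lin (Fin n ⊕ Unit) =
        (thK e K).map (Th.csum (Fin n) Unit).inv
          ((thK e K).cross (o.lin (Fin n)) (o.lin Unit)) := by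
      rw [← lin_sum, MultTheory.map_inv_hom]
    rw [h1]
    refine IsSphC.map_iso' (X := cpowF (Fin n ⊕ Unit)) (Y := cpowF (Fin n) ⊗ cpowF Unit) ?_
      (Th.csum _ _).symm
    refine IsSphC.cross (X := cpowF (Fin n)) (Y := cpowF Unit) (l := 1) (by push_cast; rfl) ih ?_
    have h3 : o.lin Unit = (thK e K).map cpowUnit.hom (thK e K).sg := by
      rw [← lin_unit o, MultTheory.map_hom_inv]
    rw [h3]
    exact isSphC_sg.map_iso' (X := cpowF Unit) (Y := CCF) cpowUnit

theorem isSphC_lin (I : Type) [Fintype I] [DecidableEq I] :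
    IsSphC e (cpowF I) (Fintype.card I) (o.lin I) := by
  rw [← lin_reindex o (Fintype.equivFin I)]
  exact IsSphC.map_iso' (X := cpowF I) (Y := cpowF (Fin (Fintype.card I)))
    (isSphC_lin_fin o _) (cpowIso (Fintype.equivFin I))

end lin

/-! ### The Thom class on a fibre -/

section fib

variable {p : ℕ} {κ W : Type} [Fintype κ] [Fintype W] [DecidableEq W]

/-- the vectors as a finite cell space -/
abbrev vecF (p : ℕ) (W : Type) [Fintype W] : FCat := ⟨LC.of (Fin p → W → ℂ), IsFC.out⟩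

/-- currying -/
def vecIso (p : ℕ) (W : Type) [Fintype W] : LC.of (Fin p → W → ℂ) ≅ Cpow (W × Fin p) :=
  ofHomeo (X := LC.of (Fin p → W → ℂ)) (Y := Cpow (W × Fin p))
    { toFun := fun w => pairVec w
      invFun := fun v j a => v (a, j)
      left_inv := fun _ => rfl
      right_inv := fun _ => rfl
      continuous_toFun := by
        refine continuous_pi fun a => ?_
        exact (continuous_apply a.1).comp (continuous_apply a.2)
      continuous_invFun := by
        refine continuous_pi fun j => continuous_pi fun a => ?_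
        exact continuous_apply (a, j) }

theorem kRho_P_line (hp : p ≠ 0) (x : SS κ) :
    (kRho p κ W).P x.line = kroneckerMap (· * ·) (1 : Matrix W W ℂ)
      (frameΦ p x.v * (frameΦ p x.v)ᴴ) := by
  have h1 : (kRho p κ W).P x.line = ((lensFrames p hp κ).ρW W).P ((lensFrames p hp κ).π x) := by
    rw [lens_ρW]; rfl
  rw [h1]
  exact congrArg (kroneckerMap (· * ·) (1 : Matrix W W ℂ)) ((lensFrames p hp κ).ρ_P_π x)

open Classical in
theorem fibC_toThHom (hp : p ≠ 0) (x : SS κ) {m : ℕ} (hm : Fintype.card (W × Fin p) = m)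
    (hV : (kRho p κ W).IsRank m)
    (hΦ : (frameΦ p x.v)ᴴ * frameΦ p x.v = 1) :
    fibC hp x ≫ toThHom (B := CPO κ) (kRho p κ W) hV =
      (vecIso p W).hom ≫ Th.incl' hm ≫ Th.map (amp W (frameΦ p x.v))
        (amp_conjTranspose_mul_amp hΦ) := by
  apply LC.hom_ext
  intro w
  have h1 : app (fibC hp x ≫ toThHom (B := CPO κ) (kRho p κ W) hV)
      (w : OnePoint (Fin p → W → ℂ)) = OnePoint.some (Bun.toTh (Z := CPO κ) (kRho p κ W) hV
        (Bun.mkE (X := CPO κ) (kRho p κ W) x.line (powVec (frameΦ p x.v) w) (kRho_fib hp x w))) := rfl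
  have h2 : app ((vecIso p W).hom ≫ Th.incl' hm ≫ Th.map (amp W (frameΦ p x.v))
        (amp_conjTranspose_mul_amp hΦ)) (w : OnePoint (Fin p → W → ℂ)) =
      OnePoint.some (Th.mapFun (amp W (frameΦ p x.v)) (amp_conjTranspose_mul_amp hΦ)
        (Th.mk 1 (pairVec w) (hm ▸ IsProj.one) (one_mulVec _))) := rfl
  rw [h1, h2]
  refine congrArg OnePoint.some (Th.ext ?_ ?_)
  · change (kRho p κ W).P x.line = amp W (frameΦ p x.v) * 1 * (amp W (frameΦ p x.v))ᴴ
    rw [kRho_P_line hp, Matrix.mul_one, amp, Matrix.conjTranspose_kronecker,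
      ← Matrix.mul_kronecker_mul, conjTranspose_one, Matrix.one_mul]
  · change powVec (frameΦ p x.v) w = amp W (frameΦ p x.v) *ᵥ pairVec w
    rw [amp_mulVec]

theorem isSphC_fibC (o : Orientation (thK e K)) (hp : p ≠ 0) (x : SS κ) {m : ℕ}
    (hm : Fintype.card (W × Fin p) = m) (hV : (kRho p κ W).IsRank m)
    [(thK e K).Good (CPO κ)] [(thK e K).Good (YC p κ W)] :
    IsSphC e (vecF p W) m ((thK e K).map (fibC hp x)
      (o.thom (B := CPO κ) (kRho p κ W) hV)) := by
  have hΦ : (frameΦ p x.v)ᴴ * frameΦ p x.v = 1 := (lensFrames p hp κ).isom x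
  have h1 : (thK e K).map (fibC hp x) (o.thom (B := CPO κ) (kRho p κ W) hV) =
      (thK e K).map (vecIso p W).hom (o.lin (W × Fin p)) := by
    rw [thom_eq o, ← MultTheory.map_comp, fibC_toThHom hp x hm hV hΦ, MultTheory.map_comp,
      MultTheory.map_comp, tau_map, map_incl']
  rw [h1]
  have h2 := isSphC_lin o (W × Fin p)
  rw [hm] at h2
  exact IsSphC.map_iso' (X := vecF p W) (Y := cpowF (W × Fin p)) h2 (vecIso p W)

/-- **(hU)** the Thom class restricts to a unit on the fibres -/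
theorem exists_hU (o : Orientation (thK e K)) (hp : p ≠ 0) (x : SS κ) {m : ℕ}
    (hm : Fintype.card W * p = m) (hV : (kRho p κ W).IsRank m)
    (f₀ : FM.of (R := K) (ob F.S (YC p κ W)) ⟶ FM.of (S.S m))
    (hf₀ : IsC e ⟨YC p κ W, IsFC.out⟩ m (o.thom (B := CPO κ) (kRho p κ W) hV) f₀) :
    ∃ j : ob F.S (LC.of (Fin p → W → ℂ)) ≅ S.S m,
      mp F.S (fibC hp x) ≫
        FM.Hom.hom (R := K) (X := FM.of (ob F.S (YC p κ W))) (Y := FM.of (S.S m)) f₀ =
      j.hom ≫ FM.unit K (S.S m) := by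
  haveI h1 : (thK e K).Good (CPO κ) := ⟨(thK e K).good_of_FC IsFC.out⟩
  haveI h2 : (thK e K).Good (YC p κ W) := ⟨(thK e K).good_of_FC IsFC.out⟩
  obtain ⟨j, hj⟩ := isSphC_fibC (e := e) o hp x
    (by rw [Fintype.card_prod, Fintype.card_fin]; exact hm) hV
  refine ⟨j, ?_⟩
  obtain ⟨f⟩ := f₀
  have h3 := IsC.map hf₀ (X := vecF p W) (FCat.hom (X := vecF p W)
    (Y := ⟨YC p κ W, IsFC.out⟩) (fibC hp x))
  have h4 := h3.symm.trans hj
  have h5 : (mp F.S (fibC hp x) ≫ f) ≫ K ◁ S.inPS m =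
      (j.hom ≫ FM.unit K (S.S m)) ≫ K ◁ S.inPS m := by
    rw [Category.assoc j.hom]
    refine Eq.trans ?_ h4
    exact congrArg (· ≫ K ◁ S.inPS m)
      (FM.free_map_comp_hom (R := K) (F.S.map (FCat.hom (X := vecF p W)
        (Y := ⟨YC p κ W, IsFC.out⟩) (fibC hp x)))
        (⟨f⟩ : FM.of (R := K) (ob F.S (YC p κ W)) ⟶ FM.of (S.S m))).symm
  exact cancel_inPS (P := K) (k := (m : ℤ)) (f := mp F.S (fibC hp x) ≫ f)
    (g := j.hom ≫ FM.unit K (S.S m)) h5

end fib

end Vale.Agent.P257.V4.T
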