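import Vale.Agent.P257.V4.T.T0MU
import Vale.Agent.P257.V4.B.ModP
import Vale.Agent.P257.V4.E.CupX

/-!
# P257, V(4), part T (T0): transfer of classes along a homomorphism of monoids

`g : R ⟶ R'` a homomorphism of monoids, `U`, `U'` cofibres of the units, `gJ : U.J ⟶ U'.J` the
induced map.

* `trB s Y : B s Y ⟶ B' s Y`, `trQ s Y : Q s Y ⟶ Q' s Y`: the map of towers and cobar complexes,
  compatible with `q`, `θ`, the units and the boundary maps;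
* `exists_alpha_B`, `exists_beta_B` : for `g : D.R ⟶ B` the classes `t₁` and `bcls p t` in the
  `E_1`-term of the tower of `B` come from homotopy classes of the tower (integrally).
-/

open CategoryTheory MonoidalCategory Limits Pretriangulated MonObj

set_option linter.unusedSectionVars false

universe v u

namespace Vale.Agent.P257.V4.T

open Vale.Agent.P251.T Vale.Agent.P251.M Vale.Agent.P251.S

section transfer

variable {T : Type u} [Category.{v} T] [Preadditive T] [HasZeroObject T]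
  [HasShift T ℤ] [∀ n : ℤ, (shiftFunctor T n).Additive] [Pretriangulated T]
  [MonoidalCategory T] [SymmetricCategory T] [TensorTriangulated T]
  {R R' : T} [MonObj R] [MonObj R'] (g : R ⟶ R') (U : UnitCof R) (U' : UnitCof R')
  (gJ : U.J ⟶ U'.J)

/-- The map of towers. -/
def trB : ∀ (s : ℕ) (Y : T), U.cobar.B s Y ⟶ U'.cobar.B s Y
  | 0, _ => 𝟙 _
  | s + 1, Y => U.cobar.Bm s (gJ ▷ Y) ≫ trB s (U'.J ⊗ Y)

/-- The map of cobar complexes. -/
def trQ : ∀ (s : ℕ) (Y : T), U.cobar.Q s Y ⟶ U'.cobar.Q s Y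
  | 0, _ => 𝟙 _
  | s + 1, Y => U.cobar.Qm s (g ▷ Y) ≫ trQ s (R' ⊗ Y)

lemma trB_zero (Y : T) : trB U U' gJ 0 Y = 𝟙 _ := rfl

lemma trB_succ (s : ℕ) (Y : T) :
    trB U U' gJ (s + 1) Y = U.cobar.Bm s (gJ ▷ Y) ≫ trB U U' gJ s (U'.J ⊗ Y) := rfl

lemma trQ_succ (s : ℕ) (Y : T) :
    trQ g U U' (s + 1) Y = U.cobar.Qm s (g ▷ Y) ≫ trQ g U U' s (R' ⊗ Y) := rfl

@[reassoc]
lemma trB_nat (s : ℕ) {X Y : T} (f : X ⟶ Y) :
    U.cobar.Bm s f ≫ trB U U' gJ s Y = trB U U' gJ s X ≫ U'.cobar.Bm s f := by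
  induction s generalizing X Y with
  | zero => exact (Category.comp_id _).trans (Category.id_comp _).symm
  | succ s ih =>
    rw [trB_succ, trB_succ, Category.assoc]
    change U.cobar.Bm s (U.J ◁ f) ≫ _ = _ ≫ _ ≫ U'.cobar.Bm s (U'.J ◁ f)
    rw [← ih, ← CobarData.Bm_comp_assoc, whisker_exchange, CobarData.Bm_comp_assoc]

@[reassoc]
lemma trQ_nat (s : ℕ) {X Y : T} (f : X ⟶ Y) :
    U.cobar.Qm s f ≫ trQ g U U' s Y = trQ g U U' s X ≫ U'.cobar.Qm s f := by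
  induction s generalizing X Y with
  | zero => exact (Category.comp_id _).trans (Category.id_comp _).symm
  | succ s ih =>
    rw [trQ_succ, trQ_succ, Category.assoc]
    change U.cobar.Qm s (R ◁ f) ≫ _ = _ ≫ _ ≫ U'.cobar.Qm s (R' ◁ f)
    rw [← ih, ← CobarData.Qm_comp_assoc, whisker_exchange, CobarData.Qm_comp_assoc]

variable (hρ : U.ρ ≫ gJ = g ≫ U'.ρ)

include hρ in
/-- Compatibility with the projections to the `E_1`-terms. -/
@[reassoc]
lemma trQ_q (s : ℕ) (Y : T) :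
    trQ g U U' (s + 1) Y ≫ U'.cobar.q s Y = U.cobar.q s Y ≫ (g ⊗ₘ trB U U' gJ s Y) := by
  induction s generalizing Y with
  | zero =>
    change ((g ▷ Y) ≫ 𝟙 _) ≫ 𝟙 _ = 𝟙 _ ≫ (g ⊗ₘ 𝟙 Y)
    rw [Category.comp_id, Category.comp_id, Category.id_comp, tensorHom_id]
  | succ s ih =>
    have h1 : trQ g U U' (s + 1 + 1) Y = U.cobar.Qm (s + 1) (g ▷ Y) ≫
        trQ g U U' (s + 1) (R' ⊗ Y) := rfl
    have h2 : U'.cobar.q (s + 1) Y = U'.cobar.Qm (s + 1) (U'.ρ ▷ Y) ≫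
        U'.cobar.q s (U'.J ⊗ Y) := rfl
    have h3 : U.cobar.q (s + 1) Y = U.cobar.Qm (s + 1) (U.ρ ▷ Y) ≫
        U.cobar.q s (U.J ⊗ Y) := rfl
    have h4 : U.cobar.Qm (s + 1) (gJ ▷ Y) ≫ U.cobar.q s (U'.J ⊗ Y) =
        U.cobar.q s (U.J ⊗ Y) ≫ (R ◁ U.cobar.Bm s (gJ ▷ Y)) :=
      U.cobar.q_naturality s (gJ ▷ Y)
    rw [h1, h2, h3, Category.assoc, ← trQ_nat_assoc, ih, ← CobarData.Qm_comp_assoc,
      ← comp_whiskerRight, ← hρ, comp_whiskerRight, CobarData.Qm_comp_assoc, reassoc_of% h4,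
      trB_succ, Category.assoc]
    congr 2
    rw [← id_tensorHom, tensorHom_comp_tensorHom, Category.id_comp]

/-- Compatibility with the units. -/
@[reassoc]
lemma unitMap_tr [IsMonHom g] {Y Y' : T} (f : Y ⟶ Y') :
    unitMap R Y ≫ (g ⊗ₘ f) = f ≫ unitMap R' Y' := by
  rw [unitMap, unitMap, tensorHom_def, Category.assoc, ← comp_whiskerRight_assoc,
    IsMonHom.one_hom, ← whisker_exchange, leftUnitor_inv_naturality_assoc]

/-- Compatibility with the comparison `Q n Y ≅ R^{⊗ n} ⊗ Y`. -/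
@[reassoc]
lemma trQ_θ [IsCommMonObj R] [IsCommMonObj R'] [IsMonHom g] (n : ℕ) (Y : T) :
    trQ g U U' n Y ≫ (U'.θ n Y).hom = (U.θ n Y).hom ≫ (B.amHom g n ▷ Y) := by
  induction n generalizing Y with
  | zero =>
    have h1 : B.amHom g 0 = 𝟙 (𝟙_ T) := by
      rw [B.amHom, Am.lift]
      rfl
    rw [h1, id_whiskerRight, Category.comp_id]
    exact Category.id_comp _
  | succ n ih =>
    rw [trQ_succ, U'.θ_succ, U.θ_succ, Iso.trans_hom, Iso.trans_hom, Category.assoc,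
      ← Category.assoc (trQ g U U' n (R' ⊗ Y)), ih, Category.assoc, U.θ_naturality_assoc,
      B.amHom_succ, Category.assoc, Iso.symm_hom, Iso.symm_hom]
    congr 1
    rw [tensorHom_def, associator_inv_naturality_left, associator_inv_naturality_middle_assoc,
      ← comp_whiskerRight, whisker_exchange]

variable (hδ : gJ ≫ U'.δ = U.δ)

include hδ in
/-- Compatibility with the boundary maps of the towers. -/
lemma trB_bd (s : ℕ) (Y : T) :
    trB U U' gJ (s + 1) Y ≫ U'.bd s Y = U.bd s Y ≫ (trB U U' gJ s Y)⟦(1 : ℤ)⟧' := by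
  induction s generalizing Y with
  | zero =>
    change ((gJ ▷ Y) ≫ 𝟙 _) ≫ U'.bdry Y = U.bdry Y ≫ (𝟙 Y)⟦(1 : ℤ)⟧'
    rw [Category.comp_id, CategoryTheory.Functor.map_id, Category.comp_id, U'.bdry_eq, U.bdry_eq,
      ← comp_whiskerRight_assoc, hδ]
  | succ s ih =>
    have h1 : trB U U' gJ (s + 1 + 1) Y = U.cobar.Bm (s + 1) (gJ ▷ Y) ≫
        trB U U' gJ (s + 1) (U'.J ⊗ Y) := rfl
    have h2 := U.bd_naturality s (gJ ▷ Y)
    rw [h1, U'.bd_succ, U.bd_succ, Category.assoc, ih, ← Category.assoc, h2, Category.assoc,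
      ← Functor.map_comp]
    rfl

/-- The induced map of the cofibres of the units. -/
lemma exists_gJ [IsMonHom g] : ∃ gJ : U.J ⟶ U'.J, U.ρ ≫ gJ = g ≫ U'.ρ ∧ gJ ≫ U'.δ = U.δ := by
  obtain ⟨gJ, h1, h2⟩ := complete_distinguished_triangle_morphism _ _ U.dist U'.dist (𝟙 _) g (by
    change η[R] ≫ g = 𝟙 _ ≫ η[R']
    rw [IsMonHom.one_hom, Category.id_comp])
  refine ⟨gJ, h1, ?_⟩
  have h3 : U.δ ≫ (𝟙 (𝟙_ T))⟦(1 : ℤ)⟧' = gJ ≫ U'.δ := h2
  refine h3.symm.trans ?_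
  rw [CategoryTheory.Functor.map_id]
  exact Category.comp_id _

end transfer

section classes

open Vale.Agent.P251.F Vale.Agent.P251.I Vale.Agent.P251.B Vale.Agent.P257.V4.E

variable {T : Type u} [Category.{v} T] [Preadditive T] [HasZeroObject T]
    [HasShift T ℤ] [∀ n : ℤ, (shiftFunctor T n).Additive] [Pretriangulated T]
    [MonoidalCategory T] [SymmetricCategory T] [TensorTriangulated T] [HasCoproducts.{0} T]
    [MonoidalClosed T] [IsTriangulated T] [HasProducts.{0} T] [StableCat T]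
  (D : MUData T) (U : UnitCof D.R)
  {R' : T} [MonObj R'] [IsCommMonObj R'] (g : D.R ⟶ R') [IsMonHom g] (U' : UnitCof R')

/-- Transfer of homotopy classes with a given image in the `E_1`-term. -/
theorem exists_tr {s : ℕ} {w : ℤ} (z : Cob.wt Laz s w)
    (x : (𝟙_ T)⟦2 * w⟧ ⟶ U.cobar.B s (𝟙_ T))
    (hx : ((Vale.Agent.P251.B.sphE T w).inv ≫ D.phi U s w z) ≫ U.cobar.q s (𝟙_ T) =
      x ≫ unitMap D.R _) :
    ∃ o : (𝟙_ T)⟦2 * w⟧ ⟶ U'.cobar.B s (𝟙_ T),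
      (Vale.Agent.P251.B.sphE T w).inv ≫ (B.rmodOf g).qX U' (𝟙 (𝟙_ T)) s w z =
        o ≫ unitMap R' _ := by
  obtain ⟨gJ, hρ, -⟩ := exists_gJ g U U'
  refine ⟨x ≫ trB U U' gJ s (𝟙_ T), ?_⟩
  have h1 := congrArg (· ≫ (g ⊗ₘ trB U U' gJ s (𝟙_ T))) hx
  simp only [Category.assoc] at h1
  rw [unitMap_tr g, ← trQ_q g U U' gJ hρ] at h1
  rw [Category.assoc, ← h1, RMod.qX_apply, RMod.cX_apply, RMod.evX_apply,
    B.rmodOf_evw g z (D.of_evw z).symm, MUData.phi_apply, Category.assoc, Category.assoc,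
    Category.assoc, Category.assoc]
  have h2 : (D.qAm U (s + 1)).inv ≫ trQ g U U' (s + 1) (𝟙_ T) =
      B.amHom g (s + 1) ≫ ux (𝟙 (𝟙_ T)) (Am R' (s + 1)) ≫ (U'.θ (s + 1) (𝟙_ T)).inv := by
    rw [← cancel_mono (U'.θ (s + 1) (𝟙_ T)).hom, Category.assoc, trQ_θ, MUData.qAm]
    simp only [Category.assoc, Iso.inv_hom_id, Category.comp_id]
    rw [Iso.trans_inv, Category.assoc, Iso.inv_hom_id_assoc, ux,
      MonoidalCategory.whiskerLeft_id, Category.comp_id, rightUnitor_inv_naturality]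
  rw [reassoc_of% h2]

variable {p : ℕ} [Fact p.Prime] (hp : p ≠ 2)

include hp D in
/-- **The class `α₁`** in the tower of `R'`. -/
theorem exists_alpha_B {t : Cob Laz 1} (ht : IsT1 p t) {w : ℤ} (hw : w = (p - 1 : ℕ))
    (hb : Cob.IsWt w t) : ∃ o : (𝟙_ T)⟦2 * w⟧ ⟶ U'.cobar.B 1 (𝟙_ T),
      (Vale.Agent.P251.B.sphE T w).inv ≫ (B.rmodOf g).qX U' (𝟙 (𝟙_ T)) 1 w ⟨t, hb⟩ =
        o ≫ unitMap R' _ := by
  obtain ⟨U⟩ := exists_unitCof D.R
  obtain ⟨x, hx⟩ := exists_alpha D U hp ht hw hb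
  exact exists_tr D U g U' _ x hx

include hp D in
/-- **The class `β₁`** in the tower of `R'`. -/
theorem exists_beta_B {t : Cob Laz 1} (ht : IsT1 p t) {w : ℤ} (hw : w = (p * (p - 1) : ℕ))
    (hb : Cob.IsWt w (bcls p t)) : ∃ o : (𝟙_ T)⟦2 * w⟧ ⟶ U'.cobar.B 2 (𝟙_ T),
      (Vale.Agent.P251.B.sphE T w).inv ≫ (B.rmodOf g).qX U' (𝟙 (𝟙_ T)) 2 w ⟨bcls p t, hb⟩ =
        o ≫ unitMap R' _ := by
  obtain ⟨U⟩ := exists_unitCof D.R
  obtain ⟨x, hx⟩ := exists_beta_one D U hp ht hw hb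
  exact exists_tr D U g U' _ x hx

omit [MonoidalClosed T] [IsTriangulated T] [HasProducts.{0} T] [StableCat T] [Fact p.Prime] in
/-- From sources `𝟙⟦2w⟧` to sources `S^{2w}`. -/
lemma exists_S {w : ℤ} {N Z : T} (f : (stdEven T).S w ⟶ N) (k : Z ⟶ N)
    (h : ∃ o : (𝟙_ T)⟦2 * w⟧ ⟶ Z, (Vale.Agent.P251.B.sphE T w).inv ≫ f = o ≫ k) :
    ∃ o : (stdEven T).S w ⟶ Z, f = o ≫ k := by
  obtain ⟨o, ho⟩ := h
  exact ⟨(Vale.Agent.P251.B.sphE T w).hom ≫ o, by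
    rw [Category.assoc, ← ho, Iso.hom_inv_id_assoc]⟩

end classes

end Vale.Agent.P257.V4.T
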