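import Vale.Agent.P251.S.TensorShift

/-!
# P257, V(4), part T (T4a): abstract descent along the cofibre of an element

`T` tensor triangulated, `α : A ⟶ 𝟙`, `β : B ⟶ 𝟙` (elements of the homotopy of the sphere),
`C` the cofibre of `α`.

* `mulE z f : V ⊗ A ⟶ Y`: the product of `z : V ⟶ Y` and `f : A ⟶ 𝟙`;
* `pw f n`: the `n`-th power of `f`, `mulPow z f n`: the product `z f ^ n`;
* `It C k Y = Y ⊗ C ⊗ ... ⊗ C`, `itι i k Y : Y ⟶ It C k Y`;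
* `descent`: if `α β ^ n` acts as `0` on `Y` and `z` dies in `Y ⊗ C ^ k` then `z β ^ (n k) = 0`;
* `toda_descent`: if moreover `β` becomes `κ α` in `X ⊗ C ^ k` then every `y : V ⟶ X ⊗ Z` with
  `y α = 0` satisfies `y β ^ (n k + 1) = 0`.
-/

set_option linter.unusedSectionVars false

open CategoryTheory MonoidalCategory Limits Pretriangulated

universe v u

namespace Vale.Agent.P257.V4.T

open Vale.Agent.P251.T Vale.Agent.P251.S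

variable {T : Type u} [Category.{v} T] [Preadditive T] [MonoidalCategory T] [SymmetricCategory T]
  [MonoidalPreadditive T]

/-! ### Products of elements -/

/-- The product of `z : V ⟶ Y` and `f : A ⟶ 𝟙`. -/
def mulE {V Y A : T} (z : V ⟶ Y) (f : A ⟶ 𝟙_ T) : V ⊗ A ⟶ Y := (z ⊗ₘ f) ≫ (ρ_ Y).hom

lemma mulE_comp {V Y Y' A : T} (z : V ⟶ Y) (h : Y ⟶ Y') (f : A ⟶ 𝟙_ T) :
    mulE (z ≫ h) f = mulE z f ≫ h := by
  rw [mulE, mulE, Category.assoc, ← rightUnitor_naturality, ← tensorHom_id,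
    tensorHom_comp_tensorHom_assoc, Category.comp_id]

lemma comp_mulE {V V' Y A : T} (g : V' ⟶ V) (z : V ⟶ Y) (f : A ⟶ 𝟙_ T) :
    mulE (g ≫ z) f = (g ▷ A) ≫ mulE z f := by
  rw [mulE, mulE, ← tensorHom_id, tensorHom_comp_tensorHom_assoc, Category.id_comp]

lemma mulE_comp_right {V Y A A' : T} (z : V ⟶ Y) (g : A' ⟶ A) (f : A ⟶ 𝟙_ T) :
    mulE z (g ≫ f) = (V ◁ g) ≫ mulE z f := by
  rw [mulE, mulE, ← id_tensorHom, tensorHom_comp_tensorHom_assoc, Category.id_comp]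

lemma mulE_mulE {V Y A B : T} (z : V ⟶ Y) (f : A ⟶ 𝟙_ T) (g : B ⟶ 𝟙_ T) :
    mulE (mulE z f) g = (α_ V A B).hom ≫ mulE z (mulE f g) := by
  have h1 : mulE (mulE z f) g = ((z ⊗ₘ f) ⊗ₘ g) ≫ ((ρ_ Y).hom ▷ (𝟙_ T)) ≫ (ρ_ Y).hom := by
    rw [mulE, mulE, ← tensorHom_id, tensorHom_comp_tensorHom_assoc, Category.comp_id]
  have h2 : mulE z (mulE f g) = (z ⊗ₘ (f ⊗ₘ g)) ≫ (Y ◁ (ρ_ (𝟙_ T)).hom) ≫ (ρ_ Y).hom := by
    rw [mulE, mulE, ← id_tensorHom, tensorHom_comp_tensorHom_assoc, Category.comp_id]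
  rw [h1, h2, ← associator_naturality_assoc]
  congr 1
  monoidal

lemma mulE_comm {A B : T} (f : A ⟶ 𝟙_ T) (g : B ⟶ 𝟙_ T) :
    mulE f g = (β_ A B).hom ≫ mulE g f := by
  rw [mulE, mulE, ← BraidedCategory.braiding_naturality_assoc, braiding_tensorUnit_left]
  simp [unitors_equal]

lemma mulE_zero_left {V Y A : T} (f : A ⟶ 𝟙_ T) : mulE (0 : V ⟶ Y) f = 0 := by
  rw [mulE]; simp

lemma mulE_zero_right {V Y A : T} (z : V ⟶ Y) : mulE z (0 : A ⟶ 𝟙_ T) = 0 := by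
  rw [mulE]; simp

/-- `z f = 0` -/
def Ann {V Y A : T} (z : V ⟶ Y) (f : A ⟶ 𝟙_ T) : Prop := mulE z f = 0

lemma Ann.comp {V Y Y' A : T} {z : V ⟶ Y} {f : A ⟶ 𝟙_ T} (h : Ann z f) (g : Y ⟶ Y') :
    Ann (z ≫ g) f := by
  rw [Ann, mulE_comp, h, zero_comp]

lemma Ann.precomp {V V' Y A : T} {z : V ⟶ Y} {f : A ⟶ 𝟙_ T} (h : Ann z f) (g : V' ⟶ V) :
    Ann (g ≫ z) f := by
  rw [Ann, comp_mulE, h, comp_zero]

lemma Ann.of_id {V Y A : T} {f : A ⟶ 𝟙_ T} (h : Ann (𝟙 Y) f) (z : V ⟶ Y) : Ann z f := by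
  rw [← Category.comp_id z]; exact h.precomp z


lemma mulE_swap {V Y A : T} (z : V ⟶ Y) (f : A ⟶ 𝟙_ T) :
    mulE z f = (β_ V A).hom ≫ (f ⊗ₘ z) ≫ (λ_ Y).hom := by
  rw [← BraidedCategory.braiding_naturality_assoc, braiding_tensorUnit_right, mulE]
  simp

/-- If `f` acts as `0` on `Y` then it acts as `0` on `Y ⊗ C`. -/
lemma ann_tensorRight {Y A : T} {f : A ⟶ 𝟙_ T} (h : Ann (𝟙 Y) f) (C : T) : Ann (𝟙 (Y ⊗ C)) f := by
  rw [Ann, mulE] at h ⊢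
  have h1 : (𝟙 (Y ⊗ C) ⊗ₘ f) ≫ (ρ_ (Y ⊗ C)).hom =
      (α_ Y C A).hom ≫ (Y ◁ (β_ C A).hom) ≫ (α_ Y A C).inv ≫ (((𝟙 Y ⊗ₘ f) ≫ (ρ_ Y).hom) ▷ C) := by
    rw [id_tensorHom, id_tensorHom, comp_whiskerRight]
    have h2 : (Y ◁ f) ▷ C = (α_ Y A C).hom ≫ (Y ◁ (f ▷ C)) ≫ (α_ Y (𝟙_ T) C).inv := by
      rw [whisker_assoc]
    have h3 : ((Y ⊗ C) ◁ f) = (α_ Y C A).hom ≫ (Y ◁ (C ◁ f)) ≫ (α_ Y C (𝟙_ T)).inv := by
      rw [tensor_whiskerLeft]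
    have h4 : (β_ C A).hom ≫ (f ▷ C) = (C ◁ f) ≫ (β_ C (𝟙_ T)).hom := by
      rw [BraidedCategory.braiding_naturality_right]
    rw [h2, h3]
    simp only [Category.assoc, Iso.inv_hom_id_assoc]
    rw [← whiskerLeft_comp_assoc, h4, whiskerLeft_comp_assoc, braiding_tensorUnit_right]
    monoidal
  rw [h1, h]
  simp

/-! ### Powers -/

/-- The source of the powers. -/
@[reducible] def PwO (V A : T) : ℕ → T
  | 0 => V
  | n + 1 => PwO V A n ⊗ A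

/-- `PwO` is functorial in `V` -/
def PwO.map {V V' : T} (g : V' ⟶ V) (A : T) : ∀ n, PwO V' A n ⟶ PwO V A n
  | 0 => g
  | n + 1 => (PwO.map g A n) ▷ A

/-- `z f ^ n` -/
def mulPow {V Y A : T} (z : V ⟶ Y) (f : A ⟶ 𝟙_ T) : ∀ n, PwO V A n ⟶ Y
  | 0 => z
  | n + 1 => mulE (mulPow z f n) f

lemma mulPow_succ {V Y A : T} (z : V ⟶ Y) (f : A ⟶ 𝟙_ T) (n : ℕ) :
    mulPow z f (n + 1) = mulE (mulPow z f n) f := rfl

lemma mulPow_comp {V Y Y' A : T} (z : V ⟶ Y) (h : Y ⟶ Y') (f : A ⟶ 𝟙_ T) (n : ℕ) :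
    mulPow (z ≫ h) f n = mulPow z f n ≫ h := by
  induction n with
  | zero => rfl
  | succ n ih => rw [mulPow_succ, ih, mulE_comp]; rfl

lemma comp_mulPow {V V' Y A : T} (g : V' ⟶ V) (z : V ⟶ Y) (f : A ⟶ 𝟙_ T) (n : ℕ) :
    mulPow (g ≫ z) f n = PwO.map g A n ≫ mulPow z f n := by
  induction n with
  | zero => rfl
  | succ n ih => rw [mulPow_succ, ih, comp_mulE]; rfl

lemma mulPow_zero {V Y A : T} (f : A ⟶ 𝟙_ T) (n : ℕ) : mulPow (0 : V ⟶ Y) f n = 0 := by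
  induction n with
  | zero => rfl
  | succ n ih => rw [mulPow_succ, ih, mulE_zero_left]

lemma mulPow_mono {V Y A : T} {z : V ⟶ Y} {f : A ⟶ 𝟙_ T} {n m : ℕ} (h : n ≤ m)
    (h0 : mulPow z f n = 0) : mulPow z f m = 0 := by
  induction m, h using Nat.le_induction with
  | base => exact h0
  | succ m _ ih => rw [mulPow_succ, ih, mulE_zero_left]

lemma exists_mulPow_mulPow {V Y A : T} (z : V ⟶ Y) (f : A ⟶ 𝟙_ T) (a b : ℕ) :
    ∃ e : PwO (PwO V A a) A b ≅ PwO V A (a + b),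
      mulPow (mulPow z f a) f b = e.hom ≫ mulPow z f (a + b) := by
  induction b with
  | zero => exact ⟨Iso.refl _, (Category.id_comp _).symm⟩
  | succ b ih =>
    obtain ⟨e, he⟩ := ih
    refine ⟨whiskerRightIso e A, ?_⟩
    rw [mulPow_succ, he, comp_mulE]
    rfl

lemma mulPow_mulPow_eq_zero {V Y A : T} {z : V ⟶ Y} {f : A ⟶ 𝟙_ T} {a b : ℕ}
    (h : mulPow (mulPow z f a) f b = 0) : mulPow z f (a + b) = 0 := by
  obtain ⟨e, he⟩ := exists_mulPow_mulPow z f a b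
  rw [h] at he
  rw [← cancel_epi e.hom, ← he, comp_zero]

lemma exists_mulPow_mulE {V Y A B : T} (z : V ⟶ Y) (f : A ⟶ 𝟙_ T) (g : B ⟶ 𝟙_ T) (n : ℕ) :
    ∃ e : PwO (V ⊗ A) B n ≅ V ⊗ PwO A B n,
      mulPow (mulE z f) g n = e.hom ≫ mulE z (mulPow f g n) := by
  induction n with
  | zero => exact ⟨Iso.refl _, (Category.id_comp _).symm⟩
  | succ n ih =>
    obtain ⟨e, he⟩ := ih
    refine ⟨whiskerRightIso e B ≪≫ α_ V (PwO A B n) B, ?_⟩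
    rw [mulPow_succ, he, comp_mulE, mulE_mulE, Iso.trans_hom, Category.assoc]
    rfl

/-! ### Iterated cofibres -/

/-- `Y ⊗ C ⊗ ... ⊗ C` -/
@[reducible] def It (C : T) : ℕ → T → T
  | 0, Y => Y
  | k + 1, Y => It C k Y ⊗ C

/-- one step -/
def itS {C : T} (i : 𝟙_ T ⟶ C) (Y : T) : Y ⟶ Y ⊗ C := (ρ_ Y).inv ≫ (Y ◁ i)

/-- `Y ⟶ Y ⊗ C ⊗ ... ⊗ C` -/
def itι {C : T} (i : 𝟙_ T ⟶ C) : ∀ (k : ℕ) (Y : T), Y ⟶ It C k Y
  | 0, Y => 𝟙 Y
  | k + 1, Y => itι i k Y ≫ itS i (It C k Y)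

lemma itι_succ {C : T} (i : 𝟙_ T ⟶ C) (k : ℕ) (Y : T) :
    itι i (k + 1) Y = itι i k Y ≫ itS i (It C k Y) := rfl

lemma ann_It {Y A : T} {f : A ⟶ 𝟙_ T} (h : Ann (𝟙 Y) f) (C : T) (k : ℕ) :
    Ann (𝟙 (It C k Y)) f := by
  induction k with
  | zero => exact h
  | succ k ih => exact ann_tensorRight ih C

/-- The action `(X ⊗ C ^ k) ⊗ Y ⟶ Y ⊗ C ^ k` of an action `a : X ⊗ Y ⟶ Y`. -/
def itμ {X Y : T} (a : X ⊗ Y ⟶ Y) (C : T) : ∀ k, It C k X ⊗ Y ⟶ It C k Y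
  | 0 => a
  | k + 1 => (α_ (It C k X) C Y).hom ≫ (It C k X ◁ (β_ C Y).hom) ≫
      (α_ (It C k X) Y C).inv ≫ (itμ a C k ▷ C)

lemma itι_itμ {X Y : T} (a : X ⊗ Y ⟶ Y) (e : 𝟙_ T ⟶ X) (he : (e ▷ Y) ≫ a = (λ_ Y).hom)
    {C : T} (i : 𝟙_ T ⟶ C) (k : ℕ) :
    ((e ≫ itι i k X) ▷ Y) ≫ itμ a C k = (λ_ Y).hom ≫ itι i k Y := by
  induction k with
  | zero =>
    change ((e ≫ 𝟙 X) ▷ Y) ≫ a = _ ≫ 𝟙 _
    rw [Category.comp_id, Category.comp_id, he]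
  | succ k ih =>
    have h1 : (itS i (It C k X)) ▷ Y ≫ (α_ (It C k X) C Y).hom ≫
        (It C k X ◁ (β_ C Y).hom) ≫ (α_ (It C k X) Y C).inv =
        (ρ_ (It C k X ⊗ Y)).inv ≫ ((It C k X ⊗ Y) ◁ i) := by
      have h2 : (i ▷ Y) ≫ (β_ C Y).hom = (β_ (𝟙_ T) Y).hom ≫ (Y ◁ i) :=
        BraidedCategory.braiding_naturality_left _ _
      have h3 : (itS i (It C k X)) ▷ Y ≫ (α_ (It C k X) C Y).hom =
          ((ρ_ (It C k X)).inv ▷ Y) ≫ (α_ (It C k X) (𝟙_ T) Y).hom ≫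
            (It C k X ◁ (i ▷ Y)) := by
        rw [itS, comp_whiskerRight, Category.assoc, associator_naturality_middle]
      rw [reassoc_of% h3, ← whiskerLeft_comp_assoc, h2, whiskerLeft_comp_assoc,
        braiding_tensorUnit_left, tensor_whiskerLeft]
      monoidal
    change ((e ≫ itι i k X ≫ itS i (It C k X)) ▷ Y) ≫
      (α_ (It C k X) C Y).hom ≫ (It C k X ◁ (β_ C Y).hom) ≫
      (α_ (It C k X) Y C).inv ≫ (itμ a C k ▷ C) =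
      (λ_ Y).hom ≫ itι i k Y ≫ itS i (It C k Y)
    rw [← Category.assoc e, comp_whiskerRight, Category.assoc, reassoc_of% h1, whisker_exchange,
      ← rightUnitor_inv_naturality_assoc, reassoc_of% ih]
    rfl

/-- An element of the sphere which dies in `X` acts as `0` on every `Y` with an action of `X`. -/
lemma ann_of_action {X Y A : T} (a : X ⊗ Y ⟶ Y) (e : 𝟙_ T ⟶ X) (he : (e ▷ Y) ≫ a = (λ_ Y).hom)
    {f : A ⟶ 𝟙_ T} (h : f ≫ e = 0) : Ann (𝟙 Y) f := by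
  have h1 : mulE (𝟙 Y) f = (β_ Y A).hom ≫ ((f ≫ e) ▷ Y) ≫ a := by
    rw [comp_whiskerRight, Category.assoc, he, mulE, id_tensorHom,
      ← BraidedCategory.braiding_naturality_right_assoc, braiding_tensorUnit_right]
    simp
  rw [Ann, h1, h]
  simp

end Vale.Agent.P257.V4.T

namespace Vale.Agent.P257.V4.T

open Vale.Agent.P251.T Vale.Agent.P251.S

variable {T : Type u} [Category.{v} T] [Preadditive T] [HasZeroObject T] [HasShift T ℤ]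
  [∀ n : ℤ, (shiftFunctor T n).Additive] [Pretriangulated T]
  [MonoidalCategory T] [SymmetricCategory T] [TensorTriangulated T]

/-- Exactness: an element which dies in `Y ⊗ C` is a multiple of `α`. -/
lemma exists_of_itS {A C : T} {α : A ⟶ 𝟙_ T} {i : 𝟙_ T ⟶ C} {δ : C ⟶ A⟦(1 : ℤ)⟧}
    (hC : Triangle.mk α i δ ∈ distTriang T) {V Y : T} (z : V ⟶ Y) (hz : z ≫ itS i Y = 0) :
    ∃ z' : V ⟶ Y ⊗ A, z = z' ≫ mulE (𝟙 Y) α := by
  rw [itS, ← Category.assoc] at hz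
  obtain ⟨z', hz'⟩ := Triangle.coyoneda_exact₂ _ (dist_whiskerLeft Y hC) _ hz
  have h : ∀ w : V ⟶ Y ⊗ A, z ≫ (ρ_ Y).inv = w ≫ (Y ◁ α) → z = w ≫ mulE (𝟙 Y) α := by
    intro w hw
    rw [mulE, id_tensorHom, ← Category.assoc, ← hw, Category.assoc, Iso.inv_hom_id,
      Category.comp_id]
  exact ⟨z', h z' hz'⟩

/-- One step of the descent. -/
lemma descent_step {A B C : T} {α : A ⟶ 𝟙_ T} {i : 𝟙_ T ⟶ C} {δ : C ⟶ A⟦(1 : ℤ)⟧}
    (hC : Triangle.mk α i δ ∈ distTriang T) (β : B ⟶ 𝟙_ T) (n : ℕ) {V Y : T}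
    (hY : Ann (𝟙 Y) (mulPow α β n)) (z : V ⟶ Y) (hz : z ≫ itS i Y = 0) :
    mulPow z β n = 0 := by
  obtain ⟨z', rfl⟩ := exists_of_itS hC z hz
  obtain ⟨e, he⟩ := exists_mulPow_mulE (𝟙 Y) α β n
  have h0 : mulE (𝟙 Y) (mulPow α β n) = 0 := hY
  rw [comp_mulPow, he, h0, comp_zero, comp_zero]

/-- **Descent.** If `α β ^ n` acts as `0` on `Y` and `z` dies in `Y ⊗ C ^ k`, `C` the cofibre of
`α`, then `z β ^ (n k) = 0`. -/
theorem descent {A B C : T} {α : A ⟶ 𝟙_ T} {i : 𝟙_ T ⟶ C} {δ : C ⟶ A⟦(1 : ℤ)⟧}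
    (hC : Triangle.mk α i δ ∈ distTriang T) (β : B ⟶ 𝟙_ T) (n : ℕ) {Y : T}
    (hY : Ann (𝟙 Y) (mulPow α β n)) (k : ℕ) :
    ∀ {V : T} (z : V ⟶ Y), z ≫ itι i k Y = 0 → mulPow z β (n * k) = 0 := by
  induction k with
  | zero =>
    intro V z hz
    have h : z = 0 := (Category.comp_id z).symm.trans hz
    exact h
  | succ k ih =>
    intro V z hz
    rw [itι_succ, ← Category.assoc] at hz
    have h1 := descent_step hC β n (ann_It hY C k) _ hz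
    rw [mulPow_comp] at h1
    have h2 := mulPow_mulPow_eq_zero (ih _ h1)
    rwa [show n * (k + 1) = n + n * k by ring]

/-- **Toda descent.** Let `α β ^ n` die in `X` and let `β = κ α` in `X ⊗ C ^ k`, `C` the cofibre of
`α`. Let `Y` have a unital action of `X`. Then `y α = 0` implies `y β ^ (n k + 1) = 0` for
`y : V ⟶ Y`. -/
theorem toda_descent {A B C X : T} {α : A ⟶ 𝟙_ T} {i : 𝟙_ T ⟶ C} {δ : C ⟶ A⟦(1 : ℤ)⟧}
    (hC : Triangle.mk α i δ ∈ distTriang T) (β : B ⟶ 𝟙_ T)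
    (e : 𝟙_ T ⟶ X) (n : ℕ) (h0 : mulPow α β n ≫ e = 0) (k : ℕ)
    {K : T} (κ : K ⟶ It C k X) (ε : B ⟶ K ⊗ A) (hκ : β ≫ e ≫ itι i k X = ε ≫ mulE κ α)
    {V Y : T} (a : X ⊗ Y ⟶ Y) (ha : (e ▷ Y) ≫ a = (λ_ Y).hom)
    (y : V ⟶ Y) (hy : Ann y α) : mulPow y β (n * k + 1) = 0 := by
  have h1 : mulE y β ≫ itι i k Y = 0 := by
    have h2 := itι_itμ a e ha i k
    have h3 : (α ⊗ₘ y) ≫ (λ_ Y).hom = 0 := by
      have h := mulE_swap y α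
      rw [show mulE y α = 0 from hy] at h
      rw [← cancel_epi (β_ V A).hom, ← h, comp_zero]
    have h6 : (α ⊗ₘ y) = 0 := by
      rw [← cancel_mono (λ_ Y).hom, h3, zero_comp]
    have h7 : (mulE κ α ⊗ₘ y) = 0 := by
      have h : ((κ ⊗ₘ α) ⊗ₘ y) = 0 := by
        rw [← cancel_mono (α_ _ _ _).hom, associator_naturality, h6]
        simp
      have h' : (mulE κ α ⊗ₘ y) = ((κ ⊗ₘ α) ⊗ₘ y) ≫ ((ρ_ (It C k X)).hom ▷ Y) := by
        rw [← tensorHom_id, tensorHom_comp_tensorHom, Category.comp_id]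
        rfl
      rw [h', h, zero_comp]
    have h8 : (β ⊗ₘ y) ≫ ((e ≫ itι i k X) ▷ Y) = 0 := by
      rw [← tensorHom_id, tensorHom_comp_tensorHom, Category.comp_id, hκ,
        ← Category.id_comp y, ← tensorHom_comp_tensorHom, h7, comp_zero]
    rw [mulE_swap, Category.assoc, Category.assoc, ← h2, reassoc_of% h8, zero_comp, comp_zero]
  have h4 : mulPow (mulPow y β 1) β (n * k) = 0 :=
    descent hC β n (ann_of_action a e ha h0) k _ h1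
  have h5 := mulPow_mulPow_eq_zero h4
  rwa [add_comm] at h5

/-- **Toda descent, second form.** Instead of `β = κ α` in `X ⊗ C ^ k` it is enough that `β` dies
in `X ⊗ C ^ (k + 1)`. -/
theorem toda_descent' {A B C X : T} {α : A ⟶ 𝟙_ T} {i : 𝟙_ T ⟶ C} {δ : C ⟶ A⟦(1 : ℤ)⟧}
    (hC : Triangle.mk α i δ ∈ distTriang T) (β : B ⟶ 𝟙_ T)
    (e : 𝟙_ T ⟶ X) (n : ℕ) (h0 : mulPow α β n ≫ e = 0) (k : ℕ)
    (hκ : β ≫ e ≫ itι i (k + 1) X = 0)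
    {V Y : T} (a : X ⊗ Y ⟶ Y) (ha : (e ▷ Y) ≫ a = (λ_ Y).hom)
    (y : V ⟶ Y) (hy : Ann y α) : mulPow y β (n * k + 1) = 0 := by
  obtain ⟨w, hw⟩ := exists_of_itS hC (β ≫ e ≫ itι i k X) (by
    rw [Category.assoc, Category.assoc, ← itι_succ]; exact hκ)
  exact toda_descent hC β e n h0 k (𝟙 _) w hw a ha y hy

end Vale.Agent.P257.V4.T
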