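import Vale.Agent.P257.V4.T.T1L
import Vale.Agent.P257.V4.T.Descent

/-!
# P257, part T: assembly of T1 and T2

`toda_of_T1`: from `(a δ) ⊗ ι = 0` in `S(Th(L; kρ)) ⊗ C` (T1) to `α β ^ p = 0` in `C`, for every
`β : S(ℂ^K) ≅ B ⟶ 𝟙` and every `α` with `α⟦1⟧ = s ≫ a ≫ δ`.
-/

set_option linter.unusedSectionVars false

open CategoryTheory MonoidalCategory Limits Pretriangulated MonObj Topology Matrix

universe v u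

noncomputable section

namespace Vale.Agent.P257.V4.T

open Vale.Agent.P251 Vale.Agent.P251.G Vale.Agent.P251.G.LC Vale.Agent.P251.G.Bun
open Vale.Agent.P251.M Vale.Agent.P251.T Vale.Agent.P251.S Vale.Agent.P251.I Vale.Agent.P251.H

section powers

variable {T : Type u} [Category.{v} T] [Preadditive T] [MonoidalCategory T] [SymmetricCategory T]
  [MonoidalPreadditive T]

theorem tens_step {P Q : T} (f : P ⟶ 𝟙_ T) (b : Q ⟶ 𝟙_ T) :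
    (f ⊗ₘ b) ≫ (λ_ (𝟙_ T)).hom = (β_ P Q).hom ≫ (b ▷ P) ≫ (λ_ P).hom ≫ f := by
  have h1 : (b ▷ P) ≫ (λ_ P).hom ≫ f = (b ⊗ₘ f) ≫ (λ_ (𝟙_ T)).hom := by
    rw [MonoidalCategory.tensorHom_def, Category.assoc, leftUnitor_naturality]
  have h2 : (β_ (𝟙_ T) (𝟙_ T)).hom = 𝟙 _ := by
    rw [braiding_tensorUnit_left, unitors_equal, Iso.hom_inv_id]
  rw [h1, ← Category.assoc, ← BraidedCategory.braiding_naturality, h2, Category.comp_id]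

theorem exists_mulPow_tpM {V Y B : T} (z : V ⟶ Y) (β : B ⟶ 𝟙_ T) (n : ℕ) :
    ∃ e : PwO V B n ≅ V ⊗ tpO B n, mulPow z β n = e.hom ≫ (z ⊗ₘ tpM β n) ≫ (ρ_ Y).hom := by
  induction n with
  | zero =>
    refine ⟨(ρ_ V).symm, ?_⟩
    change z = (ρ_ V).inv ≫ (z ⊗ₘ 𝟙 (𝟙_ T)) ≫ (ρ_ Y).hom
    rw [tensorHom_id, rightUnitor_naturality, Iso.inv_hom_id_assoc]
  | succ n ih =>
    obtain ⟨e, he⟩ := ih
    obtain ⟨Q, hQ⟩ : ∃ Q : T, Q = tpO B n := ⟨_, rfl⟩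
    have key : ∀ (Q : T) (t : Q ⟶ 𝟙_ T) (e : PwO V B n ≅ V ⊗ Q)
        (_ : mulPow z β n = e.hom ≫ (z ⊗ₘ t) ≫ (ρ_ Y).hom),
        ∃ e' : (PwO V B n) ⊗ B ≅ V ⊗ (B ⊗ Q), (mulPow z β n ⊗ₘ β) ≫ (ρ_ Y).hom =
          e'.hom ≫ (z ⊗ₘ ((β ▷ Q) ≫ (λ_ Q).hom ≫ t)) ≫ (ρ_ Y).hom := by
      intro Q t e he
      refine ⟨whiskerRightIso e B ≪≫ α_ V Q B ≪≫ whiskerLeftIso V (β_ Q B), ?_⟩
      have h1 : ((mulPow z β n) ⊗ₘ β) = (e.hom ▷ B) ≫ ((z ⊗ₘ t) ⊗ₘ β) ≫ ((ρ_ Y).hom ▷ 𝟙_ T) := by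
        rw [he, ← tensorHom_id, ← tensorHom_id, tensorHom_comp_tensorHom,
          tensorHom_comp_tensorHom, Category.id_comp, Category.comp_id]
      have h2 : (V ◁ (β_ Q B).hom) ≫ (z ⊗ₘ ((β ▷ Q) ≫ (λ_ Q).hom ≫ t)) =
          (z ⊗ₘ (t ⊗ₘ β)) ≫ (Y ◁ (λ_ (𝟙_ T)).hom) := by
        rw [← id_tensorHom, tensorHom_comp_tensorHom, Category.id_comp, ← tens_step,
          ← id_tensorHom, tensorHom_comp_tensorHom, Category.comp_id]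
      simp only [Iso.trans_hom, whiskerRightIso_hom, whiskerLeftIso_hom, Category.assoc]
      rw [reassoc_of% h2, ← associator_naturality_assoc, h1, Category.assoc, Category.assoc]
      congr 2
      monoidal
    obtain ⟨e', he'⟩ := key (tpO B n) (tpM β n) e he
    exact ⟨e', he'⟩

end powers

variable {T : Type u} [Category.{v} T] [Preadditive T] [HasZeroObject T] [HasShift T ℤ]
  [∀ n : ℤ, (shiftFunctor T n).Additive] [Pretriangulated T] [IsTriangulated T]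
  [MonoidalCategory T] [SymmetricCategory T] [TensorTriangulated T]

omit [IsTriangulated T] in
/-- the shift of a map is the tensor product with `𝟙⟦1⟧` -/
theorem shift_eq_e {A B : T} (f : A ⟶ B) :
    f⟦(1 : ℤ)⟧' = (TensorTriangulated.e A).inv ≫ (f ▷ ((𝟙_ T)⟦(1 : ℤ)⟧)) ≫
      (TensorTriangulated.e B).hom := by
  rw [TensorTriangulated.e_naturality, Iso.inv_hom_id_assoc]

/-- If `α⟦1⟧ ⊗ g = 0` then `α ⊗ g = 0`. -/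
theorem tensor_eq_zero_of_shift {A B V W : T} (α : A ⟶ B) (g : V ⟶ W)
    (h : (α⟦(1 : ℤ)⟧' ⊗ₘ g) = 0) : (α ⊗ₘ g) = 0 := by
  have h1 : ((α ▷ ((𝟙_ T)⟦(1 : ℤ)⟧)) ⊗ₘ g) = 0 := by
    have h2 : (α ▷ ((𝟙_ T)⟦(1 : ℤ)⟧)) = (TensorTriangulated.e A).hom ≫ α⟦(1 : ℤ)⟧' ≫
        (TensorTriangulated.e B).inv := by
      rw [shift_eq_e]
      simp
    have h3 : ((α ▷ ((𝟙_ T)⟦(1 : ℤ)⟧)) ⊗ₘ g) =
        ((TensorTriangulated.e A).hom ⊗ₘ 𝟙 V) ≫ (α⟦(1 : ℤ)⟧' ⊗ₘ g) ≫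
          ((TensorTriangulated.e B).inv ⊗ₘ 𝟙 W) := by
      rw [h2, tensorHom_comp_tensorHom, tensorHom_comp_tensorHom, Category.id_comp,
        Category.comp_id]
    rw [h3, h]
    simp
  refine eq_zero_of_whiskerRight_shift _ 1 ?_
  have h4 : (α ⊗ₘ g) ▷ ((𝟙_ T)⟦(1 : ℤ)⟧) =
      (α_ A V _).hom ≫ (A ◁ (β_ V _).hom) ≫ (α_ A _ V).inv ≫
        ((α ▷ ((𝟙_ T)⟦(1 : ℤ)⟧)) ⊗ₘ g) ≫ (α_ B _ W).hom ≫ (B ◁ (β_ _ W).hom) ≫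
          (α_ B W _).inv := by
    rw [← tensorHom_id α, associator_naturality_assoc, Iso.inv_hom_id_assoc,
      ← id_tensorHom B, tensorHom_comp_tensorHom_assoc, Category.comp_id,
      BraidedCategory.braiding_naturality, ← id_tensorHom A, tensorHom_comp_tensorHom_assoc,
      Category.id_comp, SymmetricCategory.symmetry_assoc, ← associator_naturality_assoc,
      Iso.hom_inv_id, Category.comp_id, tensorHom_id]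
  rw [h4, h1]
  simp

variable (S : SpaceFunctor T) {R : T} [MonObj R] (U : UnitCof R) {C : T} (i : 𝟙_ T ⟶ C)

theorem toda_abs {q : ℤ} (a : (𝟙_ T)⟦q⟧ ⟶ U.J) {A' Y Q : T} (m : A' ⟶ Y)
    (h : ((a ≫ U.δ) ⊗ₘ inC m i) = 0) (P : Y ⟶ 𝟙_ T) (e : A' ≅ Q) (t : Q ⟶ 𝟙_ T)
    (hP : m ≫ P = e.hom ≫ t) {A : T} (α : A ⟶ 𝟙_ T) (s : A⟦(1 : ℤ)⟧ ⟶ (𝟙_ T)⟦q⟧)
    (hα : α⟦(1 : ℤ)⟧' = s ≫ a ≫ U.δ) :
    ((α ⊗ₘ t) ≫ (ρ_ (𝟙_ T)).hom) ≫ i = 0 := by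
  have h1 : ((a ≫ U.δ) ⊗ₘ (t ≫ i)) = 0 := by
    have h2 : ((a ≫ U.δ) ⊗ₘ inC m i) ≫
        (((𝟙_ T)⟦(1 : ℤ)⟧) ◁ (P ▷ C ≫ (λ_ C).hom)) = 0 := by
      rw [h, zero_comp]
    have h3 : inC m i ≫ (P ▷ C ≫ (λ_ C).hom) = (e.hom ≫ t) ≫ i := by
      rw [← Category.assoc, inC_comp, hP, inC]
      simp only [Category.assoc]
      rw [leftUnitor_naturality, ← unitors_inv_equal, Iso.inv_hom_id_assoc]
    rw [← id_tensorHom, tensorHom_comp_tensorHom, Category.comp_id, h3] at h2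
    have h5 : ((a ≫ U.δ) ⊗ₘ (t ≫ i)) = (((𝟙_ T)⟦q⟧) ◁ e.inv) ≫
        ((a ≫ U.δ) ⊗ₘ ((e.hom ≫ t) ≫ i)) := by
      rw [← id_tensorHom, tensorHom_comp_tensorHom, Category.id_comp, Category.assoc,
        Iso.inv_hom_id_assoc]
    rw [h5, h2, comp_zero]
  have h6 : (α⟦(1 : ℤ)⟧' ⊗ₘ (t ≫ i)) = 0 := by
    have h7 : (α⟦(1 : ℤ)⟧' ⊗ₘ (t ≫ i)) = (s ⊗ₘ 𝟙 _) ≫ ((a ≫ U.δ) ⊗ₘ (t ≫ i)) := by
      rw [tensorHom_comp_tensorHom, Category.id_comp, hα]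
    rw [h7, h1, comp_zero]
  have h8 := tensor_eq_zero_of_shift α _ h6
  have h9 : ((α ⊗ₘ t) ≫ (ρ_ (𝟙_ T)).hom) ≫ i = (α ⊗ₘ (t ≫ i)) ≫ (λ_ C).hom := by
    have h10 : (α ⊗ₘ (t ≫ i)) = (α ⊗ₘ t) ≫ (𝟙_ T ◁ i) := by
      rw [← id_tensorHom, tensorHom_comp_tensorHom, Category.comp_id]
    rw [h10, Category.assoc, Category.assoc, leftUnitor_naturality, unitors_equal]
  rw [h9, h8]
  simp

/-- **T1 and T2**: `α β ^ p = 0` in `C`. -/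
theorem toda_of_T1 (p : ℕ) [NeZero p] (κ K : Type) [Fintype κ] [Fintype K] [DecidableEq K]
    {q : ℤ} (a : (𝟙_ T)⟦q⟧ ⟶ U.J) (x : SS κ)
    (h : ((a ≫ U.δ) ⊗ₘ inC (mp S.S (fibL (hp := NeZero.ne p) x)) i : ((𝟙_ T)⟦q⟧) ⊗
      ob S.S (LC.of (Fin p → K → ℂ)) ⟶
        ((𝟙_ T)⟦(1 : ℤ)⟧) ⊗ (ob S.S (YL p (NeZero.ne p) κ K) ⊗ C)) = 0)
    {A B : T} (α : A ⟶ 𝟙_ T) (s : A⟦(1 : ℤ)⟧ ⟶ (𝟙_ T)⟦q⟧) (hα : α⟦(1 : ℤ)⟧' = s ≫ a ≫ U.δ)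
    (j : S.S.obj (VF K) ≅ B) (β : B ⟶ 𝟙_ T) : mulPow α β p ≫ i = 0 := by
  obtain ⟨P, hP⟩ := toda_tpow_lens (S := S) p κ K j β
  obtain ⟨e, he⟩ := exists_mulPow_tpM α β p
  have h1 := toda_abs U i a _ h P (pwIso S (VF K) p ≪≫ tpI j p) (tpM β p) (hP x) α s hα
  rw [he, Category.assoc, h1, comp_zero]

end Vale.Agent.P257.V4.T
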