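import Vale.Agent.P257.V4.T.Toda
import Vale.Agent.P257.V4.T.T12
import Vale.Agent.P257.V4.T.T0B

/-!
# P257, V(4), part T: existence of `α₁`, `β₁` and the link with the extended powers

* `exists_T0D_of` : the data `T0D (rmodOf g) U' p` exist for every monoid map `g : D.R ⟶ R'`;
* `T0D.aJ`, `T0D.α_shift` : `α⟦1⟧ = s ≫ aJ ≫ U.δ`;
* `T0D.mulPow_of_T1` : the Toda relation `α β ^ p = 0` in `S/p` from T1;
* `T0D.kill_of_T1` : the nilpotence of `β₁` on the kernel of `α₁`.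
-/

set_option linter.unusedSectionVars false

open CategoryTheory MonoidalCategory Limits MonObj Pretriangulated

universe v u

namespace Vale.Agent.P257.V4.T

open Vale.Agent.P251.T Vale.Agent.P251.S Vale.Agent.P251.M Vale.Agent.P251.M.EvenSpheres
open Vale.Agent.P251.F Vale.Agent.P251.I Vale.Agent.P257.V4.E Vale.Agent.P257.V4.B

section exists_data

variable {T : Type u} [Category.{v} T] [Preadditive T] [HasZeroObject T]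
    [HasShift T ℤ] [∀ n : ℤ, (shiftFunctor T n).Additive] [Pretriangulated T]
    [MonoidalCategory T] [SymmetricCategory T] [TensorTriangulated T] [HasCoproducts.{0} T]
    [MonoidalClosed T] [IsTriangulated T] [HasProducts.{0} T] [StableCat T]
  (D : MUData T) {R' : T} [MonObj R'] [IsCommMonObj R'] (g : D.R ⟶ R') [IsMonHom g]
  (U' : UnitCof R') {p : ℕ} [Fact p.Prime]

omit [MonoidalClosed T] [IsTriangulated T] [HasProducts.{0} T] [StableCat T] [Fact p.Prime] in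
/-- change of the form of the class -/
lemma exists_coch {R : T} [MonObj R] [IsCommMonObj R] (E : RMod cobK R) (U : UnitCof R)
    {s : ℕ} {w : ℤ} (z : cobK.wt s w)
    (h : ∃ o : (𝟙_ T)⟦2 * w⟧ ⟶ U.cobar.B s (𝟙_ T),
      (Vale.Agent.P251.B.sphE T w).inv ≫ E.qX U (𝟙 (𝟙_ T)) s w z = o ≫ unitMap R _) :
    ∃ o : (𝟙_ T)⟦2 * w⟧ ⟶ U.cobar.B s (𝟙_ T),
      coch U (E.evw s w z) ≫ U.cobar.q s (𝟙_ T) = o ≫ unitMap R _ := by
  obtain ⟨o, ho⟩ := h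
  refine ⟨(sphI T w).inv ≫ (Vale.Agent.P251.B.sphE T w).hom ≫ o, ?_⟩
  rw [Category.assoc, Category.assoc, ← ho, Iso.hom_inv_id_assoc, coch, RMod.qX_apply,
    RMod.cX_apply, RMod.evX_apply, ux, MonoidalCategory.whiskerLeft_id, Category.comp_id]
  simp only [Category.assoc]

include D in
/-- **The data of `α₁` and `β₁` exist.** -/
theorem exists_T0D_of (hp : p ≠ 2) {t : Cob Laz 1} (ht : IsT1 p t) :
    ∃ Z : T0D (rmodOf g) U' p, Z.t = t := by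
  obtain ⟨h1, -, h3, -, -⟩ := BCocycle p hp t ht
  have hp2 := (Fact.out : p.Prime).two_le
  have e1 : (p : ℤ) - 1 = ((p - 1 : ℕ) : ℤ) := by
    rw [Nat.cast_sub (by omega), Nat.cast_one]
  have e2 : (p : ℤ) * ((p : ℤ) - 1) = ((p * (p - 1) : ℕ) : ℤ) := by
    rw [Nat.cast_mul, Nat.cast_sub (by omega), Nat.cast_one]
  have w1 : t ∈ cobK.wt 1 ((p : ℤ) - 1) := by
    rw [e1]; exact h1
  have w2 : bcls p t ∈ cobK.wt 2 ((p : ℤ) * ((p : ℤ) - 1)) := by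
    rw [e2]; exact h3
  obtain ⟨a, ha⟩ := exists_coch (rmodOf g) U' ⟨t, w1⟩ (exists_alpha_B D g U' hp ht e1 w1)
  obtain ⟨x, hx⟩ := exists_coch (rmodOf g) U' ⟨bcls p t, w2⟩ (exists_beta_B D g U' hp ht e2 w2)
  exact ⟨⟨t, ht, w1, w2, a, ha, x, hx⟩, rfl⟩

end exists_data

namespace T0D

variable {T : Type u} [Category.{v} T] [Preadditive T] [HasZeroObject T] [HasShift T ℤ]
  [∀ n : ℤ, (shiftFunctor T n).Additive] [Pretriangulated T] [MonoidalCategory T]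
  [SymmetricCategory T] [TensorTriangulated T] [HasCoproducts.{0} T]
variable {R : T} [MonObj R] [IsCommMonObj R] {E : RMod cobK R} {U : UnitCof R} {p : ℕ}
  [Fact p.Prime] (Z : T0D E U p)

omit [HasCoproducts.{0} T] [IsCommMonObj R] in
lemma bd_zero_unit (U : UnitCof R) : U.bd 0 (𝟙_ T) = (ρ_ U.J).hom ≫ U.δ := by
  have h1 : (TensorTriangulated.e (𝟙_ T)).hom = (λ_ ((𝟙_ T)⟦(1 : ℤ)⟧)).hom :=
    TensorTriangulated.e_unit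
  change U.bdry (𝟙_ T) = _
  rw [U.bdry_eq, sOne, h1]
  rw [← braiding_leftUnitor]
  simp

/-- the lift of `α₁` in `J` -/
noncomputable def aJ : (𝟙_ T)⟦2 * ((p : ℤ) - 1)⟧ ⟶ U.J := Z.a ≫ (ρ_ U.J).hom

/-- `α⟦1⟧ = s ≫ aJ ≫ δ` -/
lemma α_shift : (Z.α)⟦(1 : ℤ)⟧' =
    (shiftFunctorAdd' T (2 * ((p : ℤ) - 1) - 1) 1 (2 * ((p : ℤ) - 1)) (by ring)).inv.app (𝟙_ T) ≫
      Z.aJ ≫ U.δ := by
  have h1 : sh (2 * ((p : ℤ) - 1) - 1) 1 (2 * ((p : ℤ) - 1)) (by ring) Z.α =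
      Z.a ≫ U.bd 0 (𝟙_ T) := Z.sh_α
  have h2 : (shiftFunctorAdd' T (2 * ((p : ℤ) - 1) - 1) 1 (2 * ((p : ℤ) - 1)) (by ring)).hom.app
      (𝟙_ T) ≫ (Z.α)⟦(1 : ℤ)⟧' = Z.a ≫ U.bd 0 (𝟙_ T) := h1
  rw [aJ, Category.assoc, ← bd_zero_unit, ← h2, Iso.inv_hom_id_app_assoc]

section ext

open Vale.Agent.P251 Vale.Agent.P251.G Vale.Agent.P251.G.LC Vale.Agent.P251.G.Bun

variable [IsTriangulated T] (S : SpaceFunctor T)

/-- the sphere of `β₁` -/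
noncomputable def jβ (S : SpaceFunctor T) (p : ℕ) [Fact p.Prime] (K : Type) [Fintype K]
    (hK : Fintype.card K = p * (p - 1) - 1) :
    S.S.obj (VF K) ≅ (𝟙_ T)⟦2 * ((p : ℤ) * ((p : ℤ) - 1)) - 2⟧ :=
  vfSph S K ≪≫ eqToIso (by
    have hp2 := (Fact.out : p.Prime).two_le
    have h1 : 1 ≤ p * (p - 1) := Nat.mul_pos (by omega) (by omega)
    have h2 : ((p * (p - 1) - 1 : ℕ) : ℤ) = (p : ℤ) * ((p : ℤ) - 1) - 1 := by
      rw [Nat.cast_sub h1, Nat.cast_mul, Nat.cast_sub (by omega), Nat.cast_one]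
    rw [hK, Nat.cast_mul, h2, Nat.cast_ofNat, mul_sub, _root_.mul_one])

variable (K : Type) [Fintype K] [DecidableEq K]

/-- **The Toda relation from T1**: `α β ^ p = 0` in `C`. -/
theorem mulPow_of_T1 [NeZero p] (κ : Type) [Fintype κ]
    (hK : Fintype.card K = p * (p - 1) - 1) {C : T} (i : 𝟙_ T ⟶ C) (x : SS κ)
    (h : ((Z.aJ ≫ U.δ) ⊗ₘ inC (mp S.S (fibL (hp := NeZero.ne p) x)) i :
      ((𝟙_ T)⟦2 * ((p : ℤ) - 1)⟧) ⊗ ob S.S (LC.of (Fin p → K → ℂ)) ⟶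
        ((𝟙_ T)⟦(1 : ℤ)⟧) ⊗ (ob S.S (YL p (NeZero.ne p) κ K) ⊗ C)) = 0) :
    mulPow Z.α Z.β p ≫ i = 0 :=
  toda_of_T1 S U i p κ K Z.aJ x h Z.α _ Z.α_shift (jβ S p K hK) Z.β

/-- **`β₁` is nilpotent on the kernel of `α₁`**, from T1. -/
theorem kill_of_T1 [NeZero p] (κ : Type) [Fintype κ]
    (hK : Fintype.card K = p * (p - 1) - 1)
    {Sp : T} {ip : 𝟙_ T ⟶ Sp} {δp : Sp ⟶ (𝟙_ T)⟦(1 : ℤ)⟧}
    (hSp : Triangle.mk ((p : ℤ) • 𝟙 (𝟙_ T)) ip δp ∈ distTriang T)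
    {C : T} {i : 𝟙_ T ⟶ C} {δ : C ⟶ ((𝟙_ T)⟦2 * ((p : ℤ) - 1) - 1⟧)⟦(1 : ℤ)⟧}
    (hC : Triangle.mk Z.α i δ ∈ distTriang T) (x : SS κ)
    (h : ((Z.aJ ≫ U.δ) ⊗ₘ inC (mp S.S (fibL (hp := NeZero.ne p) x)) ip :
      ((𝟙_ T)⟦2 * ((p : ℤ) - 1)⟧) ⊗ ob S.S (LC.of (Fin p → K → ℂ)) ⟶
        ((𝟙_ T)⟦(1 : ℤ)⟧) ⊗ (ob S.S (YL p (NeZero.ne p) κ K) ⊗ Sp)) = 0)
    (hvan : ∀ y : (Cpl U (It C (p - 1) Sp)).D 3 (2 * ((p : ℤ) * ((p : ℤ) - 1)) - 2),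
      (Cpl U (It C (p - 1) Sp)).i 2 (2 * ((p : ℤ) * ((p : ℤ) - 1)) - 2) y = 0)
    {X Y V : T} (u : 𝟙_ T ⟶ X) (hu : (p : ℤ) • u = 0) (a : X ⊗ Y ⟶ Y)
    (ha : (u ▷ Y) ≫ a = (λ_ Y).hom) (y : V ⟶ Y) (hy : Ann y Z.α) :
    mulPow y Z.β ((p - 1) ^ 2) = 0 :=
  Z.kill hSp hC (Z.mulPow_of_T1 S K κ hK ip x h) hvan u hu a ha y hy

end ext

end T0D

end Vale.Agent.P257.V4.T
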