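import Vale.Agent.P257.V4.T.T1E
import Vale.Agent.P257.V4.T.T1Pt
import Vale.Agent.P257.V4.T.T1P
import Vale.Agent.P257.V4.T.HTr
import Vale.Agent.P257.V4.T.T1InB
import Vale.Agent.P257.V4.T.TodaB

/-!
# P257, part T: T1 for the retract `B`, and the Toda relation `α₁ β₁ ^ p = 0` in `S/p`

* `t1_b` : the product of `α₁` with the inclusion of the fibre of `Th(L; kρ)` vanishes in `S/p`;
* `mulPow_b` : `mulPow Z.α Z.β p ≫ i = 0`.
-/

set_option linter.unusedSectionVars false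
set_option linter.style.haveILetI false

open CategoryTheory MonoidalCategory Limits Pretriangulated MonObj
open Vale.Agent.P251 Vale.Agent.P251.G Vale.Agent.P251.G.LC Vale.Agent.P251.I
open Vale.Agent.P251.M Vale.Agent.P251.M.EvenSpheres Vale.Agent.P251.T
open Vale.Agent.P251.S Vale.Agent.P251.F Vale.Agent.P251.Q
open Vale.Agent.P257.V4.B Vale.Agent.P257.V4.E Vale.Agent.P257.V4.O Vale.Agent.P217

universe v u

noncomputable section

namespace Vale.Agent.P257.V4.T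

variable {T : Type u} [Category.{v} T] [Preadditive T] [HasZeroObject T]
    [HasShift T ℤ] [∀ n : ℤ, (shiftFunctor T n).Additive] [Pretriangulated T] [IsTriangulated T]
    [MonoidalCategory T] [SymmetricCategory T] [TensorTriangulated T] [MonoidalClosed T]
    [HasCoproducts.{0} T] [HasProducts.{0} T] [StableCat T]

/-- a decomposition of `Fin p` -/
def finSum (p : ℕ) (hp : p ≠ 0) : Fin (p - 1) ⊕ Unit ≃ Fin p :=
  (finSumUnit (p - 1)).trans (finCongr (Nat.succ_pred_eq_of_ne_zero hp))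

section main

variable {F : SpaceFunctor T} (e : F.S.obj CCF ≅ (stdEven T).L)
variable {D : MUData T} (oD : Q.Orientation (thK e D.R))
  (hD : ∀ (s : ℕ) (z : Cob Laz s), D.ev s z = amEv e D.R oD s z)
variable {p : ℕ} [hp : Fact p.Prime] (b : BData D p)
variable {C : T} {iC : 𝟙_ T ⟶ C} {δC : C ⟶ (𝟙_ T)⟦(1 : ℤ)⟧}
  (hC : Triangle.mk ((p : ℤ) • 𝟙 (𝟙_ T)) iC δC ∈ distTriang T)
  {U : UnitCof b.obj} (Z : T0D b.rmod U p)

include hD hC in
/-- `exists_cmp_aJ` with a free index -/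
theorem exists_cmp_aJ' (hp2 : p ≠ 2) {w : ℤ} (hw : w = (p : ℤ) - 1) :
    ∃ (s : (𝟙_ T)⟦2 * ((p : ℤ) - 1)⟧ ⟶ (stdEven T).S w) (x : (stdEven T).S w ⟶ Am b.obj 2)
      (y : (𝟙_ T)⟦2 * ((p : ℤ) - 1)⟧ ⟶ b.obj ⊗ U.J),
      coefK e (Am b.obj 2) (cc (amO e b.obj ((thKHom e b.u).push oD) (0 : Fin 2))
        (amO e b.obj ((thKHom e b.u).push oD) (1 : Fin 2)) (p - 1)) =
          HRing.of (stdEven T) (Am b.obj 2) w x ∧
      s ≫ x ≫ (HT.am2 b.obj).hom ≫ (b.obj ◁ U.ρ) =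
        (-1 : ℤ) • (Z.aJ ≫ unitMap b.obj U.J) + (p : ℤ) • y := by
  subst hw
  obtain ⟨x, hx⟩ := HT.exists_of_cpm e oD hD b
  obtain ⟨y, hy⟩ := HT.exists_cmp_aJ e oD hD b hC Z hp2 x hx
  refine ⟨(sphI T ((p : ℤ) - 1)).inv, x, y, hx.symm, ?_⟩
  rw [hy, neg_one_zsmul]

include hD hC in
/-- **T1** for the retract `B` -/
theorem t1_b (hp2 : p ≠ 2)
    (W : ThomFam (RSys D.R (stdEven T)) F (lineCls e (SeqMonoid.const D.R)))
    (K : Type) [Fintype K] [DecidableEq K] (hK : ¬ p ∣ Fintype.card K) [NeZero p] :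
    ((Z.aJ ≫ U.δ) ⊗ₘ inC (mp F.S (fibL (K := K) (hp := NeZero.ne p)
      (ptS (finSum p (NeZero.ne p))))) iC :
      ((𝟙_ T)⟦2 * ((p : ℤ) - 1)⟧) ⊗ ob F.S (LC.of (Fin p → K → ℂ)) ⟶
        ((𝟙_ T)⟦(1 : ℤ)⟧) ⊗ (ob F.S (YL p (NeZero.ne p) (Fin p) K) ⊗ C)) = 0 := by
  have hp0 : p ≠ 0 := NeZero.ne p
  have hw : ((p - 1 : ℕ) : ℤ) = (p : ℤ) - 1 := by
    rw [Nat.cast_sub hp.out.one_lt.le, Nat.cast_one]
  obtain ⟨s, x, y, hx, ha⟩ := exists_cmp_aJ' e oD hD b hC Z hp2 hw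
  have hV := kRho_isRank p (Fin p) K hp0
  set o := (thKHom e b.u).push oD with ho
  haveI h1 : (thK e b.obj).Good (CPO (Fin p)) := ⟨(thK e b.obj).good_of_FC IsFC.out⟩
  haveI h2 : (thK e b.obj).Good (YC p (Fin p) K) := ⟨(thK e b.obj).good_of_FC IsFC.out⟩
  obtain ⟨f₀, hf₀⟩ := exists_isC (X := totF (N := p) (kRho p (Fin p) K) hV)
    (thom_deg o (B := CPO (Fin p)) (kRho p (Fin p) K) hV)
  obtain ⟨j, hj⟩ := exists_hU o hp0 (ptS (finSum p (NeZero.ne p))) rfl hV f₀ hf₀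
  obtain ⟨e₀, y', he⟩ := pairing_core o (Am.v b.obj (0 : Fin 2)) (Am.v b.obj (1 : Fin 2)) K
    (Spar.hc_am e b oD (RingHom.ext (hD 0)) 0 1) hx (HT.am2 b.obj).hom
    (descM_v b.obj) hV f₀ hf₀ U s j.hom Z.aJ (-1) y ha
  refine t1_core F U iC p hp0 K (finSum p (NeZero.ne p)) (q := 2 * ((p : ℤ) - 1)) ?_
    (InB.hcon1 b U hC hp2 rfl) (InB.hcon2 b U hC hp2 rfl) (InB.hz_b b hC hp2 W K) _ j hj Z.aJ
    _ (p : ℤ) ?_ ?_ e₀ y' he
  · have := hp.out.two_le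
    omega
  · have h3 : ((p : ℤ) • 𝟙 (𝟙_ T)) ≫ iC = 0 := comp_distTriang_mor_zero₁₂ _ hC
    rw [← h3, Preadditive.zsmul_comp, Category.id_comp]
  · have h2le := hp.out.two_le
    have h4 : ¬ p ∣ Fintype.card K * (p - 1) := by
      intro h
      rcases (hp.out.dvd_mul).1 h with h | h
      · exact hK h
      · have := Nat.le_of_dvd (by omega) h
        omega
    have h5 : Nat.Coprime (Fintype.card K * (p - 1)) p :=
      ((hp.out.coprime_iff_not_dvd).2 h4).symm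
    have h6 : IsCoprime ((Fintype.card K * (p - 1) : ℕ) : ℤ) (p : ℤ) :=
      Nat.isCoprime_iff_coprime.2 h5
    exact h6.mul_left isCoprime_one_left.neg_left

include hD hC in
/-- **`α₁ β₁ ^ p = 0` in `S/p`** -/
theorem mulPow_b (hp2 : p ≠ 2)
    (W : ThomFam (RSys D.R (stdEven T)) F (lineCls e (SeqMonoid.const D.R))) :
    mulPow Z.α Z.β p ≫ iC = 0 := by
  haveI : NeZero p := ⟨hp.out.ne_zero⟩
  have h2le := hp.out.two_le
  have hK : ¬ p ∣ Fintype.card (Fin (p * (p - 1) - 1)) := by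
    rw [Fintype.card_fin]
    intro h
    have h3 : p ∣ p * (p - 1) := Dvd.intro _ rfl
    have h4 : 1 ≤ p * (p - 1) := Nat.mul_pos (by omega) (by omega)
    have h5 : p ∣ 1 := by
      have := Nat.dvd_sub h3 h
      rwa [Nat.sub_sub_self h4] at this
    exact hp.out.one_lt.ne' (Nat.dvd_one.1 h5)
  exact Z.mulPow_of_T1 F (Fin (p * (p - 1) - 1)) (Fin p) (Fintype.card_fin _) iC
    (ptS (finSum p (NeZero.ne p))) (t1_b e oD hD b hC Z hp2 W _ hK)

end main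

end Vale.Agent.P257.V4.T
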