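import Vale.Agent.P251.S.TowerR

/-!
# P257, V(4), part T (T3): the class `z` of the cofibre of `α`

`U : UnitCof R`, `a : S ⟶ B 1 𝟙` a lift of `α⟦1⟧` (`S ≅ A⟦1⟧`), `t : S ⟶ Q 2 𝟙` a cocycle
representing `a`. Then there is `z : S ⟶ Q 1 C`, `C` the cofibre of `α : A ⟶ 𝟙`, with
`d z = - t i`.
-/

set_option linter.unusedSectionVars false

open CategoryTheory MonoidalCategory Limits MonObj Pretriangulated

universe v u

namespace Vale.Agent.P257.V4.T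

open Vale.Agent.P251.T Vale.Agent.P251.S

variable {T : Type u} [Category.{v} T] [Preadditive T] [HasZeroObject T] [HasShift T ℤ]
  [∀ n : ℤ, (shiftFunctor T n).Additive] [Pretriangulated T] [MonoidalCategory T]
  [SymmetricCategory T] [TensorTriangulated T]

variable {R : T} [MonObj R] (U : UnitCof R)

lemma bd_unitMap (s : ℕ) (Y : T) :
    U.bd s Y ≫ unitMap R ((U.cobar.B s Y)⟦(1 : ℤ)⟧) = 0 := by
  have h1 : U.bd s Y ≫ (unitMap R (U.cobar.B s Y))⟦(1 : ℤ)⟧' = 0 :=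
    comp_distTriang_mor_zero₃₁ _ (U.towerTriangle_distinguished s Y)
  rw [← unitMap_csh, ← Category.assoc] at h1
  rw [← cancel_mono (csh R 1 (U.cobar.B s Y)).hom, h1, zero_comp]

theorem exists_zcls {S A C : T} (σ : S ≅ A⟦(1 : ℤ)⟧) {α : A ⟶ 𝟙_ T} {i : 𝟙_ T ⟶ C}
    {δ : C ⟶ A⟦(1 : ℤ)⟧} (hC : Triangle.mk α i δ ∈ distTriang T)
    (a : S ⟶ U.cobar.B 1 (𝟙_ T)) (ha : σ.hom ≫ α⟦(1 : ℤ)⟧' = a ≫ U.bd 0 (𝟙_ T))
    (t : S ⟶ U.cobar.Q 2 (𝟙_ T)) (ht : t ≫ U.cobar.q 1 (𝟙_ T) = a ≫ unitMap R _)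
    (hd : t ≫ U.cobar.d 2 (𝟙_ T) = 0) :
    ∃ z : S ⟶ U.cobar.Q 1 C, z ≫ U.cobar.d 1 C = -(t ≫ U.cobar.Qm 2 i) := by
  have hrot : Triangle.mk i δ (-α⟦(1 : ℤ)⟧') ∈ distTriang T := rot_of_distTriang _ hC
  have hδi : i ≫ δ = 0 := comp_distTriang_mor_zero₂₃ _ hC
  -- the map `C ⟶ R`
  obtain ⟨f, hf1, hf2⟩ : ∃ f : C ⟶ R ⊗ 𝟙_ T, i ≫ f = 𝟙 _ ≫ unitMap R (𝟙_ T) ∧
      δ ≫ (-(σ.inv ≫ a)) = f ≫ U.cobar.k 0 (𝟙_ T) :=
    complete_distinguished_triangle_morphism₂ _ _ hrot (U.towerTriangle_distinguished 0 (𝟙_ T))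
      (𝟙 _) (-(σ.inv ≫ a)) (by
        change (-α⟦(1 : ℤ)⟧') ≫ (𝟙 (𝟙_ T))⟦(1 : ℤ)⟧' = (-(σ.inv ≫ a)) ≫ U.bd 0 (𝟙_ T)
        rw [CategoryTheory.Functor.map_id, Category.comp_id, Preadditive.neg_comp, Category.assoc,
          ← ha, Iso.inv_hom_id_assoc])
  rw [Category.id_comp] at hf1
  -- the class `z0`
  obtain ⟨z0, hz0⟩ : ∃ z0 : S ⟶ R ⊗ C, -(σ.hom ≫ unitMap R (A⟦(1 : ℤ)⟧)) = z0 ≫ (R ◁ δ) := by
    refine Triangle.coyoneda_exact₃ _ (tensorLeftTriangle_distinguished R _ hrot)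
      (-(σ.hom ≫ unitMap R (A⟦(1 : ℤ)⟧))) ?_
    change (-(σ.hom ≫ unitMap R (A⟦(1 : ℤ)⟧))) ≫ (R ◁ (-α⟦(1 : ℤ)⟧')) ≫ _ = 0
    have h1 : (-(σ.hom ≫ unitMap R (A⟦(1 : ℤ)⟧))) ≫ (R ◁ (-α⟦(1 : ℤ)⟧')) = 0 := by
      rw [Preadditive.neg_comp, Category.assoc, ← unitMap_nat, Preadditive.neg_comp,
        Preadditive.comp_neg, neg_neg, ← Category.assoc, ha, Category.assoc]
      have h2 := bd_unitMap U 0 (𝟙_ T)
      rw [h2, comp_zero]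
    exact (Category.assoc _ _ _).symm.trans ((congrArg (fun g => g ≫ _) h1).trans zero_comp)
  -- adjust
  obtain ⟨r, hr⟩ : ∃ r : S ⟶ R ⊗ 𝟙_ T, z0 ≫ (R ◁ f) - t = r ≫ (R ◁ unitMap R (𝟙_ T)) := by
    refine Triangle.coyoneda_exact₂ _ (tensorLeftTriangle_distinguished R _
      (U.towerTriangle_distinguished 0 (𝟙_ T))) _ ?_
    change (z0 ≫ (R ◁ f) - t) ≫ (R ◁ U.cobar.k 0 (𝟙_ T)) = 0
    have h1 : t ≫ (R ◁ U.cobar.k 0 (𝟙_ T)) = a ≫ unitMap R _ := by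
      rw [← ht]
      exact congrArg _ (Category.comp_id _).symm
    rw [Preadditive.sub_comp, h1, Category.assoc, ← MonoidalCategory.whiskerLeft_comp, ← hf2,
      MonoidalCategory.whiskerLeft_comp, ← Category.assoc, ← hz0, Preadditive.neg_comp,
      Category.assoc, ← unitMap_nat, Preadditive.neg_comp, Preadditive.comp_neg, neg_neg,
      Category.assoc, Iso.hom_inv_id_assoc, sub_self]
  have hz1 : ∃ z : S ⟶ R ⊗ C, z ≫ (R ◁ f) = t ∧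
      z ≫ (R ◁ δ) = -(σ.hom ≫ unitMap R (A⟦(1 : ℤ)⟧)) := by
    refine ⟨z0 - r ≫ (R ◁ i), ?_, ?_⟩
    · rw [Preadditive.sub_comp, Category.assoc, ← MonoidalCategory.whiskerLeft_comp, hf1, ← hr,
        sub_sub_cancel]
    · rw [Preadditive.sub_comp, Category.assoc, ← MonoidalCategory.whiskerLeft_comp, hδi,
        MonoidalPreadditive.whiskerLeft_zero, comp_zero, sub_zero, hz0]
  obtain ⟨z, hz, hz'⟩ := hz1
  refine ⟨z, ?_⟩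
  -- the difference
  have h1 : (z ≫ U.cobar.d 1 C) ≫ U.cobar.Qm 2 δ = 0 := by
    have h2 := U.cobar.d_naturality 1 δ
    rw [Category.assoc, ← h2]
    have h3 : z ≫ U.cobar.Qm 1 δ = -(σ.hom ≫ U.cobar.d 0 (A⟦(1 : ℤ)⟧)) := hz'
    have h4 := U.cobar.d_d 0 (A⟦(1 : ℤ)⟧)
    rw [← Category.assoc, h3, Preadditive.neg_comp, Category.assoc, h4, comp_zero, neg_zero]
  obtain ⟨s, hs⟩ : ∃ s : S ⟶ R ⊗ (R ⊗ 𝟙_ T), z ≫ U.cobar.d 1 C = s ≫ (R ◁ (R ◁ i)) :=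
    Triangle.coyoneda_exact₂ _ (tensorLeftTriangle_distinguished R _
      (tensorLeftTriangle_distinguished R _ hrot)) _ h1
  have h5 : s ≫ U.cobar.lam 2 (𝟙_ T) = -(t ≫ U.cobar.lam 2 (𝟙_ T)) := by
    have h6 : (z ≫ U.cobar.d 1 C) ≫ U.cobar.Qm 2 f = t ≫ U.cobar.d 1 (R ⊗ 𝟙_ T) := by
      have h2 := U.cobar.d_naturality 1 f
      have h3 : z ≫ U.cobar.Qm 1 f = t := hz
      rw [Category.assoc, ← h2, ← Category.assoc, h3]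
    have h7 : (s ≫ (R ◁ (R ◁ i))) ≫ U.cobar.Qm 2 f = s ≫ U.cobar.lam 2 (𝟙_ T) := by
      have h8 : (R ◁ (R ◁ i)) ≫ U.cobar.Qm 2 f = U.cobar.lam 2 (𝟙_ T) := by
        change (R ◁ (R ◁ i)) ≫ (R ◁ (R ◁ f)) = R ◁ (R ◁ unitMap R (𝟙_ T))
        rw [← MonoidalCategory.whiskerLeft_comp, ← MonoidalCategory.whiskerLeft_comp, hf1]
      rw [Category.assoc, h8]
    have h9 : t ≫ U.cobar.d 1 (R ⊗ 𝟙_ T) = -(t ≫ U.cobar.lam 2 (𝟙_ T)) := by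
      have h10 := U.cobar.d_succ 1 (𝟙_ T)
      rw [h10, Preadditive.comp_add, Preadditive.comp_zsmul] at hd
      have h11 : ((-1 : ℤ) ^ (1 + 1)) = 1 := by norm_num
      rw [h11, one_smul] at hd
      exact eq_neg_of_add_eq_zero_left hd
    rw [← h7, ← hs, h6, h9]
  have h12 : s = -t := by
    have h13 := U.cobar.lam_h 1 (𝟙_ T)
    have h14 := congrArg (fun f => f ≫ U.cobar.h 1 (𝟙_ T)) h5
    simp only [Category.assoc, Preadditive.neg_comp] at h14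
    have h15 : U.cobar.lam 2 (𝟙_ T) ≫ U.cobar.h 1 (𝟙_ T) = 𝟙 _ := h13
    rw [h15, Category.comp_id, Category.comp_id] at h14
    exact h14
  rw [hs, h12, Preadditive.neg_comp]
  rfl

end Vale.Agent.P257.V4.T
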