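import Vale.Agent.P257.V4.T.Bound
import Vale.Agent.P257.V4.T.ZCls
import Vale.Agent.P251.M.EvenShift
import Mathlib.RingTheory.Coprime.Lemmas
import Mathlib.Data.Nat.Prime.Factorial

/-!
# P257, V(4), part T (T3): `β₁` dies in `Y ⊗ C(α₁) ^ (p-1)`

`R` a commutative monoid with a cofibre `U` of its unit; `t` a cocycle `S^{2h} ⟶ R ⊗ R`;
`α : 𝟙⟦2h-1⟧ ⟶ 𝟙` with a lift `a : 𝟙⟦2h⟧ ⟶ B 1 𝟙` of class `t`; `x : 𝟙⟦2w⟧ ⟶ B 2 𝟙`, `w = p h`, of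
class `b(t) = ∑ (binom(p,i)/p) t^i ∪ t^(p-i)`. Then the image `β` of `x` in `π_{2w-2} 𝟙` dies in
`Y ⊗ C ^ (p-1)`, `C` the cofibre of `α`, if `p e = 0` for `e : 𝟙 ⟶ Y` and the filtration `3` part
of `π_{2w-2} (Y ⊗ C ^ (p-1))` vanishes: `beta_dies`.
-/

set_option linter.unusedSectionVars false

open CategoryTheory MonoidalCategory Limits MonObj Pretriangulated

universe v u

namespace Vale.Agent.P257.V4.T

open Vale.Agent.P251.T Vale.Agent.P251.S Vale.Agent.P251.M Vale.Agent.P251.M.EvenSpheres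

variable {T : Type u} [Category.{v} T] [Preadditive T] [HasZeroObject T] [HasShift T ℤ]
  [∀ n : ℤ, (shiftFunctor T n).Additive] [Pretriangulated T] [MonoidalCategory T]
  [SymmetricCategory T] [TensorTriangulated T]

section towMor

variable {R : T} [MonObj R] (U : UnitCof R)

/-- The morphism of towers induced by a map of coefficients. -/
def towMor {X Y : T} (f : X ⟶ Y) : Tow.Mor (U.tow X) (U.tow Y) where
  f s := U.cobar.Bm s f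
  g s := R ◁ U.cobar.Bm s f
  comm_a s := (unitMap_nat (R := R) (U.cobar.Bm s f)).symm
  comm_b s := (U.cobar.k_naturality s f).symm
  comm_c s := (U.bd_naturality s f).symm

end towMor

/-- `S^{2w} ≅ 𝟙⟦2w⟧` -/
noncomputable def sphI (T : Type u) [Category.{v} T] [Preadditive T] [HasZeroObject T]
    [HasShift T ℤ] [∀ n : ℤ, (shiftFunctor T n).Additive] [Pretriangulated T]
    [MonoidalCategory T] [SymmetricCategory T] [TensorTriangulated T] (w : ℤ) :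
    (stdEven T).S w ≅ (𝟙_ T)⟦2 * w⟧ :=
  (stdEven T).sphIso (Iso.refl _) w

section cochain

variable {R : T} [MonObj R] [IsCommMonObj R] (U : UnitCof R)

/-- the cochain of the sphere given by a homotopy class of `R ^ n` -/
noncomputable def coch {n : ℕ} {w : ℤ} (b : (stdEven T).S w ⟶ Am R n) :
    (𝟙_ T)⟦2 * w⟧ ⟶ U.cobar.Q n (𝟙_ T) :=
  (sphI T w).inv ≫ b ≫ (ρ_ (Am R n)).inv ≫ (U.θ n (𝟙_ T)).inv

/-- the cocycle condition -/
def IsCoc {n : ℕ} {w : ℤ} (t : (stdEven T).S w ⟶ Am R n) : Prop :=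
  t ≫ ∑ j : Fin (n + 1), (-1 : ℤ) ^ (j : ℕ) • Am.map R (Fin.succAbove j : Fin n → Fin (n + 1)) = 0

lemma coch_d {n : ℕ} {w : ℤ} {t : (stdEven T).S w ⟶ Am R n} (ht : IsCoc t) :
    coch U t ≫ U.cobar.d n (𝟙_ T) = 0 := by
  have h1 : (ρ_ (Am R n)).inv ≫ ∑ j : Fin (n + 1), (-1 : ℤ) ^ (j : ℕ) •
      (Am.map R (Fin.succAbove j : Fin n → Fin (n + 1)) ▷ 𝟙_ T) =
      (∑ j : Fin (n + 1), (-1 : ℤ) ^ (j : ℕ) •
        Am.map R (Fin.succAbove j : Fin n → Fin (n + 1))) ≫ (ρ_ (Am R (n + 1))).inv := by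
    rw [Preadditive.comp_sum, Preadditive.sum_comp]
    refine Finset.sum_congr rfl fun j _ => ?_
    rw [Preadditive.comp_zsmul, Preadditive.zsmul_comp, rightUnitor_inv_naturality]
  rw [← cancel_mono (U.θ (n + 1) (𝟙_ T)).hom, Category.assoc, U.d_θ, coch]
  simp only [Category.assoc, Iso.inv_hom_id_assoc, zero_comp]
  rw [h1, reassoc_of% (show t ≫ _ = 0 from ht)]
  simp

/-- multiplication of a cochain of the sphere with a map of coefficients -/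
lemma coch_Qm {n : ℕ} {w : ℤ} (b : (stdEven T).S w ⟶ Am R n) {Y : T} (e : 𝟙_ T ⟶ Y) :
    coch U b ≫ U.cobar.Qm n e =
      (sphI T w).inv ≫ (b ≫ (ρ_ (Am R n)).inv ≫ (Am R n ◁ e)) ≫ (U.θ n Y).inv := by
  have h1 : (U.θ n (𝟙_ T)).inv ≫ U.cobar.Qm n e = (Am R n ◁ e) ≫ (U.θ n Y).inv := by
    rw [Iso.inv_comp_eq, ← Category.assoc, Iso.eq_comp_inv, U.θ_naturality]
  rw [coch]
  simp only [Category.assoc]
  rw [h1]

lemma isCoc_tv {h : ℤ} {t : (stdEven T).S h ⟶ Am R 2} (ht : IsCoc t) :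
    tv t 3 0 2 = tv t 3 0 1 + tv t 3 1 2 := by
  have h1 : t ≫ Am.map R ![0, 2] = t ≫ Am.map R ![0, 1] + t ≫ Am.map R (![1, 2] : Fin 2 → Fin 3) := by
    have h2 := ht
    rw [IsCoc, Fin.sum_univ_three, Preadditive.comp_add, Preadditive.comp_add] at h2
    simp only [Fin.val_zero, pow_zero, one_smul, Fin.val_one, pow_one, neg_smul, Fin.val_two,
      even_two, Even.neg_pow, one_pow, Preadditive.comp_neg] at h2
    have e0 : (Fin.succAbove 0 : Fin 2 → Fin 3) = ![1, 2] := by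
      funext j; fin_cases j <;> rfl
    have e1 : (Fin.succAbove 1 : Fin 2 → Fin 3) = ![0, 2] := by
      funext j; fin_cases j <;> rfl
    have e2 : (Fin.succAbove 2 : Fin 2 → Fin 3) = ![0, 1] := by
      funext j; fin_cases j <;> rfl
    rw [e0, e1, e2] at h2
    rw [← sub_eq_zero, ← neg_eq_zero, ← h2]
    abel
  rw [tv, tv, tv, h1]
  exact map_add (DirectSum.of ((stdEven T).Gr (Am R 3)) h) _ _

/-- the class `z` in the form needed for `wbd_cobdy` -/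
theorem exists_zE {h : ℤ} {t : (stdEven T).S h ⟶ Am R 2} (ht : IsCoc t)
    {C : T} {α : (𝟙_ T)⟦2 * h - 1⟧ ⟶ 𝟙_ T} {i : 𝟙_ T ⟶ C}
    {δ : C ⟶ ((𝟙_ T)⟦2 * h - 1⟧)⟦(1 : ℤ)⟧} (hC : Triangle.mk α i δ ∈ distTriang T)
    (a : (𝟙_ T)⟦2 * h⟧ ⟶ U.cobar.B 1 (𝟙_ T))
    (ha : sh (2 * h - 1) 1 (2 * h) (by ring) α = a ≫ U.bd 0 (𝟙_ T))
    (ht' : coch U t ≫ U.cobar.q 1 (𝟙_ T) = a ≫ unitMap R _) :
    ∃ z : (stdEven T).S h ⟶ Am R 1 ⊗ C,
      zv z 2 0 = zv z 2 1 + t ≫ (ρ_ (Am R 2)).inv ≫ (Am R 2 ◁ i) := by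
  obtain ⟨z, hz⟩ := exists_zcls U ((shiftFunctorAdd' T (2 * h - 1) 1 (2 * h) (by ring)).app (𝟙_ T))
    hC a ha (coch U t) ht' (coch_d U ht)
  refine ⟨(sphI T h).hom ≫ z ≫ (U.θ 1 C).hom, ?_⟩
  have h1 := congrArg (fun f => (sphI T h).hom ≫ f ≫ (U.θ 2 C).hom) hz
  simp only [Category.assoc, Preadditive.neg_comp, Preadditive.comp_neg] at h1
  rw [U.d_θ 1 C, Fin.sum_univ_two] at h1
  have h2 := coch_Qm U t i
  rw [← Category.assoc (coch U t), h2] at h1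
  have e0 : (Fin.succAbove 0 : Fin 1 → Fin 2) = fun _ => 1 := by
    funext j; fin_cases j; rfl
  have e1 : (Fin.succAbove 1 : Fin 1 → Fin 2) = fun _ => 0 := by
    funext j; fin_cases j; rfl
  rw [e0, e1] at h1
  simp only [Fin.val_zero, pow_zero, one_smul, Fin.val_one, pow_one, neg_smul,
    Preadditive.comp_add, Preadditive.comp_neg, Category.assoc, Iso.inv_hom_id,
    Iso.hom_inv_id_assoc, Category.comp_id] at h1
  rw [zv, zv, Category.assoc, Category.assoc, Category.assoc, Category.assoc]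
  rw [← sub_eq_iff_eq_add', ← neg_inj, ← h1]
  abel

end cochain

section main

variable {R : T} [MonObj R] [IsCommMonObj R] (U : UnitCof R)

/-- the couple of the tower of `Y` -/
noncomputable abbrev Cpl (Y : T) : Couple.{v, v} := (U.tow Y).couple (𝟙_ T)

/-- the element of `D 2` given by a map `𝟙⟦2w⟧ ⟶ B 2 Y` -/
noncomputable def inD2 {Y : T} (w : ℤ) (x : (𝟙_ T)⟦2 * w⟧ ⟶ U.cobar.B 2 Y) : (Cpl U Y).D 2 (2 * w - 2) :=
  ((U.tow Y).eD (𝟙_ T) (s := 2) (n := 2 * w - 2) (t := 2 * w) (by push_cast; ring)).symm x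

/-- the image in `D 0` of the element of `D 2` given by a map `𝟙⟦2w⟧ ⟶ B 2 𝟙`:
the class `β : 𝟙⟦2w-2⟧ ⟶ 𝟙` -/
noncomputable def toD0 {Y : T} (w : ℤ) (x : (𝟙_ T)⟦2 * w⟧ ⟶ U.cobar.B 2 Y) :
    (𝟙_ T)⟦2 * w - 2⟧ ⟶ Y :=
  (U.tow Y).eD (𝟙_ T) (s := 0) (n := 2 * w - 2) (t := 2 * w - 2) (by simp)
    ((Cpl U Y).i 0 (2 * w - 2) ((Cpl U Y).i 1 (2 * w - 2) (inD2 U w x)))

lemma inD2_comp {X Y : T} (f : X ⟶ Y) (w : ℤ) (x : (𝟙_ T)⟦2 * w⟧ ⟶ U.cobar.B 2 X) :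
    (towMor U f).fD (𝟙_ T) 2 (2 * w - 2) (inD2 U w x) = inD2 U w (x ≫ U.cobar.Bm 2 f) := by
  apply ((U.tow Y).eD (𝟙_ T) (s := 2) (n := 2 * w - 2) (t := 2 * w)
    (by push_cast; ring)).injective
  rw [Tow.Mor.eD_fD]
  have h1 : (U.tow X).eD (𝟙_ T) (s := 2) (n := 2 * w - 2) (t := 2 * w) (by push_cast; ring)
    (inD2 U w x) = x := AddEquiv.apply_symm_apply _ _
  have h2 : (U.tow Y).eD (𝟙_ T) (s := 2) (n := 2 * w - 2) (t := 2 * w) (by push_cast; ring)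
    (inD2 U w (x ≫ U.cobar.Bm 2 f)) = x ≫ U.cobar.Bm 2 f := AddEquiv.apply_symm_apply _ _
  rw [h1, h2]
  rfl

lemma toD0_comp {X Y : T} (f : X ⟶ Y) (w : ℤ) (x : (𝟙_ T)⟦2 * w⟧ ⟶ U.cobar.B 2 X) :
    toD0 U w x ≫ f = toD0 U w (x ≫ U.cobar.Bm 2 f) := by
  rw [toD0, toD0, ← inD2_comp, Tow.Mor.i_fD, Tow.Mor.i_fD, Tow.Mor.eD_fD]
  rfl

/-- **`β` dies in `Y ⊗ C(α) ^ (p-1)`.** -/
theorem beta_dies {p : ℕ} (hp : p.Prime) {h w : ℤ}
    {t : (stdEven T).S h ⟶ Am R 2} (ht : IsCoc t)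
    {C : T} {α : (𝟙_ T)⟦2 * h - 1⟧ ⟶ 𝟙_ T} {i : 𝟙_ T ⟶ C}
    {δ : C ⟶ ((𝟙_ T)⟦2 * h - 1⟧)⟦(1 : ℤ)⟧} (hC : Triangle.mk α i δ ∈ distTriang T)
    (a : (𝟙_ T)⟦2 * h⟧ ⟶ U.cobar.B 1 (𝟙_ T))
    (ha : sh (2 * h - 1) 1 (2 * h) (by ring) α = a ≫ U.bd 0 (𝟙_ T))
    (ht' : coch U t ≫ U.cobar.q 1 (𝟙_ T) = a ≫ unitMap R _)
    (b : (stdEven T).S w ⟶ Am R 3)
    (hb : bb p (tv t 3 0 1) (tv t 3 1 2) = HRing.of (stdEven T) (Am R 3) w b)
    (x : (𝟙_ T)⟦2 * w⟧ ⟶ U.cobar.B 2 (𝟙_ T))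
    (hx : coch U b ≫ U.cobar.q 2 (𝟙_ T) = x ≫ unitMap R _)
    {Y : T} (e : 𝟙_ T ⟶ Y) (hpe : (p : ℤ) • e = 0)
    (hvan : ∀ y : (Cpl U (It C (p - 1) Y)).D 3 (2 * w - 2),
      (Cpl U (It C (p - 1) Y)).i 2 (2 * w - 2) y = 0) :
    toD0 U w x ≫ e ≫ itι i (p - 1) Y = 0 := by
  obtain ⟨z, hz⟩ := exists_zE U ht hC a ha ht'
  set Y' := It C (p - 1) Y with hY'
  set e' : 𝟙_ T ⟶ Y' := e ≫ itι i (p - 1) Y with he'
  have h1 := wbd_cobdy (i := i) e (z := z) (t := t) hp hz (isCoc_tv ht) b hb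
  -- the bounding cochain
  let Wm : (𝟙_ T)⟦2 * w⟧ ⟶ U.cobar.Q 2 Y' :=
    (sphI T w).inv ≫ wbd i e z t p w ≫ (U.θ 2 Y').inv
  have h2 : Wm ≫ U.cobar.d 2 Y' =
      (((p - 1).factorial : ℕ) : ℤ) • (coch U b ≫ U.cobar.Qm 3 e') := by
    rw [← cancel_mono (U.θ 3 Y').hom, Category.assoc, U.d_θ 2 Y', coch_Qm U b e']
    change ((sphI T w).inv ≫ wbd i e z t p w ≫ (U.θ 2 Y').inv) ≫ (U.θ 2 Y').hom ≫ _ = _
    rw [Category.assoc, Category.assoc, Iso.inv_hom_id_assoc, h1, Preadditive.comp_zsmul,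
      Preadditive.zsmul_comp, Category.assoc, Category.assoc, Iso.inv_hom_id, Category.comp_id]
  have h3 : (coch U b ≫ U.cobar.Qm 3 e') ≫ U.cobar.q 2 Y' = (x ≫ U.cobar.Bm 2 e') ≫ unitMap R _ := by
    rw [Category.assoc, U.cobar.q_naturality 2 e', ← Category.assoc, hx, Category.assoc,
      Category.assoc]
    congr 1
    exact (unitMap_nat (R := R) (U.cobar.Bm 2 e')).symm
  -- in the exact couple
  set K := Cpl U Y' with hK
  let ω : K.E 1 (2 * w - 2 + 1) :=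
    ((U.tow Y').eE (𝟙_ T) (s := 1) (n := 2 * w - 2 + 1) (t := 2 * w) (by push_cast; ring)).symm
      (Wm ≫ U.cobar.q 1 Y')
  let y2 : K.D 2 (2 * w - 2) := inD2 U w (x ≫ U.cobar.Bm 2 e')
  have h4 : K.d 1 (2 * w - 2 + 1) (2 * w - 2) rfl ω =
      K.j 2 (2 * w - 2) ((((p - 1).factorial : ℕ) : ℤ) • y2) := by
    apply ((U.tow Y').eE (𝟙_ T) (s := 2) (n := 2 * w - 2) (t := 2 * w)
      (by push_cast; ring)).injective
    rw [Tow.eE_d (U.tow Y') (𝟙_ T) rfl (t := 2 * w) (by push_cast; ring) (by push_cast; ring),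
      Tow.eE_j]
    have h5 : (U.tow Y').eE (𝟙_ T) (s := 1) (n := 2 * w - 2 + 1) (t := 2 * w)
      (by push_cast; ring) ω = Wm ≫ U.cobar.q 1 Y' := AddEquiv.apply_symm_apply _ _
    have h6 : (U.tow Y').eD (𝟙_ T) (s := 2) (n := 2 * w - 2) (t := 2 * w) (by push_cast; ring)
      ((((p - 1).factorial : ℕ) : ℤ) • y2) =
        (((p - 1).factorial : ℕ) : ℤ) • (x ≫ U.cobar.Bm 2 e') := by
      rw [map_zsmul]
      congr 1
      exact AddEquiv.apply_symm_apply _ _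
    rw [h5, h6]
    change (Wm ≫ U.cobar.q 1 Y') ≫ U.cobar.D 1 Y' = _ ≫ unitMap R _
    rw [Category.assoc, ← U.cobar.d_q 1 Y', ← Category.assoc, h2, Preadditive.zsmul_comp, h3,
      Preadditive.zsmul_comp]
  have h7 : K.i 1 (2 * w - 2) ((((p - 1).factorial : ℕ) : ℤ) • y2) = 0 := by
    have h8 : K.j 2 (2 * w - 2) ((((p - 1).factorial : ℕ) : ℤ) • y2 -
        K.k 1 (2 * w - 2 + 1) (2 * w - 2) rfl ω) = 0 := by
      rw [map_sub, ← h4, Couple.d_apply, sub_self]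
    obtain ⟨y3, hy3⟩ := K.exact_j _ _ _ h8
    rw [hvan y3] at hy3
    have h9 := sub_eq_zero.1 hy3.symm
    rw [h9]
    exact K.i_k _ _ _ _ _
  have h9 : toD0 U w x ≫ e' = toD0 U w (x ≫ U.cobar.Bm 2 e') := toD0_comp U e' w x
  have h10 : (((p - 1).factorial : ℕ) : ℤ) • (toD0 U w x ≫ e') = 0 := by
    let g : K.D 1 (2 * w - 2) →+ ((𝟙_ T)⟦2 * w - 2⟧ ⟶ Y') :=
      ((U.tow Y').eD (𝟙_ T) (s := 0) (n := 2 * w - 2) (t := 2 * w - 2)
        (by simp)).toAddMonoidHom.comp (K.i 0 (2 * w - 2))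
    have h11 : toD0 U w (x ≫ U.cobar.Bm 2 e') = g (K.i 1 (2 * w - 2) y2) := rfl
    rw [h9, h11, ← map_zsmul, ← map_zsmul, h7, map_zero]
  have h12 : (p : ℤ) • (toD0 U w x ≫ e') = 0 := by
    rw [he', ← Preadditive.comp_zsmul, ← Preadditive.zsmul_comp, hpe, zero_comp, comp_zero]
  have hcop : IsCoprime (p : ℤ) (((p - 1).factorial : ℕ) : ℤ) := by
    rw [Nat.isCoprime_iff_coprime]
    exact hp.coprime_factorial_of_lt (by have := hp.pos; omega)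
  obtain ⟨u, v', huv⟩ := hcop
  have h13 : toD0 U w x ≫ e' = (u * p + v' * (((p - 1).factorial : ℕ) : ℤ)) • (toD0 U w x ≫ e') := by
    rw [huv, one_smul]
  rw [h13, add_smul, mul_smul, mul_smul, h12, h10, smul_zero, smul_zero, add_zero]

end main

end Vale.Agent.P257.V4.T
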