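import Vale.Agent.P257.V4.T.Descent
import Vale.Agent.P251.M.EvenRing

/-!
# P257, V(4), part T (T3): multiplication by a class of `π_*(A ⊗ C)`

`A` a commutative monoid, `N` an `A`-module, `z : S^{2h} ⟶ A ⊗ C`. Multiplication by `z` is a linear
map `ZZ z : π_{2*} N → π_{2*} (N ⊗ C)`. If `z' = z + t i` then `ZZ z' = ZZ z + t II`, where `II` is
induced by `i : 𝟙 ⟶ C`.
-/

set_option linter.unusedSectionVars false

open CategoryTheory MonoidalCategory Limits MonObj

universe v u

namespace Vale.Agent.P257.V4.T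

open Vale.Agent.P251.S Vale.Agent.P251.M Vale.Agent.P251.M.EvenSpheres

variable {T : Type u} [Category.{v} T] [MonoidalCategory T] [SymmetricCategory T]
  {E : EvenSpheres T}

section homog

variable {A : T} [MonObj A] {N : T} (M : ModStr A N) (C : T)

/-- `N ⊗ (A ⊗ C) ⟶ N ⊗ C` -/
def zeta : N ⊗ (A ⊗ C) ⟶ N ⊗ C := (α_ N A C).inv ≫ (((β_ N A).hom ≫ M.act) ▷ C)

variable {C}

/-- the product of `x` and `z` -/
noncomputable def zg {m n p : ℤ} (h : n + m = p) (z : E.S m ⟶ A ⊗ C) (x : E.S n ⟶ N) :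
    E.S p ⟶ N ⊗ C := E.ext h x z ≫ zeta M C

lemma act_braid [IsCommMonObj A] : (M.act ▷ A) ≫ (β_ N A).hom ≫ M.act =
    (α_ A N A).hom ≫ (A ◁ ((β_ N A).hom ≫ M.act)) ≫ M.act := by
  rw [BraidedCategory.braiding_naturality_left_assoc, BraidedCategory.braiding_tensor_left_hom]
  have h : (A ◁ M.act) ≫ M.act = (α_ A A N).inv ≫ (μ[A] ▷ N) ≫ M.act := by
    rw [M.mul_act, Iso.inv_hom_id_assoc]
  simp only [Category.assoc, MonoidalCategory.whiskerLeft_comp]
  rw [h, Iso.hom_inv_id_assoc, ← comp_whiskerRight_assoc, IsCommMonObj.mul_comm]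

lemma act_zeta [IsCommMonObj A] (C : T) : (M.act ▷ (A ⊗ C)) ≫ zeta M C =
    (α_ A N (A ⊗ C)).hom ≫ (A ◁ zeta M C) ≫ (M.tensorRight C).act := by
  have h := act_braid M
  have h1 : (M.act ▷ (A ⊗ C)) ≫ zeta M C =
      (α_ (A ⊗ N) A C).inv ≫ (((M.act ▷ A) ≫ (β_ N A).hom ≫ M.act) ▷ C) := by
    rw [zeta, comp_whiskerRight (M.act ▷ A), ← associator_inv_naturality_left_assoc]
  rw [h1, h]
  change _ = (α_ A N (A ⊗ C)).hom ≫ (A ◁ ((α_ N A C).inv ≫ (((β_ N A).hom ≫ M.act) ▷ C))) ≫
    (α_ A N C).inv ≫ (M.act ▷ C)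
  have h2 : ∀ g : N ⊗ A ⟶ N, (A ◁ ((α_ N A C).inv ≫ (g ▷ C))) ≫ (α_ A N C).inv =
      (A ◁ (α_ N A C).inv) ≫ (α_ A (N ⊗ A) C).inv ≫ ((A ◁ g) ▷ C) := by
    intro g
    rw [MonoidalCategory.whiskerLeft_comp, Category.assoc, associator_inv_naturality_middle]
  rw [reassoc_of% h2, comp_whiskerRight, comp_whiskerRight]
  simp only [← Category.assoc]
  congr 2
  monoidal

lemma zg_gsmul [IsCommMonObj A] {m n p l np q : ℤ} (h : n + m = p) (h1 : l + n = np)
    (h2 : np + m = q) (h3 : l + p = q)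
    (z : E.S m ⟶ A ⊗ C) (a : E.S l ⟶ A) (x : E.S n ⟶ N) :
    zg M h2 z (gsmul M h1 a x) = gsmul (M.tensorRight C) h3 a (zg M h z x) := by
  rw [zg, gsmul, gsmul, zg, ext_comp_left, ext_comp_right, Category.assoc, Category.assoc,
    act_zeta, ← ext_assoc h1 h2 h h3, Category.assoc]

lemma zg_unit [Preadditive T] [MonoidalPreadditive T] {i : 𝟙_ T ⟶ C} {m n p : ℤ} (h : n + m = p)
    (h' : m + n = p) (t : E.S m ⟶ A) (x : E.S n ⟶ N) :
    zg M h (t ≫ (ρ_ A).inv ≫ (A ◁ i)) x = gsmul M h' t x ≫ itS i N := by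
  have h1 : (N ◁ ((ρ_ A).inv ≫ (A ◁ i))) ≫ zeta M C = (β_ N A).hom ≫ M.act ≫ itS i N := by
    rw [zeta, itS, MonoidalCategory.whiskerLeft_comp, Category.assoc,
      associator_inv_naturality_right_assoc, ← Category.assoc (β_ N A).hom,
      rightUnitor_inv_naturality_assoc, whisker_exchange]
    simp only [← Category.assoc]
    congr 2
    simp
  rw [zg, ext_comp_right, Category.assoc, h1, gsmul, ← ext_comm h h' x t]
  simp only [Category.assoc]

lemma zg_nat {A' : T} [MonObj A'] {N' : T} (M' : ModStr A' N') (φ : A ⟶ A') (f : N ⟶ N')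
    (hf : M.act ≫ f = (φ ⊗ₘ f) ≫ M'.act) {m n p : ℤ} (h : n + m = p)
    (z : E.S m ⟶ A ⊗ C) (x : E.S n ⟶ N) :
    zg M h z x ≫ (f ▷ C) = zg M' h (z ≫ (φ ▷ C)) (x ≫ f) := by
  have h1 : zeta M C ≫ (f ▷ C) = (f ⊗ₘ (φ ▷ C)) ≫ zeta M' C := by
    rw [zeta, zeta, Category.assoc, ← comp_whiskerRight, Category.assoc, hf,
      ← BraidedCategory.braiding_naturality_assoc, comp_whiskerRight, ← tensorHom_id φ C,
      ← tensorHom_id (f ⊗ₘ φ) C, associator_inv_naturality_assoc, tensorHom_id]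
  rw [zg, zg, Category.assoc, h1, ext_comp, Category.assoc]

end homog

section sums

variable [Preadditive T] [MonoidalPreadditive T]

variable {A : T} [MonObj A] {N : T} (M : ModStr A N) {C : T}

lemma zg_add {m n p : ℤ} (h : n + m = p) (z : E.S m ⟶ A ⊗ C) (x x' : E.S n ⟶ N) :
    zg M h z (x + x') = zg M h z x + zg M h z x' := by
  rw [zg, ext_add_left, Preadditive.add_comp]
  rfl

lemma zg_add_left {m n p : ℤ} (h : n + m = p) (z z' : E.S m ⟶ A ⊗ C) (x : E.S n ⟶ N) :
    zg M h (z + z') x = zg M h z x + zg M h z' x := by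
  rw [zg, ext_add_right, Preadditive.add_comp]
  rfl

/-- the map of homotopy modules induced by a map -/
noncomputable def hmap {N N' : T} (f : N ⟶ N') : HMod E N →+ HMod E N' :=
  DirectSum.map fun n => AddMonoidHom.mk' (fun x : E.S n ⟶ N => x ≫ f)
    (fun x y => Preadditive.add_comp _ _ _ x y f)

@[simp] lemma hmap_of {N N' : T} (f : N ⟶ N') (n : ℤ) (x : E.S n ⟶ N) :
    hmap (E := E) f (DirectSum.of (E.Gr N) n x) = DirectSum.of (E.Gr N') n (x ≫ f) :=
  DirectSum.map_of _ _ _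

lemma hmap_apply {N N' : T} (f : N ⟶ N') (n : ℤ) (x : HMod E N) :
    (hmap (E := E) f x : HMod E N') n = x n ≫ f := by
  induction x using DirectSum.induction_on with
  | zero => rw [map_zero, DirectSum.zero_apply, DirectSum.zero_apply, zero_comp]
  | of i x =>
    rw [hmap_of]
    by_cases h : i = n
    · subst h
      rw [DirectSum.of_eq_same, DirectSum.of_eq_same]
    · rw [DirectSum.of_eq_of_ne _ _ _ (Ne.symm h), DirectSum.of_eq_of_ne _ _ _ (Ne.symm h), zero_comp]
  | add x y hx hy => rw [map_add, DirectSum.add_apply, hx, hy, DirectSum.add_apply,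
      Preadditive.add_comp]

/-- multiplication by `z` -/
noncomputable def ZZ {m : ℤ} (z : E.S m ⟶ A ⊗ C) : HMod E N →+ HMod E (N ⊗ C) :=
  DirectSum.toAddMonoid fun n => (DirectSum.of (E.Gr (N ⊗ C)) (n + m)).comp
    (AddMonoidHom.mk' (fun x : E.S n ⟶ N => zg M rfl z x) (zg_add M rfl z))

lemma ZZ_of {m n p : ℤ} (h : n + m = p) (z : E.S m ⟶ A ⊗ C) (x : E.S n ⟶ N) :
    ZZ M z (DirectSum.of (E.Gr N) n x) = DirectSum.of (E.Gr (N ⊗ C)) p (zg M h z x) := by
  subst h
  rw [ZZ, DirectSum.toAddMonoid_of]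
  rfl

/-- the map induced by the inclusion of the bottom cell -/
noncomputable def II (i : 𝟙_ T ⟶ C) (N : T) : HMod E N →+ HMod E (N ⊗ C) := hmap (itS i N)

/-- The homotopy module of a module, as a type depending on the module structure. -/
def HN (E : EvenSpheres T) {A N : T} [MonObj A] (_ : ModStr A N) : Type v := HMod E N

noncomputable instance : AddCommGroup (HN E M) := inferInstanceAs (AddCommGroup (HMod E N))

noncomputable instance : Module (HRing E A) (HN E M) := hModule M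

/-- homogeneous elements -/
noncomputable def HN.of (M : ModStr A N) (n : ℤ) (x : E.S n ⟶ N) : HN E M :=
  DirectSum.of (E.Gr N) n x

lemma HN.of_smul {m n p : ℤ} (h : m + n = p) (a : E.S m ⟶ A) (x : E.S n ⟶ N) :
    (HRing.of E A m a) • (HN.of M n x : HN E M) = HN.of M p (gsmul M h a x) :=
  of_smul_of M h a x

lemma HN.of_add (n : ℤ) (x y : E.S n ⟶ N) :
    (HN.of M n (x + y) : HN E M) = HN.of M n x + HN.of M n y :=
  (DirectSum.of (E.Gr N) n).map_add x y

lemma HN.induction {P : HN E M → Prop} (h0 : P 0) (h1 : ∀ n x, P (HN.of M n x))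
    (h2 : ∀ x y, P x → P y → P (x + y)) (x : HN E M) : P x :=
  DirectSum.induction_on x h0 h1 h2

lemma HN.addHom_ext {M : ModStr A N} {B : Type*} [AddCommGroup B]
    {g g' : HN E M →+ B} (h : ∀ n x, g (HN.of M n x) = g' (HN.of M n x)) : g = g' := by
  ext x
  induction x using HN.induction with
  | h0 => rw [map_zero, map_zero]
  | h1 n x => exact h n x
  | h2 x y hx hy => rw [map_add, map_add, hx, hy]

/-- Additive maps commuting with the homogeneous scalars on homogeneous elements are linear. -/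
noncomputable def HN.lin {N' : T} {M : ModStr A N} {M' : ModStr A N'}
    (g : HN E M →+ HN E M')
    (hg : ∀ (l n : ℤ) (a : E.S l ⟶ A) (x : E.S n ⟶ N),
      g (HRing.of E A l a • HN.of M n x) = HRing.of E A l a • g (HN.of M n x)) :
    HN E M →ₗ[HRing E A] HN E M' where
  toFun := g
  map_add' := g.map_add
  map_smul' a x := by
    rw [RingHom.id_apply]
    induction x using HN.induction with
    | h0 => rw [smul_zero, map_zero, smul_zero]
    | h2 x y hx hy => rw [smul_add, map_add, map_add, hx, hy, smul_add]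
    | h1 n x =>
      induction a using DirectSum.induction_on with
      | zero => rw [zero_smul, map_zero, zero_smul]
      | add a b ha hb => rw [add_smul, map_add, ha, hb, add_smul]
      | of l a => exact hg l n a x

/-- multiplication by `z`, typed version -/
noncomputable def ZA {m : ℤ} (z : E.S m ⟶ A ⊗ C) : HN E M →+ HN E (M.tensorRight C) := ZZ M z

lemma ZA_of {m n p : ℤ} (h : n + m = p) (z : E.S m ⟶ A ⊗ C) (x : E.S n ⟶ N) :
    ZA M z (HN.of M n x) = HN.of (M.tensorRight C) p (zg M h z x) := ZZ_of M h z x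

/-- multiplication by `z`, linear -/
noncomputable def ZL [IsCommMonObj A] {m : ℤ} (z : E.S m ⟶ A ⊗ C) :
    HN E M →ₗ[HRing E A] HN E (M.tensorRight C) :=
  HN.lin (ZA M z) fun l n a x => by
    rw [HN.of_smul M rfl a x, ZA_of M rfl, ZA_of M rfl,
      HN.of_smul (M.tensorRight C) (p := l + n + m) (by ring) a (zg M rfl z x),
      zg_gsmul M rfl rfl rfl (by ring)]

lemma ZL_of [IsCommMonObj A] {m n p : ℤ} (h : n + m = p) (z : E.S m ⟶ A ⊗ C) (x : E.S n ⟶ N) :
    ZL M z (HN.of M n x) = HN.of (M.tensorRight C) p (zg M h z x) := ZZ_of M h z x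

/-- the additive map of homotopy modules induced by a map -/
noncomputable def hadd {A' N' : T} [MonObj A'] (M : ModStr A N) (M' : ModStr A' N') (f : N ⟶ N') :
    HN E M →+ HN E M' := hmap (E := E) f

lemma hadd_of {A' N' : T} [MonObj A'] (M' : ModStr A' N') (f : N ⟶ N') (n : ℤ)
    (x : E.S n ⟶ N) : hadd M M' f (HN.of M n x) = HN.of M' n (x ≫ f) := hmap_of f n x

/-- the map of modules induced by a linear map -/
noncomputable def hlin {N' : T} (M' : ModStr A N') (f : N ⟶ N') (hf : M.IsLinear M' f) :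
    HN E M →ₗ[HRing E A] HN E M' :=
  HN.lin (hadd M M' f) fun l n a x => by
    rw [HN.of_smul M rfl a x, hadd_of, hadd_of, HN.of_smul M' rfl, gsmul_comp M M' hf]

lemma hlin_of {N' : T} (M' : ModStr A N') (f : N ⟶ N') (hf : M.IsLinear M' f) (n : ℤ)
    (x : E.S n ⟶ N) : hlin M M' f hf (HN.of M n x) = HN.of M' n (x ≫ f) := hmap_of f n x

lemma itS_linear (i : 𝟙_ T ⟶ C) : M.IsLinear (M.tensorRight C) (itS i N) := by
  change M.act ≫ (ρ_ N).inv ≫ (N ◁ i) = (A ◁ ((ρ_ N).inv ≫ (N ◁ i))) ≫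
    (α_ A N C).inv ≫ (M.act ▷ C)
  rw [rightUnitor_inv_naturality_assoc, MonoidalCategory.whiskerLeft_comp, Category.assoc,
    associator_inv_naturality_right_assoc, whisker_exchange, ← Category.assoc, ← Category.assoc,
    ← Category.assoc]
  congr 2
  simp

/-- inclusion of the bottom cell, linear -/
noncomputable def IL (i : 𝟙_ T ⟶ C) : HN E M →ₗ[HRing E A] HN E (M.tensorRight C) :=
  hlin M (M.tensorRight C) (itS i N) (itS_linear M i)

lemma IL_of (i : 𝟙_ T ⟶ C) (n : ℤ) (x : E.S n ⟶ N) :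
    IL M i (HN.of M n x) = HN.of (M.tensorRight C) n (x ≫ itS i N) := hlin_of _ _ _ _ _ _

/-- change of `z` -/
lemma ZL_add [IsCommMonObj A] {i : 𝟙_ T ⟶ C} {m : ℤ} (z z' : E.S m ⟶ A ⊗ C) (t : E.S m ⟶ A)
    (hz : z' = z + t ≫ (ρ_ A).inv ≫ (A ◁ i)) (x : HN E M) :
    ZL M z' x = ZL M z x + HRing.of E A m t • IL M i x := by
  induction x using HN.induction with
  | h0 => simp
  | h2 x y hx hy =>
    rw [map_add, map_add, map_add, hx, hy, smul_add]
    abel
  | h1 n x =>
    rw [ZL_of M rfl, ZL_of M rfl, IL_of, HN.of_smul (M.tensorRight C) (add_comm m n), ← HN.of_add,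
      hz, zg_add_left, zg_unit M rfl (add_comm m n), gsmul_comp M _ (itS_linear M i)]

/-- semilinear maps -/
lemma ZL_nat [IsCommMonObj A] {A' : T} [MonObj A'] [IsCommMonObj A'] {N' : T} (M' : ModStr A' N')
    (φ : A ⟶ A') (f : N ⟶ N') (hf : M.act ≫ f = (φ ⊗ₘ f) ≫ M'.act) {m : ℤ}
    (z : E.S m ⟶ A ⊗ C) (x : HN E M) :
    hadd (M.tensorRight C) (M'.tensorRight C) (f ▷ C) (ZL M z x) =
      ZL M' (z ≫ (φ ▷ C)) (hadd M M' f x) := by
  induction x using HN.induction with
  | h0 => simp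
  | h2 x y hx hy => rw [map_add, map_add, map_add, map_add, hx, hy]
  | h1 n x => rw [ZL_of M rfl, hadd_of, hadd_of, ZL_of M' rfl, zg_nat M M' φ f hf]

lemma IL_nat {A' : T} [MonObj A'] {N' : T} (M' : ModStr A' N')
    (i : 𝟙_ T ⟶ C) (f : N ⟶ N') (x : HN E M) :
    hadd (M.tensorRight C) (M'.tensorRight C) (f ▷ C) (IL M i x) = IL M' i (hadd M M' f x) := by
  have h0 : itS i N ≫ (f ▷ C) = f ≫ itS i N' := by
    rw [itS, itS, Category.assoc, whisker_exchange, rightUnitor_inv_naturality_assoc]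
  induction x using HN.induction with
  | h0 => simp
  | h2 x y hx hy => rw [map_add, map_add, map_add, map_add, hx, hy]
  | h1 n x => rw [IL_of, hadd_of, hadd_of, IL_of, Category.assoc, h0, Category.assoc]

/-- scalars of the homotopy ring through a map of monoids -/
lemma hadd_smul {A' : T} [MonObj A'] {N' : T} (M' : ModStr A' N')
    (φ : A ⟶ A') [IsMonHom φ] (f : N ⟶ N') (hf : M.act ≫ f = (φ ⊗ₘ f) ≫ M'.act)
    (a : HRing E A) (x : HN E M) :
    hadd M M' f (a • x) = HRing.map φ a • hadd M M' f x := by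
  induction x using HN.induction with
  | h0 => simp
  | h2 x y hx hy => rw [smul_add, map_add, map_add, hx, hy, smul_add]
  | h1 n x =>
    induction a using DirectSum.induction_on with
    | zero => rw [zero_smul, map_zero, map_zero, zero_smul]
    | add a b ha hb => rw [add_smul, map_add, map_add, ha, hb, add_smul]
    | of l a =>
      have h1 : HRing.map (E := E) φ (DirectSum.of (E.Gr A) l a) = HRing.of E A' l (a ≫ φ) :=
        HRing.map_of φ l a
      rw [HN.of_smul M rfl a x, hadd_of, hadd_of, h1, HN.of_smul M' rfl]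
      congr 1
      rw [gsmul, gsmul, Category.assoc, hf, ext_comp, Category.assoc]

end sums

end Vale.Agent.P257.V4.T
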