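import Vale.Agent.P257.V4.T.Poly
import Vale.Agent.P257.V4.T.GrMul
import Vale.Agent.P251.S.AmitsurCobar

/-!
# P257, V(4), part T (T3): `(p-1)! b` is the coboundary of a cochain with values in
`Y ⊗ C ^ (p-1)`

`R` a commutative monoid, `C` with `i : 𝟙 ⟶ C`, `z : S^{2h} ⟶ R ⊗ C` and `t : S^{2h} ⟶ R ⊗ R` with
`z_0 - z_1 = t_{01} i`. In the cosimplicial group `π_{2*}(R^{⊗ m} ⊗ Y ⊗ C^{⊗ (p-1)})` the element
`(p-1)! b(t_{01}, t_{12}) e` is the alternating sum of the cofaces of `Wbd`.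
-/

set_option linter.unusedSectionVars false

open CategoryTheory MonoidalCategory Limits MonObj

universe v u

namespace Vale.Agent.P257.V4.T

open Vale.Agent.P251.S Vale.Agent.P251.M Vale.Agent.P251.M.EvenSpheres

variable {T : Type u} [Category.{v} T] [MonoidalCategory T] [SymmetricCategory T]
  {E : EvenSpheres T}

section It

/-- functoriality of `It` -/
def itMap (C : T) : ∀ (k : ℕ) {X Y : T} (_ : X ⟶ Y), It C k X ⟶ It C k Y
  | 0, _, _, f => f
  | k + 1, _, _, f => itMap C k f ▷ C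

lemma itι_nat [Preadditive T] [MonoidalPreadditive T] {C : T} (i : 𝟙_ T ⟶ C) (k : ℕ) {X Y : T}
    (f : X ⟶ Y) : itι i k X ≫ itMap C k f = f ≫ itι i k Y := by
  induction k with
  | zero => exact (Category.id_comp f).trans (Category.comp_id f).symm
  | succ k ih =>
    have h0 : itS i (It C k X) ≫ (itMap C k f ▷ C) = itMap C k f ≫ itS i (It C k Y) := by
      rw [itS, itS, Category.assoc, whisker_exchange, rightUnitor_inv_naturality_assoc]
    rw [itι_succ, itι_succ, Category.assoc]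
    exact (congrArg _ h0).trans (by rw [← Category.assoc, ih, Category.assoc])

/-- the module structures of the iterates -/
def NS {A N : T} [MonObj A] (M : ModStr A N) (C : T) : ∀ k, ModStr A (It C k N)
  | 0 => M
  | k + 1 => (NS M C k).tensorRight C

lemma NS_succ {A N : T} [MonObj A] (M : ModStr A N) (C : T) (k : ℕ) :
    NS M C (k + 1) = (NS M C k).tensorRight C := rfl

lemma itMap_semilinear {A N A' N' : T} [MonObj A] [MonObj A'] (M : ModStr A N) (M' : ModStr A' N')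
    (φ : A ⟶ A') (f : N ⟶ N') (hf : M.act ≫ f = (φ ⊗ₘ f) ≫ M'.act) (C : T) (k : ℕ) :
    (NS M C k).act ≫ itMap C k f = (φ ⊗ₘ itMap C k f) ≫ (NS M' C k).act := by
  induction k with
  | zero => exact hf
  | succ k ih =>
    change ((α_ A (It C k N) C).inv ≫ ((NS M C k).act ▷ C)) ≫ (itMap C k f ▷ C) =
      (φ ⊗ₘ (itMap C k f ▷ C)) ≫ (α_ A' (It C k N') C).inv ≫ ((NS M' C k).act ▷ C)
    rw [Category.assoc, ← comp_whiskerRight, ih, comp_whiskerRight, ← tensorHom_id (itMap C k f) C,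
      associator_inv_naturality_assoc, tensorHom_id]

end It

variable [Preadditive T] [MonoidalPreadditive T]

section system

variable {R : T} [MonObj R] [IsCommMonObj R] {C Y : T} (i : 𝟙_ T ⟶ C) (e : 𝟙_ T ⟶ Y) {h : ℤ}
  (z : E.S h ⟶ Am R 1 ⊗ C)

/-- the class of `z` at the vertex `v` -/
noncomputable def zv (m : ℕ) (v : Fin m) : E.S h ⟶ Am R m ⊗ C :=
  z ≫ (Am.map R (fun _ : Fin 1 => v) ▷ C)

lemma zv_map {m n : ℕ} (α : Fin m → Fin n) (v : Fin m) :
    zv z m v ≫ (Am.map R α ▷ C) = zv z n (α v) := by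
  rw [zv, zv, Category.assoc, ← comp_whiskerRight, ← Am.map_comp]
  rfl

/-- the module `R ^ m ⊗ Y ⊗ C ^ k` -/
def SM (R : T) [MonObj R] (Y C : T) (m k : ℕ) :
    ModStr (Am R m) (It C k (Am R m ⊗ Y)) := NS (ModStr.free (Am R m) Y) C k

/-- the map `R ^ m ⊗ Y ⊗ C ^ k ⟶ R ^ n ⊗ Y ⊗ C ^ k` -/
def Sf (R : T) [MonObj R] [IsCommMonObj R] (Y C : T) {m n : ℕ} (α : Fin m → Fin n) (k : ℕ) :
    It C k (Am R m ⊗ Y) ⟶ It C k (Am R n ⊗ Y) := itMap C k (Am.map R α ▷ Y)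

lemma Sf_semilinear {m n : ℕ} (α : Fin m → Fin n) (k : ℕ) :
    (SM R Y C m k).act ≫ Sf R Y C α k = (Am.map R α ⊗ₘ Sf R Y C α k) ≫ (SM R Y C n k).act := by
  apply itMap_semilinear
  change ((α_ (Am R m) (Am R m) Y).inv ≫ (μ[Am R m] ▷ Y)) ≫ (Am.map R α ▷ Y) =
    (Am.map R α ⊗ₘ (Am.map R α ▷ Y)) ≫ (α_ (Am R n) (Am R n) Y).inv ≫ (μ[Am R n] ▷ Y)
  rw [Category.assoc, ← comp_whiskerRight, IsMonHom.mul_hom, comp_whiskerRight,
    ← tensorHom_id (Am.map R α) Y, associator_inv_naturality_assoc, tensorHom_id]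

/-- the bottom class, in degree `0` -/
noncomputable def e0 (R : T) [MonObj R] (m : ℕ) : E.S 0 ⟶ Am R m ⊗ Y :=
  E.zero.inv ≫ η[Am R m] ≫ (ρ_ (Am R m)).inv ≫ (Am R m ◁ e)

lemma e0_map {m n : ℕ} (α : Fin m → Fin n) :
    e0 (E := E) e R m ≫ (Am.map R α ▷ Y) = e0 e R n := by
  rw [e0, e0, Category.assoc, Category.assoc, Category.assoc, whisker_exchange,
    ← rightUnitor_inv_naturality_assoc, ← Category.assoc η[Am R m], IsMonHom.one_hom]

/-- the bottom class -/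
noncomputable def eS (R : T) [MonObj R] (m : ℕ) : HN E (SM R Y C m 0) :=
  HN.of (SM R Y C m 0) 0 (e0 e R m)

/-- the elements `y_j` with respect to the vertex `v` -/
noncomputable def yS (m : ℕ) (v : Fin m) (k j : ℕ) : HN E (SM R Y C m k) :=
  yy (M := fun k => HN E (SM R Y C m k)) (fun k x => IL (SM R Y C m k) i x)
    (fun k x => ZL (SM R Y C m k) (zv z m v) x) (eS e R m) k j

/-- the additive map of a coface -/
noncomputable def FS (E : EvenSpheres T) (R : T) [MonObj R] [IsCommMonObj R] (Y C : T) {m n : ℕ}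
    (α : Fin m → Fin n) (k : ℕ) : HN E (SM R Y C m k) →+ HN E (SM R Y C n k) :=
  hadd _ _ (Sf R Y C α k)

lemma yS_map {m n : ℕ} (α : Fin m → Fin n) (v : Fin m) (k j : ℕ) :
    FS E R Y C α k (yS i e z m v k j) = yS i e z n (α v) k j := by
  have h1 : ∀ (k : ℕ) (x : HN E (SM R Y C m k)),
      FS E R Y C α (k + 1) (IL (SM R Y C m k) i x) = IL (SM R Y C n k) i (FS E R Y C α k x) :=
    fun k x => IL_nat _ _ i _ x
  have h2 : ∀ (k : ℕ) (x : HN E (SM R Y C m k)),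
      FS E R Y C α (k + 1) (ZL (SM R Y C m k) (zv z m v) x) =
        ZL (SM R Y C n k) (zv z n (α v)) (FS E R Y C α k x) := fun k x => by
    rw [← zv_map z α v]
    exact ZL_nat _ _ (Am.map R α) _ (Sf_semilinear α k) _ x
  have h3 : FS E R Y C α 0 (eS e R m) = eS e R n := by
    refine (hadd_of _ _ _ _ _).trans ?_
    exact congrArg (HN.of (SM R Y C n 0) 0) (e0_map e α)
  have := yy_nat (M := fun k => HN E (SM R Y C m k)) (M' := fun k => HN E (SM R Y C n k))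
    (I := fun k x => IL (SM R Y C m k) i x) (Z := fun k x => ZL (SM R Y C m k) (zv z m v) x)
    (e := eS e R m)
    (fun k x => IL (SM R Y C n k) i x) (fun k x => ZL (SM R Y C n k) (zv z n (α v)) x)
    (fun k => FS E R Y C α k) h1 h2 k j
  rw [h3] at this
  exact this

variable (t : E.S h ⟶ Am R 2)

/-- the class of `t` at the edge `(v, w)` -/
noncomputable def tv (m : ℕ) (v w : Fin m) : HRing E (Am R m) :=
  HRing.of E (Am R m) h (t ≫ Am.map R ![v, w])

lemma tv_map {m n : ℕ} (α : Fin m → Fin n) (v w : Fin m) :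
    HRing.map (Am.map R α) (tv t m v w) = tv t n (α v) (α w) := by
  have h1 : (α ∘ ![v, w]) = ![α v, α w] := by
    funext j
    fin_cases j <;> rfl
  rw [tv, HRing.map_of, Category.assoc, ← Am.map_comp, h1, tv]

variable {i z t}

/-- change of vertex -/
lemma zv_change (hz : zv z 2 0 = zv z 2 1 + t ≫ (ρ_ (Am R 2)).inv ≫ (Am R 2 ◁ i)) (m : ℕ)
    (v w : Fin m) : zv z m v = zv z m w + (t ≫ Am.map R ![v, w]) ≫ (ρ_ (Am R m)).inv ≫
      (Am R m ◁ i) := by
  have h1 := congrArg (fun f => f ≫ (Am.map R ![v, w] ▷ C)) hz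
  simp only [Preadditive.add_comp, zv_map, Category.assoc] at h1
  rw [show (![v, w] : Fin 2 → Fin m) 0 = v from rfl, show (![v, w] : Fin 2 → Fin m) 1 = w from rfl,
    whisker_exchange, ← rightUnitor_inv_naturality_assoc] at h1
  rw [h1, Category.assoc]

/-- translation of the elements `y_j` -/
lemma yS_change (hz : zv z 2 0 = zv z 2 1 + t ≫ (ρ_ (Am R 2)).inv ≫ (Am R 2 ◁ i)) (m : ℕ)
    (v w : Fin m) (k j : ℕ) (hj : j ≤ k) :
    yS i e z m v k j = ∑ l ∈ Finset.range (j + 1), (j.choose l : ℤ) • tv t m v w ^ (j - l) •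
      yS i e z m w k l :=
  yy_translate (M := fun k => HN E (SM R Y C m k)) (fun k => IL (SM R Y C m k) i)
    (fun k => ZL (SM R Y C m k) (zv z m w)) (eS e R m) (tv t m v w)
    (fun k x => ZL (SM R Y C m k) (zv z m v) x)
    (fun k x => ZL_add (SM R Y C m k) _ _ _ (zv_change hz m v w) x) k j hj

/-- the element `y_0` -/
lemma yS_zero (m : ℕ) (w : Fin m) (k : ℕ) : yS i e z m w k 0 = ((k.factorial : ℕ) : ℤ) •
    HN.of (SM R Y C m k) 0 (e0 e R m ≫ itι i k (Am R m ⊗ Y)) := by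
  have h1 := yy_zero_right (M := fun k => HN E (SM R Y C m k))
    (I := fun k x => IL (SM R Y C m k) i x) (Z := fun k x => ZL (SM R Y C m k) (zv z m w) x)
    (e := eS e R m) (fun k n x => map_zsmul (IL (SM R Y C m k) i) n x) k
  refine h1.trans ?_
  congr 1
  induction k with
  | zero =>
    change HN.of (SM R Y C m 0) 0 (e0 e R m) = HN.of (SM R Y C m 0) 0 (e0 e R m ≫ 𝟙 _)
    rw [Category.comp_id]
  | succ k ih =>
    have ih' := ih (yy_zero_right (M := fun k => HN E (SM R Y C m k))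
      (I := fun k x => IL (SM R Y C m k) i x) (Z := fun k x => ZL (SM R Y C m k) (zv z m w) x)
      (e := eS e R m) (fun k n x => map_zsmul (IL (SM R Y C m k) i) n x) k)
    change IL (SM R Y C m k) i (itI (M := fun k => HN E (SM R Y C m k)) _ (eS e R m) k) = _
    rw [ih', IL_of, Category.assoc]
    rfl

variable (i z t) in
/-- The cochain bounding `(p-1)! b`. -/
noncomputable def Wbd (p : ℕ) : HN E (SM R Y C 2 (p - 1)) :=
  WW p (HRing.of E (Am R 2) h t) (fun j => yS i e z 2 1 (p - 1) j)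

lemma Wbd_map (p : ℕ) {n : ℕ} (α : Fin 2 → Fin n) :
    FS E R Y C α (p - 1) (Wbd i e z t p) =
      WW p (tv t n (α 0) (α 1)) (fun j => yS i e z n (α 1) (p - 1) j) := by
  have h1 : HRing.map (E := E) (Am.map R α) (HRing.of E (Am R 2) h t) = tv t n (α 0) (α 1) := by
    have h2 : α = ![α 0, α 1] := by
      funext j
      fin_cases j <;> rfl
    rw [HRing.map_of, tv, ← h2]
  rw [Wbd, WW, WW, map_sum]
  refine Finset.sum_congr rfl fun j _ => ?_
  have h2 : ∀ (a : HRing E (Am R 2)) (x : HN E (SM R Y C 2 (p - 1))),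
      FS E R Y C α (p - 1) (a • x) = HRing.map (Am.map R α) a • FS E R Y C α (p - 1) x :=
    fun a x => hadd_smul _ _ (Am.map R α) _ (Sf_semilinear α (p - 1)) a x
  rw [h2, h2, map_natCast, map_pow, h1, yS_map]

/-- **`(p-1)! b` is the coboundary of `Wbd`.** -/
theorem Wbd_cobdy {p : ℕ} (hp : p.Prime)
    (hz : zv z 2 0 = zv z 2 1 + t ≫ (ρ_ (Am R 2)).inv ≫ (Am R 2 ◁ i))
    (ht : tv t 3 0 2 = tv t 3 0 1 + tv t 3 1 2) :
    ∑ j : Fin 3, (-1 : ℤ) ^ (j : ℕ) • FS E R Y C (Fin.succAbove j : Fin 2 → Fin 3) (p - 1)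
        (Wbd i e z t p) =
      (((p - 1).factorial : ℕ) : ℤ) • bb p (tv t 3 0 1) (tv t 3 1 2) •
        HN.of (SM R Y C 3 (p - 1)) 0 (e0 e R 3 ≫ itι i (p - 1) (Am R 3 ⊗ Y)) := by
  have h1 := WW_cocycle hp (tv t 3 0 1) (tv t 3 1 2) (fun j => yS i e z 3 2 (p - 1) j)
    (fun j => yS i e z 3 1 (p - 1) j) (fun j hj => yS_change e hz 3 1 2 (p - 1) j (by omega))
  rw [yS_zero, ← ht] at h1
  rw [Fin.sum_univ_three, Wbd_map, Wbd_map, Wbd_map]
  rw [smul_comm (bb p (tv t 3 0 1) (tv t 3 1 2)) (((p - 1).factorial : ℕ) : ℤ)] at h1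
  rw [← h1]
  simp only [Fin.val_zero, pow_zero, one_smul, Fin.val_one, pow_one, neg_smul, Fin.val_two,
    even_two, Even.neg_pow, one_pow]
  rw [show Fin.succAbove (0 : Fin 3) (0 : Fin 2) = 1 from rfl,
    show Fin.succAbove (0 : Fin 3) (1 : Fin 2) = 2 from rfl,
    show Fin.succAbove (1 : Fin 3) (0 : Fin 2) = 0 from rfl,
    show Fin.succAbove (1 : Fin 3) (1 : Fin 2) = 2 from rfl,
    show Fin.succAbove (2 : Fin 3) (0 : Fin 2) = 0 from rfl,
    show Fin.succAbove (2 : Fin 3) (1 : Fin 2) = 1 from rfl]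
  abel

end system

section component

variable {C : T}

/-- `(A ⊗ Y) ⊗ C ^ k ≅ A ⊗ (Y ⊗ C ^ k)` -/
def itA (C A Y : T) : ∀ k, It C k (A ⊗ Y) ≅ A ⊗ It C k Y
  | 0 => Iso.refl _
  | k + 1 => whiskerRightIso (itA C A Y k) C ≪≫ α_ A (It C k Y) C

lemma itA_succ (A Y : T) (k : ℕ) :
    itA C A Y (k + 1) = whiskerRightIso (itA C A Y k) C ≪≫ α_ A (It C k Y) C := rfl

lemma itA_nat {A A' : T} (φ : A ⟶ A') (Y : T) (k : ℕ) :
    itMap C k (φ ▷ Y) ≫ (itA C A' Y k).hom = (itA C A Y k).hom ≫ (φ ▷ It C k Y) := by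
  induction k with
  | zero => exact (Category.comp_id _).trans (Category.id_comp _).symm
  | succ k ih =>
    change (itMap C k (φ ▷ Y) ▷ C) ≫ ((itA C A' Y k).hom ▷ C) ≫ (α_ A' (It C k Y) C).hom =
      (((itA C A Y k).hom ▷ C) ≫ (α_ A (It C k Y) C).hom) ≫ (φ ▷ (It C k Y ⊗ C))
    rw [← comp_whiskerRight_assoc, ih, comp_whiskerRight_assoc, Category.assoc,
      associator_naturality_left]

lemma itι_itA (i : 𝟙_ T ⟶ C) (A Y : T) (k : ℕ) :
    itι i k (A ⊗ Y) ≫ (itA C A Y k).hom = A ◁ itι i k Y := by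
  induction k with
  | zero =>
    change 𝟙 _ ≫ 𝟙 _ = A ◁ 𝟙 _
    rw [MonoidalCategory.whiskerLeft_id, Category.comp_id]
  | succ k ih =>
    have h0 : itS i (It C k (A ⊗ Y)) ≫ ((itA C A Y k).hom ▷ C) =
        (itA C A Y k).hom ≫ itS i (A ⊗ It C k Y) := by
      rw [itS, itS, Category.assoc, whisker_exchange, rightUnitor_inv_naturality_assoc]
    have h1 : itS i (A ⊗ It C k Y) ≫ (α_ A (It C k Y) C).hom = A ◁ itS i (It C k Y) := by
      rw [itS, itS, MonoidalCategory.whiskerLeft_comp]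
      simp
    rw [itι_succ, itι_succ, itA_succ]
    change (itι i k (A ⊗ Y) ≫ itS i (It C k (A ⊗ Y))) ≫ ((itA C A Y k).hom ▷ C) ≫
      (α_ A (It C k Y) C).hom = A ◁ (itι i k Y ≫ itS i (It C k Y))
    rw [Category.assoc, reassoc_of% h0, h1, ← Category.assoc, ih,
      MonoidalCategory.whiskerLeft_comp]

lemma itι_linear {A N : T} [MonObj A] (M : ModStr A N) (i : 𝟙_ T ⟶ C) (k : ℕ) :
    M.IsLinear (NS M C k) (itι i k N) := by
  induction k with
  | zero =>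
    change M.act ≫ 𝟙 _ = (A ◁ 𝟙 _) ≫ M.act
    rw [MonoidalCategory.whiskerLeft_id, Category.comp_id, Category.id_comp]
  | succ k ih =>
    have h1 := itS_linear (NS M C k) i
    rw [ModStr.IsLinear] at ih h1 ⊢
    rw [itι_succ, ← Category.assoc, ih, Category.assoc]
    change _ ≫ (NS M C k).act ≫ itS i (It C k N) = _ ≫ ((NS M C k).tensorRight C).act
    rw [h1, MonoidalCategory.whiskerLeft_comp, Category.assoc]

variable {R : T} [MonObj R] [IsCommMonObj R] {Y : T} (i : 𝟙_ T ⟶ C) (e : 𝟙_ T ⟶ Y) {h : ℤ}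
  (z : E.S h ⟶ Am R 1 ⊗ C) (t : E.S h ⟶ Am R 2)

/-- the bounding cochain, as a map -/
noncomputable def wbd (p : ℕ) (n : ℤ) : E.S n ⟶ Am R 2 ⊗ It C (p - 1) Y :=
  (show HMod E (It C (p - 1) (Am R 2 ⊗ Y)) from Wbd i e z t p) n ≫ (itA C (Am R 2) Y (p - 1)).hom

lemma gsmul_e0 (m k : ℕ) {n : ℤ} (b : E.S n ⟶ Am R m) (hn : n + 0 = n) :
    gsmul (SM R Y C m k) hn b (e0 e R m ≫ itι i k (Am R m ⊗ Y)) ≫ (itA C (Am R m) Y k).hom =
      b ≫ (ρ_ (Am R m)).inv ≫ (Am R m ◁ (e ≫ itι i k Y)) := by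
  have h1 : (SM R Y C m 0).IsLinear (SM R Y C m k) (itι i k (Am R m ⊗ Y)) := itι_linear _ i k
  have h2 := gsmul_comp (E := E) (SM R Y C m 0) (SM R Y C m k) h1 hn b (e0 e R m)
  have h3 : (Am R m ◁ (η[Am R m] ≫ (ρ_ (Am R m)).inv ≫ (Am R m ◁ e))) ≫ (SM R Y C m 0).act =
      Am R m ◁ e := by
    change _ ≫ (α_ (Am R m) (Am R m) Y).inv ≫ (μ[Am R m] ▷ Y) = _
    have h4 : η[Am R m] ≫ (ρ_ (Am R m)).inv ≫ (Am R m ◁ e) = e ≫ unitMap (Am R m) Y := by
      rw [unitMap, leftUnitor_inv_naturality_assoc, whisker_exchange,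
        rightUnitor_inv_naturality_assoc]
      simp [unitors_inv_equal]
    rw [h4, MonoidalCategory.whiskerLeft_comp, Category.assoc]
    have h5 := whiskerLeft_unitMap_mulMap (R := Am R m) Y
    rw [mulMap] at h5
    rw [h5, Category.comp_id]
  rw [h2, Category.assoc, itι_itA, gsmul, e0, ext_one, Category.assoc, Category.assoc,
    Category.assoc, reassoc_of% h3, MonoidalCategory.whiskerLeft_comp]

variable {i z t}

/-- **The bounding cochain.** -/
theorem wbd_cobdy {p : ℕ} (hp : p.Prime)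
    (hz : zv z 2 0 = zv z 2 1 + t ≫ (ρ_ (Am R 2)).inv ≫ (Am R 2 ◁ i))
    (ht : tv t 3 0 2 = tv t 3 0 1 + tv t 3 1 2) {n : ℤ} (b : E.S n ⟶ Am R 3)
    (hb : bb p (tv t 3 0 1) (tv t 3 1 2) = HRing.of E (Am R 3) n b) :
    wbd i e z t p n ≫ ∑ j : Fin 3, (-1 : ℤ) ^ (j : ℕ) •
        (Am.map R (Fin.succAbove j : Fin 2 → Fin 3) ▷ It C (p - 1) Y) =
      (((p - 1).factorial : ℕ) : ℤ) •
        (b ≫ (ρ_ (Am R 3)).inv ≫ (Am R 3 ◁ (e ≫ itι i (p - 1) Y))) := by
  have h1 := Wbd_cobdy (i := i) e (z := z) (t := t) hp hz ht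
  rw [hb] at h1
  have h2 := HN.of_smul (E := E) (SM R Y C 3 (p - 1)) (add_zero n) b
    (e0 e R 3 ≫ itι i (p - 1) (Am R 3 ⊗ Y))
  rw [h2] at h1
  -- the component
  let ev : HN E (SM R Y C 3 (p - 1)) →+ (E.S n ⟶ Am R 3 ⊗ It C (p - 1) Y) :=
    (AddMonoidHom.mk' (fun x : E.S n ⟶ It C (p - 1) (Am R 3 ⊗ Y) =>
      x ≫ (itA C (Am R 3) Y (p - 1)).hom) (fun x y => Preadditive.add_comp _ _ _ x y _)).comp
      (show HMod E (It C (p - 1) (Am R 3 ⊗ Y)) →+ (E.S n ⟶ It C (p - 1) (Am R 3 ⊗ Y)) from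
        DFinsupp.evalAddMonoidHom n)
  have h3 := congrArg ev h1
  rw [map_sum] at h3
  have h4 : ∀ j : Fin 3, ev (FS E R Y C (Fin.succAbove j : Fin 2 → Fin 3) (p - 1)
      (Wbd i e z t p)) = wbd i e z t p n ≫
        (Am.map R (Fin.succAbove j : Fin 2 → Fin 3) ▷ It C (p - 1) Y) := by
    intro j
    have h5 := hmap_apply (E := E) (Sf R Y C (Fin.succAbove j : Fin 2 → Fin 3) (p - 1)) n
      (Wbd i e z t p)
    refine (congrArg (fun f => f ≫ (itA C (Am R 3) Y (p - 1)).hom) h5).trans ?_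
    rw [wbd, Category.assoc, Category.assoc]
    congr 1
    exact itA_nat _ _ _
  rw [Preadditive.comp_sum]
  refine Eq.trans ?_ (h3.trans ?_)
  · refine Finset.sum_congr rfl fun j _ => ?_
    rw [map_zsmul, h4, Preadditive.comp_zsmul]
  · rw [map_zsmul]
    congr 1
    refine Eq.trans ?_ (gsmul_e0 i e 3 (p - 1) b (add_zero n))
    change (show HMod E (It C (p - 1) (Am R 3 ⊗ Y)) from HN.of (SM R Y C 3 (p - 1)) n _) n ≫ _ = _
    congr 1
    exact DirectSum.of_eq_same (β := E.Gr (It C (p - 1) (Am R 3 ⊗ Y))) n _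

end component

end Vale.Agent.P257.V4.T
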