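import Vale.Agent.P251.M.SpaceConn

/-!
# P257, part T (T2, stable level): maps `S X ⟶ 𝟙` represented by maps `X ⊗ Z ⟶ Z` of spaces
-/

open CategoryTheory MonoidalCategory Limits Pretriangulated
open Vale.Agent.P251.G Vale.Agent.P251.G.LC Vale.Agent.P251.M Vale.Agent.P251.T
  Vale.Agent.P251.I

universe v u

set_option linter.unusedSectionVars false

namespace Vale.Agent.P257.V4.T

variable {T : Type u} [Category.{v} T] [Preadditive T] [HasZeroObject T]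
    [HasShift T ℤ] [∀ n : ℤ, (shiftFunctor T n).Additive] [Pretriangulated T]
    [MonoidalCategory T] [SymmetricCategory T] [TensorTriangulated T]

section inv

/-- tensoring with an object `A`, `A ⊗ A' ≅ 𝟙`, is faithful on differences -/
theorem whiskerRight_inj_of_sph {X Y A : T} (n : ℤ) (e : A ≅ (𝟙_ T)⟦n⟧) {g h : X ⟶ Y}
    (H : g ▷ A = h ▷ A) : g = h := by
  have h1 : (g - h) ▷ ((𝟙_ T)⟦n⟧) = 0 := by
    have h2 := MonoidalCategory.whisker_exchange (g - h) e.hom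
    rw [show (g - h) ▷ A = g ▷ A - h ▷ A from (tensorRight A).map_sub, H, sub_self,
      zero_comp] at h2
    rw [← cancel_epi (X ◁ e.hom), h2, comp_zero]
  exact sub_eq_zero.1 (eq_zero_of_whiskerRight_shift _ n h1)

theorem whiskerRight_surj_of_sph {X Y A : T} (n : ℤ) (e : A ≅ (𝟙_ T)⟦n⟧)
    (g : X ⊗ A ⟶ Y ⊗ A) : ∃ h : X ⟶ Y, h ▷ A = g := by
  let A' : T := (𝟙_ T)⟦-n⟧
  have i : A ⊗ A' ≅ 𝟙_ T := whiskerRightIso e A' ≪≫
    tensorUnitShiftIso ((𝟙_ T)⟦n⟧) (-n) ≪≫ (shiftShiftNeg (𝟙_ T) n)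
  -- `- ⊗ (A ⊗ A')` is full
  have full1 : ∀ {U V : T} (k : U ⊗ (A ⊗ A') ⟶ V ⊗ (A ⊗ A')), ∃ h : U ⟶ V, h ▷ (A ⊗ A') = k := by
    intro U V k
    refine ⟨(ρ_ U).inv ≫ (U ◁ i.inv) ≫ k ≫ (V ◁ i.hom) ≫ (ρ_ V).hom, ?_⟩
    rw [← cancel_epi (U ◁ i.inv), whisker_exchange, ← cancel_mono (V ◁ i.hom)]
    simp
  -- cancel `A'`
  have inj' : ∀ {U V : T} {g h : U ⟶ V}, g ▷ A' = h ▷ A' → g = h := fun H =>
    whiskerRight_inj_of_sph (-n) (Iso.refl _) H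
  obtain ⟨h, hh⟩ := full1 ((α_ X A A').inv ≫ (g ▷ A') ≫ (α_ Y A A').hom)
  refine ⟨h, inj' ?_⟩
  rw [← cancel_epi (α_ X A A').inv, ← cancel_mono (α_ Y A A').hom]
  simpa using hh

end inv

variable (F : SpaceFunctor T)

/-- the map `b : S X ⟶ 𝟙` is represented by the map of spaces `f : X ⊗ Z ⟶ Z` -/
def IsCls {X Z : FCat} (b : F.S.obj X ⟶ 𝟙_ T) (f : X ⊗ Z ⟶ Z) : Prop :=
  Functor.LaxMonoidal.μ F.S X Z ≫ F.S.map f = (b ▷ F.S.obj Z) ≫ (λ_ (F.S.obj Z)).hom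

variable {F}

namespace IsCls

variable {X X' Z Z' : FCat} {b : F.S.obj X ⟶ 𝟙_ T} {b' : F.S.obj X' ⟶ 𝟙_ T} {f : X ⊗ Z ⟶ Z}

theorem pull (h : IsCls F b f) (g : X' ⟶ X) : IsCls F (F.S.map g ≫ b) ((g ▷ Z) ≫ f) := by
  unfold IsCls at *
  rw [Functor.map_comp, ← Functor.LaxMonoidal.μ_natural_left_assoc, h, comp_whiskerRight,
    Category.assoc]

theorem conj (h : IsCls F b f) (θ : Z ≅ Z') : IsCls F b ((X ◁ θ.inv) ≫ f ≫ θ.hom) := by
  unfold IsCls at *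
  rw [Functor.map_comp, Functor.map_comp, ← Functor.LaxMonoidal.μ_natural_right_assoc,
    reassoc_of% h, whisker_exchange_assoc]
  rw [leftUnitor_naturality_assoc, ← Functor.map_comp, θ.inv_hom_id]
  simp

theorem stabR (h : IsCls F b f) (Z' : FCat) : IsCls F b ((α_ X Z Z').inv ≫ (f ▷ Z')) := by
  unfold IsCls at *
  have h1 := Functor.LaxMonoidal.associativity_inv F.S X Z Z'
  rw [← cancel_epi (F.S.obj X ◁ Functor.LaxMonoidal.μ F.S Z Z'), Functor.map_comp]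
  rw [reassoc_of% h1, ← Functor.LaxMonoidal.μ_natural_left]
  rw [← comp_whiskerRight_assoc, h]
  rw [whisker_exchange_assoc, leftUnitor_naturality]
  simp only [comp_whiskerRight, Category.assoc, whiskerRight_tensor, leftUnitor_tensor_hom]
  simp only [Iso.hom_inv_id_assoc]

theorem comp (h : IsCls F b f) {f' : X' ⊗ Z ⟶ Z} (h' : IsCls F b' f') :
    IsCls F (Functor.OplaxMonoidal.δ F.S X X' ≫ (b ▷ _) ≫ (λ_ _).hom ≫ b')
      ((α_ X X' Z).hom ≫ (X ◁ f') ≫ f) := by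
  unfold IsCls at *
  have h1 := Functor.LaxMonoidal.associativity F.S X X' Z
  rw [← cancel_epi (Functor.LaxMonoidal.μ F.S X X' ▷ F.S.obj Z), Functor.map_comp,
    Functor.map_comp]
  rw [reassoc_of% h1, ← Functor.LaxMonoidal.μ_natural_right_assoc, h]
  rw [← whiskerLeft_comp_assoc, h']
  rw [← comp_whiskerRight_assoc, Functor.Monoidal.μ_δ_assoc]
  simp only [whiskerLeft_comp, comp_whiskerRight, Category.assoc, leftUnitor_whiskerRight]
  rw [whisker_exchange_assoc, whisker_exchange_assoc]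
  simp only [Category.assoc, whiskerRight_tensor, Iso.hom_inv_id_assoc, leftUnitor_naturality,
    leftUnitor_naturality_assoc]

theorem unique {b₁ b₂ : F.S.obj X ⟶ 𝟙_ T} (n : ℤ) (e : F.S.obj Z ≅ (𝟙_ T)⟦n⟧)
    (h₁ : IsCls F b₁ f) (h₂ : IsCls F b₂ f) : b₁ = b₂ := by
  refine whiskerRight_inj_of_sph n e ?_
  rw [← cancel_mono (λ_ (F.S.obj Z)).hom, ← h₁, ← h₂]

end IsCls

theorem exists_isCls {X Z : FCat} (f : X ⊗ Z ⟶ Z) (n : ℤ) (e : F.S.obj Z ≅ (𝟙_ T)⟦n⟧) :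
    ∃ b : F.S.obj X ⟶ 𝟙_ T, IsCls F b f := by
  obtain ⟨b, hb⟩ := whiskerRight_surj_of_sph n e
    (Functor.LaxMonoidal.μ F.S X Z ≫ F.S.map f ≫ (λ_ (F.S.obj Z)).inv)
  refine ⟨b, ?_⟩
  unfold IsCls
  rw [hb, Category.assoc, Category.assoc, Iso.inv_hom_id, Category.comp_id]

/-- every map `S X ⟶ 𝟙` is represented on a sphere -/
theorem exists_rep {X : FCat} (b : F.S.obj X ⟶ 𝟙_ T) :
    ∃ (n : ℕ) (f : X ⊗ SphF n ⟶ SphF n), IsCls F b f := by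
  obtain ⟨n, h, hh⟩ := F.full (X := X) (Y := 𝟙_ FCat) (b ≫ Functor.LaxMonoidal.ε F.S)
  refine ⟨n, h ≫ (λ_ (SphF n)).hom, ?_⟩
  unfold IsCls
  rw [Functor.map_comp, hh]
  rw [Functor.LaxMonoidal.left_unitality]
  simp only [Functor.Monoidal.μIso_inv, Functor.Monoidal.μIso_hom, Category.assoc,
    Functor.Monoidal.μ_δ_assoc, comp_whiskerRight]

end Vale.Agent.P257.V4.T
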