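import Vale.Agent.P257.V4.T.Dict
import Vale.Agent.P251.Q.GoodBase
import Vale.Agent.P251.Q.LineCls
import Vale.Agent.P241.H588.Sqz
import Vale.Agent.P251.M.Strict

/-!
# P257, block T: the dual basis of a Thom space over a projective space

`K` an oriented commutative monoid, `V` a bundle over `CP (Fin N)`, `U` its Thom class. The
identity of `Σ (tot V)` in the category of free `K`-modules is `∑ i, (z ^ i U) ≫ b i`.
-/

open CategoryTheory MonoidalCategory Limits Pretriangulated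
open Vale.Agent.P251.G Vale.Agent.P251.G.LC Vale.Agent.P251.I Vale.Agent.P251.T
open Vale.Agent.P251.M Vale.Agent.P251.S Vale.Agent.P251.M.EvenSpheres Vale.Agent.P251.Q
open Vale.Agent.P251.Q.MultTheory Vale.Agent.P241.H588

universe v u

set_option linter.unusedSectionVars false
set_option linter.style.haveILetI false

noncomputable section

namespace Vale.Agent.P257.V4.T

/-! ### Homogeneous coefficients in a theory -/

section theory

variable {E : MultTheory.{v}} (o : Orientation E) {N : ℕ} {L : Type} [Fintype L] {m : ℕ}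
  (V : Bun (CP (Fin N) : LC) L) (hV : V.IsRank m)

theorem good_tot_CP (V : Bun (CP (Fin N) : LC) L) (hV : V.IsRank m) : E.Good V.tot :=
  ⟨E.good_of_FC (CellSp.fc_tot V hV)⟩

/-- the class `z ^ i U` -/
def zU (i : ℕ) : E.U V.tot := o.phi V hV (o.z (Fin N) ^ i)

theorem z_pow_deg (i : ℕ) : o.z (Fin N) ^ i ∈ E.deg (CP (Fin N)) i := by
  have h := pow_deg (z_deg o (Fin N)) i
  rwa [mul_one] at h

theorem zU_deg (i : ℕ) : zU o V hV i ∈ E.deg V.tot ((i : ℤ) + m) := by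
  haveI := good_tot_CP (E := E) V hV
  exact phi_deg o V hV (z_pow_deg o i)

theorem exists_coef (u : E.U V.tot) (n : ℤ) (hu : u ∈ E.deg V.tot n) :
    ∃ c : Fin N → E.A, (∀ i : Fin N, c i ∈ E.degA (n - (((i : ℕ) : ℤ) + m))) ∧
      u = ∑ i, c i • zU o V hV i := by
  haveI := good_tot_CP (E := E) V hV
  obtain ⟨t, ht⟩ := (phi_bijective o V hV).2 u
  obtain ⟨c, hc⟩ := (freeOn_z o N (Fin N) (Fintype.card_fin N)).bijective_smul.2 t
  have ht' : t ∈ E.deg (CP (Fin N)) (n - m) := by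
    refine mem_deg_of_injective (f := o.phi V hV) (m := (m : ℤ))
      (fun k x hx => phi_deg o V hV hx) (phi_bijective o V hV).1 ?_
    rw [ht]
    rwa [sub_add_cancel]
  refine ⟨fun i => E.toA (E.proj (𝟙_ LC) (n - (((i : ℕ) : ℤ) + m)) (E.ofA (c i))),
    fun i => proj_mem _ _, ?_⟩
  have h1 : t = ∑ i : Fin N, (E.toA (E.proj (𝟙_ LC) (n - (((i : ℕ) : ℤ) + m)) (E.ofA (c i)))) •
      o.z (Fin N) ^ (i : ℕ) := by
    rw [← proj_of_mem ht', ← hc]
    change E.proj _ _ (∑ i, c i • o.z (Fin N) ^ (i : ℕ)) = _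
    rw [map_sum]
    refine Finset.sum_congr rfl fun i _ => ?_
    have h2 := map_proj_of_deg (E := E) (X := 𝟙_ LC) (Y := CP (Fin N))
      (f := ((smulAddHom E.A (E.U (CP (Fin N)))).flip (o.z (Fin N) ^ (i : ℕ)) :
        E.A →+ E.U (CP (Fin N)))) (m := ((i : ℕ) : ℤ))
      (fun k x hx => smul_deg (E := E) (X := CP (Fin N)) (a := E.toA x) hx (z_pow_deg o i))
      (n - (((i : ℕ) : ℤ) + m)) (E.ofA (c i))
    have h3 : n - (((i : ℕ) : ℤ) + m) + ((i : ℕ) : ℤ) = n - m := by ring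
    rw [h3] at h2
    exact h2
  rw [← ht, h1, map_sum]
  refine Finset.sum_congr rfl fun i _ => ?_
  rw [phi_smul]
  rfl

theorem coef_unique {c c' : Fin N → E.A}
    (h : ∑ i, c i • zU o V hV i = ∑ i, c' i • zU o V hV i) : c = c' := by
  haveI := good_tot_CP (E := E) V hV
  apply (freeOn_z o N (Fin N) (Fintype.card_fin N)).bijective_smul.1
  apply (phi_bijective o V hV).1
  change o.phi V hV (∑ i, c i • o.z (Fin N) ^ (i : ℕ)) =
    o.phi V hV (∑ i, c' i • o.z (Fin N) ^ (i : ℕ))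
  rw [map_sum, map_sum]
  have h1 : ∀ c : Fin N → E.A, ∑ i, o.phi V hV (c i • o.z (Fin N) ^ (i : ℕ)) =
      ∑ i, c i • zU o V hV i := fun c => Finset.sum_congr rfl fun i _ => by
    rw [phi_smul]; rfl
  rw [h1, h1, h]

theorem push_phi {E E' : MultTheory.{v}} (φ : MultTheory.Hom E E') (o : Orientation E)
    {Z : LC} [E.Good Z] {L : Type} [Fintype L] {m : ℕ} (V : Bun Z L) [E.Good V.tot]
    (hV : V.IsRank m) (u : E.U Z) :
    (φ.push o).phi V hV (φ.app Z u) = φ.app V.tot (o.phi V hV u) := by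
  haveI := o.goodTh m L
  rw [phi_apply, phi_apply, φ.app_map, φ.app_cross]
  rfl

theorem push_zU {E E' : MultTheory.{v}} (φ : MultTheory.Hom E E') (o : Orientation E)
    {N : ℕ} {L : Type} [Fintype L] {m : ℕ} (V : Bun (CP (Fin N) : LC) L) (hV : V.IsRank m)
    (i : ℕ) : zU (φ.push o) V hV i = φ.app V.tot (zU o V hV i) := by
  haveI := good_tot_CP (E := E) V hV
  rw [zU, zU, ← push_phi, push_z]
  congr 1
  exact (map_pow (φ.mapU (CP (Fin N))) (o.z (Fin N)) i).symm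

end theory

/-! ### The dual basis -/

section sqz

open MonObj

variable {T : Type u} [Category.{v} T] [Preadditive T] [MonoidalCategory T]
  [SymmetricCategory T] [MonoidalPreadditive T] [HasBinaryBiproducts T] {K Z : T} [MonObj K]
  [IsCommMonObj K] (M : ModStr K Z)

theorem inl_bind_snd {X W : T} (g : X ⟶ Sqz M ⊗ W) :
    Sqz.inl M ▷ X ≫ FM.bind g ≫ Sqz.snd M ▷ W =
      K ◁ (g ≫ Sqz.snd M ▷ W) ≫ (α_ K Z W).inv ≫ M.act ▷ W := by
  have h1 : Sqz.inl M ▷ Sqz M ≫ μ[Sqz M] ≫ Sqz.snd M = K ◁ Sqz.snd M ≫ M.act := by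
    rw [Sqz.mul_def, Sqz.mu_snd, Preadditive.comp_add, ← Category.assoc, Sqz.wr_tensor,
      ← Category.assoc (Sqz.inl M ▷ Sqz M), Sqz.wr_tensor, Sqz.inl_fst, Sqz.inl_snd,
      MonoidalPreadditive.zero_tensor, zero_comp, add_zero, id_tensorHom]
  rw [FM.bind, Category.assoc, Category.assoc, ← whisker_exchange_assoc,
    associator_inv_naturality_left_assoc, ← comp_whiskerRight, ← comp_whiskerRight, h1,
    comp_whiskerRight, MonoidalCategory.whiskerLeft_comp, Category.assoc,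
    associator_inv_naturality_middle_assoc]

theorem act_unit_aux {W : T} (z : W ⟶ 𝟙_ T) :
    (α_ K Z W).inv ≫ M.act ▷ W ≫ Z ◁ z ≫ (ρ_ Z).hom = K ◁ (Z ◁ z ≫ (ρ_ Z).hom) ≫ M.act := by
  rw [← whisker_exchange_assoc, rightUnitor_naturality, ← associator_inv_naturality_right_assoc,
    MonoidalCategory.whiskerLeft_comp, Category.assoc]
  congr 1
  rw [← Category.assoc]
  congr 1
  simp

end sqz

section dual

open MonObj

variable {T : Type u} [Category.{v} T] [Preadditive T] [HasZeroObject T]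
    [HasShift T ℤ] [∀ n : ℤ, (shiftFunctor T n).Additive] [Pretriangulated T] [IsTriangulated T]
    [MonoidalCategory T] [SymmetricCategory T] [TensorTriangulated T] [MonoidalClosed T]
    [HasCoproducts.{0} T] [HasProducts.{0} T] [StableCat T]
  {S : EvenSpheres T} {F : SpaceFunctor T} {e : F.S.obj CCF ≅ S.L}
  {K : T} [MonObj K] [IsCommMonObj K] (o : Orientation (thK e K)) {N : ℕ} {L : Type} [Fintype L]
  {m : ℕ} (V : Bun (CP (Fin N) : LC) L) (hV : V.IsRank m)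

theorem hom_sum {A B : T} {J : Type} (s : Finset J)
    (f : J → (FM.of (R := K) A ⟶ FM.of (R := K) B)) :
    FM.Hom.hom (R := K) (X := FM.of (R := K) A) (Y := FM.of (R := K) B) (∑ j ∈ s, f j) =
      ∑ j ∈ s, FM.Hom.hom (R := K) (X := FM.of (R := K) A) (Y := FM.of (R := K) B) (f j) := by
  classical
  induction s using Finset.induction_on with
  | empty => rw [Finset.sum_empty, Finset.sum_empty, FM.zero_hom]
  | insert a s ha ih => rw [Finset.sum_insert ha, Finset.sum_insert ha, FM.add_hom, ih]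

/-- the projection to the module part of a linear combination -/
theorem term_aux [HasBinaryBiproducts T] {A B : T} {i q : ℤ} (h : i + 0 = q)
    (f : FM.of (R := K) B ⟶ FM.of (S.S q))
    (α : S.S i ⟶ Sqz ((regMod K).tensorRight A)) :
    FM.Hom.hom (R := Sqz ((regMod K).tensorRight A)) (X := FM.of B) (Y := FM.of (S.S 0))
      (pu (Sqz.inl ((regMod K).tensorRight A)) f ≫ mulS h α) ≫
        Sqz.snd ((regMod K).tensorRight A) ▷ S.S 0 ≫ (K ⊗ A) ◁ S.zero.inv ≫ (ρ_ (K ⊗ A)).hom =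
      FM.Hom.hom (R := K) (X := FM.of B) (Y := FM.of A) (f ≫ (⟨(S.mu i 0 q h).inv ≫
        ((α ≫ Sqz.snd ((regMod K).tensorRight A)) ▷ S.S 0) ≫ (K ⊗ A) ◁ S.zero.inv ≫
          (ρ_ (K ⊗ A)).hom⟩ : FM.of (R := K) (S.S q) ⟶ FM.of A)) := by
  change ((FM.Hom.hom (R := K) (X := FM.of B) (Y := FM.of (S.S q)) f ≫
      Sqz.inl ((regMod K).tensorRight A) ▷ S.S q) ≫
        FM.bind ((S.mu i 0 q h).inv ≫ α ▷ S.S 0)) ≫ _ =
    FM.Hom.hom (R := K) (X := FM.of B) (Y := FM.of (S.S q)) f ≫ FM.bind (R := K)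
      ((S.mu i 0 q h).inv ≫ ((α ≫ Sqz.snd ((regMod K).tensorRight A)) ▷ S.S 0) ≫
        (K ⊗ A) ◁ S.zero.inv ≫ (ρ_ (K ⊗ A)).hom)
  have h1 : FM.bind (R := K) (Y := S.S q) (Z := A)
      ((S.mu i 0 q h).inv ≫ ((α ≫ Sqz.snd ((regMod K).tensorRight A)) ▷ S.S 0) ≫
        (K ⊗ A) ◁ S.zero.inv ≫ (ρ_ (K ⊗ A)).hom) =
      K ◁ ((S.mu i 0 q h).inv ≫ ((α ≫ Sqz.snd ((regMod K).tensorRight A)) ▷ S.S 0) ≫
        (K ⊗ A) ◁ S.zero.inv ≫ (ρ_ (K ⊗ A)).hom) ≫ ((regMod K).tensorRight A).act := rfl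
  rw [h1]
  simp only [Category.assoc]
  rw [reassoc_of% (inl_bind_snd ((regMod K).tensorRight A)), act_unit_aux]
  simp only [MonoidalCategory.whiskerLeft_comp, comp_whiskerRight, Category.assoc]

/-- The total space of a bundle over a projective space. -/
abbrev totF : FCat := ⟨V.tot, CellSp.fc_tot V hV⟩

theorem exists_dual
    (f : ∀ i : Fin N, FM.of (R := K) (F.S.obj (totF V hV)) ⟶ FM.of (S.S (((i : ℕ) : ℤ) + m)))
    (hf : ∀ i : Fin N, IsC e (totF V hV) _ (zU o V hV i) (f i)) :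
    ∃ b : ∀ i : Fin N, FM.of (R := K) (S.S (((i : ℕ) : ℤ) + m)) ⟶
      FM.of (F.S.obj (totF V hV)), ∑ i, f i ≫ b i = 𝟙 _ := by
  haveI : HasBinaryBiproducts T := HasBinaryBiproducts.of_hasBinaryCoproducts
  let M : ModStr K (K ⊗ F.S.obj (totF V hV)) := (regMod K).tensorRight (F.S.obj (totF V hV))
  let φ := thKHom e (Sqz.inl M)
  let f0 : FM.of (R := Sqz M) (F.S.obj (totF V hV)) ⟶ FM.of (S.S 0) :=
    ⟨FM.unit K (F.S.obj (totF V hV)) ≫ Sqz.inr M ≫ (ρ_ (Sqz M)).inv ≫ Sqz M ◁ S.zero.hom⟩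
  obtain ⟨u, hu, hu'⟩ := exists_cls (e := e) (X := totF V hV) f0
  obtain ⟨c, hc, hcu⟩ := exists_coef (φ.push o) V hV u 0 hu
  have hα : ∀ i : Fin N, ∃ α : S.S (((i : ℕ) : ℤ) + m) ⟶ Sqz M,
      coefK e (Sqz M) (c i) = HRing.of S (Sqz M) (((i : ℕ) : ℤ) + m) α := fun i => by
    obtain ⟨x, hx⟩ := coeffHom_deg (cofTriangles F) (isSusp_lineCls e (SeqMonoid.const (Sqz M)))
      (hc i)
    have hk : ((i : ℕ) : ℤ) + m = -(0 - (((i : ℕ) : ℤ) + m)) := by ring
    exact ⟨(S.castIso _ _ hk).hom ≫ x, hx.trans (of_cast hk x).symm⟩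
  choose α hα using hα
  have hs : IsC e (totF V hV) 0 u (∑ i, pu (Sqz.inl M) (f i) ≫ mulS (add_zero _) (α i)) := by
    rw [hcu]
    refine IsC.sum _ fun i _ => ?_
    refine IsC.smul (add_zero _) (hα i) ?_
    rw [push_zU]
    exact (hf i).push (Sqz.inl M)
  have h0 := congrArg (fun t => FM.Hom.hom (R := Sqz M) (X := FM.of (R := Sqz M) (F.S.obj (totF V hV)))
    (Y := FM.of (S.S 0)) t ≫ Sqz.snd M ▷ S.S 0 ≫ (K ⊗ F.S.obj (totF V hV)) ◁ S.zero.inv ≫ (ρ_ (K ⊗ F.S.obj (totF V hV))).hom)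
    (hu'.unique hs)
  refine ⟨fun i => ⟨(S.mu (((i : ℕ) : ℤ) + m) 0 (((i : ℕ) : ℤ) + m) (add_zero _)).inv ≫ ((α i ≫ Sqz.snd M) ▷ S.S 0) ≫
    (K ⊗ F.S.obj (totF V hV)) ◁ S.zero.inv ≫ (ρ_ (K ⊗ F.S.obj (totF V hV))).hom⟩, ?_⟩
  apply FM.hom_ext
  rw [hom_sum] at h0 ⊢
  rw [Preadditive.sum_comp] at h0
  refine (Finset.sum_congr rfl fun i _ => (term_aux (add_zero _) (f i) (α i)).symm).trans
    (h0.symm.trans ?_)
  change (FM.unit K _ ≫ Sqz.inr M ≫ (ρ_ (Sqz M)).inv ≫ Sqz M ◁ S.zero.hom) ≫ _ = FM.unit K _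
  simp only [Category.assoc]
  rw [whisker_exchange_assoc, ← MonoidalCategory.whiskerLeft_comp_assoc, Iso.hom_inv_id,
    MonoidalCategory.whiskerLeft_id, Category.id_comp, rightUnitor_naturality,
    Iso.inv_hom_id_assoc, Sqz.inr_snd, Category.comp_id]

theorem mulS_of_one {i k : ℤ} (h : i + k = k) (hi : i = 0) (c : S.S i ⟶ K)
    (hc : HRing.of S K i c = 1) : mulS h c = 𝟙 _ := by
  subst hi
  have h1 : c = S.zero.inv ≫ η[K] := DirectSum.of_injective (β := S.Gr K) _ (hc.trans of_one.symm)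
  rw [h1, mulS_one]

theorem dual_orth
    (f : ∀ i : Fin N, FM.of (R := K) (F.S.obj (totF V hV)) ⟶ FM.of (S.S (((i : ℕ) : ℤ) + m)))
    (hf : ∀ i : Fin N, IsC e (totF V hV) _ (zU o V hV i) (f i))
    (b : ∀ i : Fin N, FM.of (R := K) (S.S (((i : ℕ) : ℤ) + m)) ⟶
      FM.of (F.S.obj (totF V hV))) (hb : ∑ i, f i ≫ b i = 𝟙 _) :
    (∀ j, b j ≫ f j = 𝟙 _) ∧ ∀ i j, i ≠ j → b i ≫ f j = 0 := by
  have key : ∀ j : Fin N, ∃ c : ∀ i : Fin N, S.S (((i : ℕ) : ℤ) - ((j : ℕ) : ℤ)) ⟶ K,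
      (∀ i : Fin N, b i ≫ f j = mulS (by ring) (c i)) ∧
        ∀ i : Fin N, HRing.of S K (((i : ℕ) : ℤ) - ((j : ℕ) : ℤ)) (c i) =
          if i = j then 1 else 0 := by
    intro j
    have h1 : ∀ i : Fin N, (((i : ℕ) : ℤ) - ((j : ℕ) : ℤ)) + (((j : ℕ) : ℤ) + m) =
      ((i : ℕ) : ℤ) + m := fun i => by ring
    choose c hc using fun i => (mulS_bijective (S := S) (K := K) (h1 i)).2 (b i ≫ f j)
    choose a ha using fun i : Fin N => (coefK_bijective e K).2
      (HRing.of S K (((i : ℕ) : ℤ) - ((j : ℕ) : ℤ)) (c i))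
    have h2 : IsC e (totF V hV) (((j : ℕ) : ℤ) + m) (∑ i, a i • zU o V hV i)
        (∑ i, f i ≫ b i ≫ f j) := by
      refine IsC.sum _ fun i _ => ?_
      rw [← hc i]
      exact IsC.smul (h1 i) (ha i) (hf i)
    have h3 : ∑ i, f i ≫ b i ≫ f j = f j := by
      have h4 := congrArg (· ≫ f j) hb
      simp only [Preadditive.sum_comp, Category.assoc, Category.id_comp] at h4
      exact h4
    rw [h3] at h2
    have h4 : ∑ i, a i • zU o V hV i =
        ∑ i, (if i = j then (1 : (thK e K).A) else 0) • zU o V hV i := by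
      rw [h2.inj (hf j)]
      simp
    have h5 := coef_unique o V hV h4
    refine ⟨c, fun i => (hc i).symm, fun i => ?_⟩
    rw [← ha i, congrFun h5 i]
    split_ifs <;> simp
  constructor
  · intro j
    obtain ⟨c, h1, h2⟩ := key j
    have h3 := h2 j
    rw [if_pos rfl] at h3
    rw [h1]
    exact mulS_of_one _ (sub_self _) _ h3
  · intro i j hij
    obtain ⟨c, h1, h2⟩ := key j
    have h3 := h2 i
    rw [if_neg hij] at h3
    have h4 : c i = 0 := DirectSum.of_injective (β := S.Gr K) _ (h3.trans (map_zero _).symm)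
    rw [h1, h4, mulS_zero]

end dual

end Vale.Agent.P257.V4.T
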