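import Vale.Agent.P257.V4.T.CmpRho
import Vale.Agent.P257.V4.T.Dual

/-!
# P257, block T: expansion of the classes `z' ^ j U'` modulo `p`
-/

set_option linter.unusedSectionVars false
set_option linter.style.haveILetI false

open CategoryTheory MonoidalCategory OnePoint Topology Matrix
open Vale.Agent.P251.G Vale.Agent.P251.G.LC Vale.Agent.P251.G.Bun

universe v

noncomputable section

namespace Vale.Agent.P257.V4.T

open Vale.Agent.P251.Q Vale.Agent.P251.Q.MultTheory Vale.Agent.P251.M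
open Vale.Agent.P217 Vale.Agent.P251.F Vale.Agent.P241.H588

variable {E : MultTheory.{v}} (o o' : Orientation E) {p : ℕ} [hp : Fact p.Prime]

theorem cc_zero : cc o o' 0 = 1 := CPSys.Coord.cmp_mem_strict _ _ (z_one_eq o' o)

theorem exists_z_eq (hc : ∀ i, 0 < i → i < p - 1 → ∃ a : E.A, cc o o' i = p • a) :
    ∃ w : E.U (CP (Fin p)), o'.z (Fin p) = o.z (Fin p) + (p : E.U (CP (Fin p))) * w := by
  obtain ⟨n, rfl⟩ : ∃ n, p = n + 1 + 1 := Nat.exists_eq_add_of_le' hp.out.two_le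
  have h2 : ∀ i : Fin n, ∃ a : E.A, cc o o' ((i : ℕ) + 1) = (n + 1 + 1) • a := fun i =>
    hc ((i : ℕ) + 1) (Nat.succ_pos _) (by have := i.2; omega)
  choose a ha using h2
  refine ⟨∑ i : Fin n, a i • o.z (Fin (n + 1 + 1)) ^ ((i : ℕ) + 1 + 1), ?_⟩
  rw [z_eq_sum_cc o o' (n + 1), Fin.sum_univ_succ, Finset.mul_sum]
  congr 1
  · rw [Fin.val_zero, cc_zero, one_smul, zero_add, pow_one]
  · refine Finset.sum_congr rfl fun i _ => ?_
    rw [Fin.val_succ, ha, smul_assoc, nsmul_eq_mul]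

theorem exists_z_pow_eq (hc : ∀ i, 0 < i → i < p - 1 → ∃ a : E.A, cc o o' i = p • a) (j : ℕ) :
    ∃ w : E.U (CP (Fin p)), o'.z (Fin p) ^ j = o.z (Fin p) ^ j + (p : E.U (CP (Fin p))) * w := by
  obtain ⟨w, hw⟩ := exists_z_eq o o' hc
  obtain ⟨t, ht⟩ := sub_dvd_pow_sub_pow (o'.z (Fin p)) (o.z (Fin p)) j
  refine ⟨w * t, ?_⟩
  rw [sub_eq_iff_eq_add'] at ht
  rw [ht, hw]
  ring

theorem cmpU_mul_z_pow (hc : ∀ i, 0 < i → i < p - 1 → ∃ a : E.A, cc o o' i = p • a)
    (K : Type) [Fintype K] [DecidableEq K] {m : ℕ} (hK : (kRho p (Fin p) K).IsRank m) (j : ℕ) :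
    ∃ y : E.U (CP (Fin p)),
      cmpU o o' (B := CP (Fin p)) (kRho p (Fin p) K) hK * o'.z (Fin p) ^ j =
        o.z (Fin p) ^ j + (if j = 0 then ((Fintype.card K * (p - 1) : ℕ) : E.U (CP (Fin p))) *
          (cc o o' (p - 1) • o.z (Fin p) ^ (p - 1)) else 0) + (p : E.U (CP (Fin p))) * y := by
  obtain ⟨y, hy⟩ := cmpU_kRho o o' hc K hK
  obtain ⟨w, hw⟩ := exists_z_pow_eq o o' hc j
  by_cases hj : j = 0
  · subst hj
    refine ⟨y, ?_⟩
    rw [if_pos rfl, pow_zero, pow_zero, mul_one, hy]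
  · have h1 : (cc o o' (p - 1) • o.z (Fin p) ^ (p - 1)) * o.z (Fin p) ^ j = 0 := by
      rw [smul_mul_assoc, ← pow_add]
      have h2 : p ≤ p - 1 + j := by omega
      rw [pow_eq_zero_of_le h2 (z_pow_eq_zero o p (Fin p) (by simp)), smul_zero]
    refine ⟨w + ((Fintype.card K * (p - 1) : ℕ) : E.U (CP (Fin p))) *
      (cc o o' (p - 1) • o.z (Fin p) ^ (p - 1)) * w + y * o'.z (Fin p) ^ j, ?_⟩
    rw [if_neg hj, hy, hw]
    have h3 : ∀ a b c d e f : E.U (CP (Fin p)), a * b = 0 → (1 + c * a + d * e) * (b + d * f) =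
        b + 0 + d * (f + c * a * f + e * (b + d * f)) := by
      intro a b c d e f hab
      linear_combination c * hab
    exact h3 _ _ _ _ _ _ h1

/-- **The expansion of `z' ^ j U'`.** -/
theorem zU_expansion (hc : ∀ i, 0 < i → i < p - 1 → ∃ a : E.A, cc o o' i = p • a)
    (K : Type) [Fintype K] [DecidableEq K] {m : ℕ} (hK : (kRho p (Fin p) K).IsRank m)
    (j : Fin p) :
    ∃ y : Fin p → E.A, zU o' (kRho p (Fin p) K) hK j =
      ∑ i : Fin p, ((if i = j then (1 : E.A) else 0) + (if (j : ℕ) = 0 ∧ (i : ℕ) = p - 1 then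
        (Fintype.card K * (p - 1) : ℕ) • cc o o' (p - 1) else 0) + p • y i) •
          zU o (kRho p (Fin p) K) hK i := by
  haveI := good_tot_CP (E := E) (kRho p (Fin p) K) hK
  obtain ⟨t, ht⟩ := cmpU_mul_z_pow o o' hc K hK (j : ℕ)
  obtain ⟨y, hy⟩ := (freeOn_z o p (Fin p) (Fintype.card_fin p)).bijective_smul.2 t
  refine ⟨y, ?_⟩
  have hy' : t = ∑ i : Fin p, y i • o.z (Fin p) ^ (i : ℕ) := hy.symm
  have h1 : zU o' (kRho p (Fin p) K) hK j = o.phi (kRho p (Fin p) K) hK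
      (cmpU o o' (B := CP (Fin p)) (kRho p (Fin p) K) hK * o'.z (Fin p) ^ (j : ℕ)) :=
    phi_cmp o o' (B := CP (Fin p)) (kRho p (Fin p) K) hK _
  have h2 : ∀ c : Fin p → E.A, ∑ i, c i • zU o (kRho p (Fin p) K) hK i =
      o.phi (kRho p (Fin p) K) hK (∑ i, c i • o.z (Fin p) ^ (i : ℕ)) := fun c => by
    rw [map_sum]
    exact Finset.sum_congr rfl fun i _ => by rw [phi_smul]; rfl
  rw [h1, h2, ht]
  congr 1
  simp only [add_smul, Finset.sum_add_distrib]
  congr 1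
  · congr 1
    · simp only [ite_smul, one_smul, zero_smul]
      rw [Finset.sum_ite_eq' Finset.univ j]
      simp
    · by_cases hj : (j : ℕ) = 0
      · rw [if_pos hj]
        have h3 : ∀ i : Fin p, ((j : ℕ) = 0 ∧ (i : ℕ) = p - 1) ↔
            i = ⟨p - 1, Nat.sub_lt hp.out.pos one_pos⟩ := fun i => by
          rw [Fin.ext_iff]
          exact ⟨fun h => h.2, fun h => ⟨hj, h⟩⟩
        simp only [h3, ite_smul, zero_smul]
        rw [Finset.sum_ite_eq' Finset.univ]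
        simp only [Finset.mem_univ, if_true]
        rw [smul_assoc, nsmul_eq_mul]
      · rw [if_neg hj]
        symm
        refine Finset.sum_eq_zero fun i _ => ?_
        rw [if_neg fun h => hj h.1, zero_smul]
  · rw [hy', Finset.mul_sum]
    refine Finset.sum_congr rfl fun i _ => ?_
    rw [smul_assoc, nsmul_eq_mul]

end Vale.Agent.P257.V4.T
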