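import Vale.Agent.P251.M.BGlueC
import Vale.Agent.P251.M.LimTheory

/-!
# P257, block T: classes of spaces as morphisms of free modules

For a commutative monoid `K` of `T`, the homogeneous classes of degree `k` of the theory `thK e K`
on a finite cell space `X` are the morphisms `Σ X ⟶ S (k)` of the category `FM K` of free
`K`-modules: `IsC e X k u f`.
-/

open CategoryTheory MonoidalCategory Limits Pretriangulated MonObj
open Vale.Agent.P251.G Vale.Agent.P251.G.LC Vale.Agent.P251.I Vale.Agent.P251.T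
open Vale.Agent.P251.M Vale.Agent.P251.S Vale.Agent.P251.M.EvenSpheres

universe v u

set_option linter.unusedSectionVars false

noncomputable section

namespace Vale.Agent.P257.V4.T

variable {T : Type u} [Category.{v} T] [Preadditive T] [HasZeroObject T]
    [HasShift T ℤ] [∀ n : ℤ, (shiftFunctor T n).Additive] [Pretriangulated T] [IsTriangulated T]
    [MonoidalCategory T] [SymmetricCategory T] [TensorTriangulated T] [MonoidalClosed T]
    [HasCoproducts.{0} T] [HasProducts.{0} T] [StableCat T]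
  {S : EvenSpheres T} {F : SpaceFunctor T} (e : F.S.obj CCF ≅ S.L)
  {K : T} [MonObj K] [IsCommMonObj K]

/-- `f` is the class `u` (of degree `k`). -/
def IsC (X : FCat) (k : ℤ) (u : (thK e K).U X.obj)
    (f : FM.of (R := K) (F.S.obj X) ⟶ FM.of (S.S k)) : Prop :=
  tU e K X u = FM.Hom.hom f ≫ K ◁ S.inPS k

variable {e} {X Y : FCat} {k : ℤ}

theorem exists_isC {u : (thK e K).U X.obj} (hu : u ∈ (thK e K).deg X.obj k) :
    ∃ f, IsC e X k u f := by
  obtain ⟨a, ha⟩ := hu X.property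
  refine ⟨⟨hq K S k _ a⟩, ?_⟩
  change tK K (F.S.obj X) (uev X.property u) = _
  rw [← ha]
  exact tK_tof k a

theorem exists_cls (f : FM.of (R := K) (F.S.obj X) ⟶ FM.of (S.S k)) :
    ∃ u ∈ (thK e K).deg X.obj k, IsC e X k u f := by
  obtain ⟨a, ha⟩ := (hq_bijective (R := K) (S := S) k (F.S.obj X)).2 (FM.Hom.hom f)
  refine ⟨umk X.property ((RSys K S).tof _ k a), fun _ => ⟨a, rfl⟩, ?_⟩
  change tK K (F.S.obj X) ((RSys K S).tof _ k a) = _
  rw [tK_tof, ha]

theorem IsC.unique {u : (thK e K).U X.obj} {f g : FM.of (R := K) (F.S.obj X) ⟶ FM.of (S.S k)}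
    (hf : IsC e X k u f) (hg : IsC e X k u g) : f = g :=
  FM.hom_ext (cancel_inPS (hf.symm.trans hg))

theorem tU_injective : Function.Injective (tU e K X) := fun _ _ h =>
  uev_inj X.property (tK_injective (isCpt_space F (cofTriangles F) X.property) h)

theorem IsC.inj {u u' : (thK e K).U X.obj} {f : FM.of (R := K) (F.S.obj X) ⟶ FM.of (S.S k)}
    (hf : IsC e X k u f) (hg : IsC e X k u' f) : u = u' :=
  tU_injective (hf.trans hg.symm)

theorem IsC.map {u : (thK e K).U Y.obj} {f : FM.of (R := K) (F.S.obj Y) ⟶ FM.of (S.S k)}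
    (hf : IsC e Y k u f) (g : X ⟶ Y) :
    IsC e X k ((thK e K).map g.hom u) ((FM.free K).map (F.S.map g) ≫ f) := by
  unfold IsC at hf ⊢
  rw [tU_map, hf, ← Category.assoc]
  exact congrArg (· ≫ K ◁ S.inPS k) (FM.free_map_comp_hom (F.S.map g) f).symm

theorem IsC.add {u u' : (thK e K).U X.obj} {f f' : FM.of (R := K) (F.S.obj X) ⟶ FM.of (S.S k)}
    (hf : IsC e X k u f) (hf' : IsC e X k u' f') : IsC e X k (u + u') (f + f') := by
  unfold IsC at hf hf' ⊢
  rw [map_add, hf, hf', FM.add_hom, Preadditive.add_comp]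

theorem IsC.zero : IsC e X k (0 : (thK e K).U X.obj)
    (0 : FM.of (R := K) (F.S.obj X) ⟶ FM.of (S.S k)) := by
  unfold IsC
  rw [map_zero, FM.zero_hom, zero_comp]

theorem IsC.sum {J : Type} (s : Finset J) {u : J → (thK e K).U X.obj}
    {f : J → (FM.of (R := K) (F.S.obj X) ⟶ FM.of (S.S k))}
    (hf : ∀ j ∈ s, IsC e X k (u j) (f j)) : IsC e X k (∑ j ∈ s, u j) (∑ j ∈ s, f j) := by
  classical
  induction s using Finset.induction_on with
  | empty => simpa using IsC.zero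
  | insert a s ha ih =>
    rw [Finset.sum_insert ha, Finset.sum_insert ha]
    exact (hf a (Finset.mem_insert_self a s)).add (ih fun j hj => hf j (Finset.mem_insert_of_mem hj))

theorem unit_smul_sharp' {i k q : ℤ} (h : i + k = q) (g : S.S i ⟶ K) :
    (S.inPS q ≫ FM.unit K S.PS) ≫ (ModStr.self (K ⊗ S.PS)).smul (sharp g) =
      (S.mu i k q h).inv ≫ (g ⊗ₘ S.inPS k) := by
  have h1 : S.inPS q ≫ FM.unit K S.PS = (λ_ (S.S q)).inv ≫ (η[K] ⊗ₘ S.inPS q) := by
    rw [FM.unit, leftUnitor_inv_naturality_assoc, tensorHom_def']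
  have h2 : (g ⊗ₘ η[K]) ≫ μ[K] = (ρ_ (S.S i)).hom ≫ g := by
    rw [MonoidalCategory.tensorHom_def, Category.assoc, MonObj.mul_one, rightUnitor_naturality]
  rw [smul_self_eq, h1, sharp_eq_unitIso, tensorObj.mul_def, ← tensorHom_comp_tensorHom,
    Category.assoc, tensorμ_natural_assoc, tensorHom_comp_tensorHom, h2,
    in_mul S _ _ k (by omega : -i + q = k), ← unit_mu_aux h]
  simp only [Category.assoc]
  congr 1
  have h3 : ((ρ_ (S.S i)).hom ≫ g ⊗ₘ (S.mu (-i) q k (by omega)).hom ≫ S.inPS k) =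
      ((ρ_ (S.S i)).hom ▷ _) ≫ (S.S i ◁ (S.mu (-i) q k (by omega)).hom) ≫
        (g ⊗ₘ S.inPS k) := by
    rw [← tensorHom_comp_tensorHom, MonoidalCategory.tensorHom_def, Category.assoc]
  rw [h3, reassoc_of% (tensorμ_unit_right (S.S i) (S.S (-i)) (S.S q)),
    MonoidalCategory.tensorHom_def (S.unitIso i).hom, Category.assoc,
    ← MonoidalCategory.whiskerLeft_comp_assoc, Iso.inv_hom_id,
    MonoidalCategory.whiskerLeft_id, Category.id_comp]

/-- multiplication by a homogeneous scalar -/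
theorem in_smul_sharp' {i k q : ℤ} (h : i + k = q) (g : S.S i ⟶ K) :
    (K ◁ S.inPS q) ≫ (ModStr.self (K ⊗ S.PS)).smul (sharp g) =
      FM.bind ((S.mu i k q h).inv ≫ (g ▷ S.S k)) ≫ (K ◁ S.inPS k) := by
  rw [FM.bind_whiskerLeft, Category.assoc, ← MonoidalCategory.tensorHom_def,
    ← unit_smul_sharp' h g, bind_smul, FM.bind_comp_unit]

/-- multiplication by a homogeneous element `c : S i ⟶ K` -/
def mulS {i k q : ℤ} (h : i + k = q) (c : S.S i ⟶ K) :
    FM.of (R := K) (S.S q) ⟶ FM.of (S.S k) := ⟨(S.mu i k q h).inv ≫ c ▷ S.S k⟩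

theorem mulS_hom {i k q : ℤ} (h : i + k = q) (c : S.S i ⟶ K) :
    FM.Hom.hom (R := K) (X := FM.of (S.S q)) (Y := FM.of (S.S k)) (mulS h c) =
      (S.mu i k q h).inv ≫ c ▷ S.S k := rfl

instance isInv_S (k : ℤ) : IsInv (S.S k) := isInv_of_framed (S.fr k)

theorem mulS_bijective {i k q : ℤ} (h : i + k = q) :
    Function.Bijective (mulS (S := S) (K := K) h) := by
  constructor
  · intro c c' hc
    have h1 : (S.mu i k q h).inv ≫ c ▷ S.S k = (S.mu i k q h).inv ≫ c' ▷ S.S k :=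
      congrArg (FM.Hom.hom (R := K) (X := FM.of (S.S q)) (Y := FM.of (S.S k))) hc
    exact (whiskerRight_bijective (S.S k) _ _).1 ((cancel_epi (S.mu i k q h).inv).mp h1)
  · intro g
    obtain ⟨c, hc⟩ := (whiskerRight_bijective (S.S k) (S.S i) K).2
      ((S.mu i k q h).hom ≫ FM.Hom.hom (R := K) (X := FM.of (S.S q)) (Y := FM.of (S.S k)) g)
    refine ⟨c, FM.hom_ext ?_⟩
    change (S.mu i k q h).inv ≫ c ▷ S.S k = _
    rw [show c ▷ S.S k = _ from hc, Iso.inv_hom_id_assoc]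

theorem mulS_zero {i k q : ℤ} (h : i + k = q) : mulS (S := S) (K := K) h 0 = 0 := by
  apply FM.hom_ext
  rw [mulS_hom, MonoidalPreadditive.zero_whiskerRight, comp_zero, FM.zero_hom]

theorem mulS_one {k : ℤ} (h : 0 + k = k) :
    mulS (S := S) (K := K) h (S.zero.inv ≫ η[K]) = 𝟙 _ := by
  apply FM.hom_ext
  rw [mulS_hom, comp_whiskerRight, ← Category.assoc, mu_inv_zero]
  rfl

theorem IsC.smul {i q : ℤ} (h : i + k = q) {a : (thK e K).A} {c : S.S i ⟶ K}
    (ha : coefK e K a = HRing.of S K i c) {u : (thK e K).U X.obj}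
    {f : FM.of (R := K) (F.S.obj X) ⟶ FM.of (S.S q)} (hf : IsC e X q u f) :
    IsC e X k (a • u) (f ≫ mulS h c) := by
  unfold IsC at hf ⊢
  rw [tU_smul, hf, ha, sharpTot_of, Category.assoc, in_smul_sharp' h c, FM.comp_hom, Category.assoc]
  rfl

variable {K' : T} [MonObj K'] [IsCommMonObj K']

/-- change of rings -/
def pu (φ : K ⟶ K') {A B : T} (f : FM.of (R := K) A ⟶ FM.of B) : FM.of (R := K') A ⟶ FM.of B :=
  ⟨FM.Hom.hom (R := K) (X := FM.of (R := K) A) (Y := FM.of (R := K) B) f ≫ φ ▷ B⟩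

theorem pu_hom (φ : K ⟶ K') {A B : T} (f : FM.of (R := K) A ⟶ FM.of B) :
    FM.Hom.hom (pu φ f) = FM.Hom.hom (R := K) (X := FM.of (R := K) A) (Y := FM.of (R := K) B) f ≫ φ ▷ B := rfl

theorem pu_comp (φ : K ⟶ K') [IsMonHom φ] {A B C : T} (f : FM.of (R := K) A ⟶ FM.of B)
    (g : FM.of (R := K) B ⟶ FM.of C) : pu φ (f ≫ g) = pu φ f ≫ pu φ g :=
  (FM.push φ).map_comp f g

theorem pu_id (φ : K ⟶ K') [IsMonHom φ] (A : T) : pu φ (𝟙 (FM.of (R := K) A)) = 𝟙 _ :=
  (FM.push φ).map_id _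

theorem pu_free (φ : K ⟶ K') [IsMonHom φ] {A B : T} (f : A ⟶ B) :
    pu φ ((FM.free K).map f) = (FM.free K').map f :=
  FM.push_map_free φ f

theorem pu_add (φ : K ⟶ K') {A B : T} (f g : FM.of (R := K) A ⟶ FM.of B) :
    pu φ (f + g) = pu φ f + pu φ g := by
  apply FM.hom_ext
  rw [FM.add_hom, pu_hom, pu_hom, pu_hom, FM.add_hom, Preadditive.add_comp]

theorem pu_zero (φ : K ⟶ K') {A B : T} : pu φ (0 : FM.of (R := K) A ⟶ FM.of B) = 0 := by
  apply FM.hom_ext
  rw [pu_hom, FM.zero_hom, FM.zero_hom, zero_comp]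

theorem pu_sum (φ : K ⟶ K') {A B : T} {J : Type} (s : Finset J)
    (f : J → (FM.of (R := K) A ⟶ FM.of B)) : pu φ (∑ j ∈ s, f j) = ∑ j ∈ s, pu φ (f j) := by
  classical
  induction s using Finset.induction_on with
  | empty => simpa using pu_zero φ
  | insert a s ha ih => rw [Finset.sum_insert ha, Finset.sum_insert ha, pu_add, ih]

theorem IsC.push (φ : K ⟶ K') [IsMonHom φ] {u : (thK e K).U X.obj}
    {f : FM.of (R := K) (F.S.obj X) ⟶ FM.of (S.S k)} (hf : IsC e X k u f) :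
    IsC e X k ((thKHom e φ).app X.obj u) (pu φ f) := by
  unfold IsC at hf ⊢
  rw [tU_push, hf, pu_hom, Category.assoc, Category.assoc, whisker_exchange]

end Vale.Agent.P257.V4.T
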