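import Vale.Agent.P257.V4.T.Dual

/-!
# P257, block T: coefficients with respect to the dual basis
-/

open CategoryTheory MonoidalCategory Limits Pretriangulated
open Vale.Agent.P251.G Vale.Agent.P251.G.LC Vale.Agent.P251.I Vale.Agent.P251.T
open Vale.Agent.P251.M Vale.Agent.P251.S Vale.Agent.P251.M.EvenSpheres Vale.Agent.P251.Q
open Vale.Agent.P251.Q.MultTheory Vale.Agent.P241.H588

universe v u

set_option linter.unusedSectionVars false
set_option linter.style.haveILetI false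

noncomputable section

namespace Vale.Agent.P257.V4.T

variable {T : Type u} [Category.{v} T] [Preadditive T] [HasZeroObject T]
    [HasShift T ℤ] [∀ n : ℤ, (shiftFunctor T n).Additive] [Pretriangulated T] [IsTriangulated T]
    [MonoidalCategory T] [SymmetricCategory T] [TensorTriangulated T] [MonoidalClosed T]
    [HasCoproducts.{0} T] [HasProducts.{0} T] [StableCat T]
  {S : EvenSpheres T} {F : SpaceFunctor T} {e : F.S.obj CCF ≅ S.L}
  {K : T} [MonObj K] [IsCommMonObj K]

theorem mulS_add {i k q : ℤ} (h : i + k = q) (c c' : S.S i ⟶ K) :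
    mulS (S := S) (K := K) h (c + c') = mulS h c + mulS h c' := by
  apply FM.hom_ext
  rw [mulS_hom, MonoidalPreadditive.add_whiskerRight, Preadditive.comp_add, FM.add_hom]
  rfl

/-- multiplication as a homomorphism -/
def mulSHom {i k q : ℤ} (h : i + k = q) :
    (S.S i ⟶ K) →+ (FM.of (R := K) (S.S q) ⟶ FM.of (S.S k)) where
  toFun := mulS h
  map_zero' := mulS_zero h
  map_add' := mulS_add h

theorem mulS_zsmul {i k q : ℤ} (h : i + k = q) (n : ℤ) (c : S.S i ⟶ K) :
    mulS (S := S) (K := K) h (n • c) = n • mulS h c := map_zsmul (mulSHom h) n c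

/-- a homogeneous coefficient as a morphism -/
theorem exists_coefHom {a : (thK e K).A} {k i : ℤ} (ha : a ∈ (thK e K).degA k) (hi : i = -k) :
    ∃ γ' : S.S i ⟶ K, coefK e K a = HRing.of S K i γ' := by
  subst hi
  exact coeffHom_deg (cofTriangles F) (isSusp_lineCls e (SeqMonoid.const K)) ha

theorem of_inj {i : ℤ} {a b : S.S i ⟶ K} (h : HRing.of S K i a = HRing.of S K i b) : a = b :=
  DirectSum.of_injective (β := S.Gr K) _ h

/-- if a homogeneous element is `p` times an element, its morphism is divisible by `p` -/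
theorem exists_div_of {i : ℤ} {a : S.S i ⟶ K} {n : ℤ} {x : HRing S K}
    (h : HRing.of S K i a = n • x) : ∃ b : S.S i ⟶ K, a = n • b := by
  let f : HRing S K →+ (S.S i ⟶ K) := DFinsupp.evalAddMonoidHom i
  refine ⟨f x, ?_⟩
  have h1 := congrArg f h
  rw [_root_.map_zsmul] at h1
  rw [← h1]
  exact (DirectSum.of_eq_same (β := S.Gr K) i a).symm

variable (o : Orientation (thK e K)) {N : ℕ} {L : Type} [Fintype L]
  {m : ℕ} (V : Bun (CP (Fin N) : LC) L) (hV : V.IsRank m)

theorem dual_coef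
    (f : ∀ i : Fin N, FM.of (R := K) (F.S.obj (totF V hV)) ⟶ FM.of (S.S (((i : ℕ) : ℤ) + m)))
    (hf : ∀ i : Fin N, IsC e (totF V hV) _ (zU o V hV i) (f i))
    (b : ∀ i : Fin N, FM.of (R := K) (S.S (((i : ℕ) : ℤ) + m)) ⟶
      FM.of (F.S.obj (totF V hV))) (hb : ∑ i, f i ≫ b i = 𝟙 _)
    {k : ℤ} {u : (thK e K).U V.tot} (hu : u ∈ (thK e K).deg V.tot k)
    {g : FM.of (R := K) (F.S.obj (totF V hV)) ⟶ FM.of (S.S k)} (hg : IsC e (totF V hV) k u g)
    {c : Fin N → (thK e K).A} (hc : u = ∑ i, c i • zU o V hV i) (i : Fin N) {l : ℤ}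
    (hl : l + k = ((i : ℕ) : ℤ) + m) :
    ∃ γ' : S.S l ⟶ K, coefK e K (c i) = HRing.of S K l γ' ∧ b i ≫ g = mulS hl γ' := by
  obtain ⟨hb1, hb2⟩ := dual_orth o V hV f hf b hb
  obtain ⟨c', hc', hcu⟩ := exists_coef o V hV u k hu
  have h0 : c = c' := coef_unique o V hV (hc.symm.trans hcu)
  subst h0
  have h1 : ∀ j : Fin N, ∃ γ' : S.S ((((j : ℕ) : ℤ) + m) - k) ⟶ K,
      coefK e K (c j) = HRing.of S K ((((j : ℕ) : ℤ) + m) - k) γ' := fun j =>
    exists_coefHom (hc' j) (by ring)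
  choose γ' hγ' using h1
  have h2 : IsC e (totF V hV) k (∑ j, c j • zU o V hV j)
      (∑ j, f j ≫ mulS (sub_add_cancel _ _) (γ' j)) :=
    IsC.sum _ fun j _ => IsC.smul _ (hγ' j) (hf j)
  rw [← hcu] at h2
  have h3 : g = ∑ j, f j ≫ mulS (sub_add_cancel _ _) (γ' j) := hg.unique h2
  obtain rfl : l = (((i : ℕ) : ℤ) + m) - k := by linarith
  refine ⟨γ' i, hγ' i, ?_⟩
  rw [h3, Preadditive.comp_sum, Finset.sum_eq_single i]
  · rw [← Category.assoc, hb1, Category.id_comp]
  · intro j _ hj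
    rw [← Category.assoc, hb2 i j hj.symm, zero_comp]
  · intro h
    exact absurd (Finset.mem_univ i) h

end Vale.Agent.P257.V4.T
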