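import Vale.Agent.P257.V4.T.Cmp
import Vale.Agent.P257.V4.T.Fib

/-!
# P257, block T: restriction of Thom classes to a fibre

`fibHom V b u`: the inclusion `ℂ^J ⟶ E(V)`, `w ↦ (b, u w)`, of the fibre over `b`, for a unitary
frame `u` of the fibre; `map_fibHom_phi`: its effect on Thom classes; `fibC_eq`: the fibre inclusion
`fibC` is of this form.
-/

set_option linter.unusedSectionVars false
set_option linter.style.haveILetI false

open CategoryTheory MonoidalCategory OnePoint Topology Matrix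
open Vale.Agent.P251.G Vale.Agent.P251.G.LC Vale.Agent.P251.G.Bun

universe v

noncomputable section

namespace Vale.Agent.P257.V4.T

open Vale.Agent.P251.Q Vale.Agent.P251.Q.MultTheory Vale.Agent.P251.M
open Vale.Agent.P217 Vale.Agent.P251.F

section general

variable {B : LC} [CompactSpace B] {L J : Type} [Fintype L] [Fintype J] [DecidableEq J]
  (V : Bun B L) (b : B) (u : Matrix L J ℂ) (hu : uᴴ * u = 1) (hu' : u * uᴴ = V.P b)

/-- the inclusion of a point -/
def ptC (b : B) : C((𝟙_ LC : LC), B) := ContinuousMap.const _ b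

/-- the frame as an isomorphism of bundles over the point -/
def frIsom : (triv (𝟙_ LC : LC) J).Isom (V.pullback (ptC b)) where
  u _ := u
  cont := continuous_const
  left _ := hu
  right _ := hu'

theorem over_pt : Over (cmap (ptC b)) (V.pullback (ptC b)) V := by
  intro z z' h
  have h1 : (b : OnePoint B) = (z' : OnePoint B) := h
  rw [OnePoint.coe_eq_coe] at h1
  subst h1
  rfl

/-- the inclusion of a fibre -/
def fibHom : Cpow J ⟶ V.tot :=
  (λ_ (Cpow J)).inv ≫ (trivIso (𝟙_ LC) J).inv ≫ (frIsom V b u hu hu').iso.hom ≫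
    totMap (cmap (ptC b)) (over_pt V b)

include hu hu' in
theorem fib_mem (w : J → ℂ) : V.P b *ᵥ (u *ᵥ w) = u *ᵥ w := by
  rw [← hu', Matrix.mulVec_mulVec, Matrix.mul_assoc, hu, Matrix.mul_one]

theorem app_fibHom (w : J → ℂ) : app (fibHom V b u hu hu') (w : OnePoint (J → ℂ)) =
    (V.mkE b (u *ᵥ w) (fib_mem V b u hu hu' w) : OnePoint V.E) := by
  have h1 := app_totMap_of_coe (cmap (ptC b)) (over_pt V b)
    ((frIsom V b u hu hu').homeo ((trivHomeo (𝟙_ LC : LC) J).symm ((), w))) b rfl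
  exact h1

variable {E : MultTheory.{v}} (o : Orientation E) [hB : GoodBase E B]

theorem map_fibHom_phi (hV : V.IsRank (Fintype.card J)) (x : E.U B) :
    E.map (fibHom V b u hu hu') (o.phi V hV x) =
      E.map (λ_ (Cpow J)).inv (E.cross (E.map (cmap (ptC b)) x) (o.lin J)) := by
  haveI := hB.tot V hV
  haveI : E.Good (triv (𝟙_ LC : LC) J).tot := MultTheory.Good.of_iso E (trivIso (𝟙_ LC) J).symm
  haveI : E.Good (Bun.tot (X := (𝟙_ LC : LC)) (V.pullback (ptC b))) :=
    MultTheory.Good.of_iso E (frIsom V b u hu hu').iso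
  have h1 := phi_natural o (cmap (ptC b)) (over_pt V b) (hV.pullback (ptC b)) hV x
  have h2 := phi_isom o (frIsom V b u hu hu') (isRank_triv (𝟙_ LC) J) (hV.pullback (ptC b))
    (E.map (cmap (ptC b)) x)
  have h3 := phi_triv o (Z := 𝟙_ LC) (ι := J) (E.map (cmap (ptC b)) x)
  rw [fibHom, MultTheory.map_comp, MultTheory.map_comp, MultTheory.map_comp, ← h1]
  have h4 : E.map (frIsom V b u hu hu').iso.hom
      (o.phi (V.pullback (ptC b)) (hV.pullback (ptC b)) (E.map (cmap (ptC b)) x)) =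
      E.map (trivIso (𝟙_ LC) J).hom (E.cross (E.map (cmap (ptC b)) x) (o.lin J)) :=
    h2.symm.trans h3
  rw [h4, map_inv_hom]

theorem map_fibHom_phi_zero (hV : V.IsRank (Fintype.card J)) (x : E.U B)
    (hx : E.map (cmap (ptC b)) x = 0) :
    E.map (fibHom V b u hu hu') (o.phi V hV x) = 0 := by
  rw [map_fibHom_phi, hx, map_zero, AddMonoidHom.zero_apply, map_zero]

theorem map_fibHom_phi_one (hV : V.IsRank (Fintype.card J)) :
    E.map (fibHom V b u hu hu') (o.phi V hV 1) = o.lin J := by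
  rw [map_fibHom_phi]
  have h1 : E.map (cmap (ptC b)) (1 : E.U B) = E.one := by
    have h2 : E.map (cmap (ptC b)) (1 : E.U B) = E.oneU (𝟙_ LC) := map_oneU (ptC b)
    rw [h2]
    have h3 : cmap (toPt (𝟙_ LC)) = 𝟙 (𝟙_ LC : LC) := LC.hom_ext fun _ => rfl
    rw [oneU, h3, MultTheory.map_id]
  rw [h1, one_cross, map_inv_hom]

end general

/-! ### The fibre of `K ⊗ ρ` -/

section rho

variable {p : ℕ} (hp : p ≠ 0) {κ K : Type} [Fintype κ] [Fintype K] [DecidableEq K]

include hp in
theorem amp_isom (x : SS κ) : (amp K (frameΦ p x.v))ᴴ * amp K (frameΦ p x.v) = 1 :=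
  amp_conjTranspose_mul_amp (frameΦ_isom hp x.nsq_v)

include hp in
theorem amp_mul_amp (x : SS κ) : amp K (frameΦ p x.v) * (amp K (frameΦ p x.v))ᴴ =
    (kRho p κ K).P x.line := by
  have h1 : amp K (frameΦ p x.v) * (amp K (frameΦ p x.v))ᴴ =
      kroneckerMap (· * ·) (1 : Matrix K K ℂ) (frameΦ p x.v * (frameΦ p x.v)ᴴ) := by
    unfold amp
    rw [Matrix.conjTranspose_kronecker, ← Matrix.mul_kronecker_mul, conjTranspose_one,
      Matrix.mul_one]
  rw [h1, frameΦ_mul_conjTranspose hp]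
  rfl

/-- uncurrying -/
def pairHomeo (p : ℕ) (K : Type) : (Fin p → K → ℂ) ≃ₜ (K × Fin p → ℂ) where
  toFun w := pairVec w
  invFun g x y := g (y, x)
  left_inv _ := rfl
  right_inv _ := rfl
  continuous_toFun := by
    refine continuous_pi fun a => ?_
    exact (continuous_apply a.1).comp (continuous_apply a.2)
  continuous_invFun := by fun_prop

/-- uncurrying -/
def pairIso (p : ℕ) (K : Type) [Fintype K] : LC.of (Fin p → K → ℂ) ≅ Cpow (K × Fin p) :=
  ofHomeo (X := LC.of (Fin p → K → ℂ)) (Y := Cpow (K × Fin p)) (pairHomeo p K)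

theorem fibC_eq (x : SS κ) : fibC hp x = (pairIso p K).hom ≫
    fibHom (B := CPO κ) (kRho p κ K) x.line (amp K (frameΦ p x.v)) (amp_isom hp x)
      (amp_mul_amp hp x) := by
  apply LC.hom_ext
  intro w
  refine (app_fibC (hp := hp) x w).trans ?_
  refine Eq.trans ?_ (app_fibHom (B := CPO κ) (kRho p κ K) x.line (amp K (frameΦ p x.v))
    (amp_isom hp x) (amp_mul_amp hp x) (pairVec w)).symm
  congr 1
  exact E_ext rfl (amp_mulVec (frameΦ p x.v) w).symm

variable {E : MultTheory.{v}} (o : Orientation E)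

theorem map_pt_z (x : SS κ) : E.map (cmap (X := 𝟙_ LC) (Y := CP κ) (ptC x.line)) (o.z κ) = 0 := by
  haveI h1 : GoodBase E (CP κ) := inferInstance
  haveI h2 : GoodBase E (𝟙_ LC) := inferInstance
  haveI := h1.tot (taut 1 κ) (taut_isRank 1 κ)
  haveI : E.Good (Bun.tot (X := (𝟙_ LC : LC)) ((taut 1 κ).pullback (ptC (B := CP κ) x.line))) :=
    h2.tot _ ((taut_isRank 1 κ).pullback _)
  have h3 := e_pullback_alg o (B := CP κ) (B' := 𝟙_ LC) (ptC (B := CP κ) x.line) (taut 1 κ)
    (taut_isRank 1 κ) ((taut_isRank 1 κ).pullback _)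
  rw [e_taut_z] at h3
  refine h3.symm.trans ?_
  exact e_eq_zero o _ _ ⟨fun _ => x.v, continuous_const, fun _ =>
    lineP_mulVec_self x.nsq_v⟩ fun _ => x.nsq_v

theorem map_pt_z_pow (x : SS κ) {j : ℕ} (hj : j ≠ 0) :
    E.map (cmap (X := 𝟙_ LC) (Y := CP κ) (ptC x.line)) (o.z κ ^ j) = 0 := by
  rw [map_cmap_pow, map_pt_z, zero_pow hj]

end rho

end Vale.Agent.P257.V4.T
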