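import Vale.Agent.P257.V4.T.Lin
import Vale.Agent.P257.V4.T.DualCoef
import Vale.Agent.P257.V4.T.CmpRho
import Vale.Agent.P257.V4.T.T1L

/-!
# P257, block T: the bottom class of the Thom space of `K ⊗ ρ` over `CP^{p-1}`

In the category of free `R`-modules the fibre inclusion is a multiple of the dual class `b_0`.
-/

open CategoryTheory MonoidalCategory Limits Pretriangulated
open Vale.Agent.P251.G Vale.Agent.P251.G.LC Vale.Agent.P251.I Vale.Agent.P251.T
open Vale.Agent.P251.M Vale.Agent.P251.S Vale.Agent.P251.M.EvenSpheres Vale.Agent.P251.Q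
open Vale.Agent.P251.Q.MultTheory Vale.Agent.P241.H588

universe v u

set_option linter.unusedSectionVars false
set_option linter.style.haveILetI false

noncomputable section

namespace Vale.Agent.P257.V4.T

variable {T : Type u} [Category.{v} T] [Preadditive T] [HasZeroObject T]
    [HasShift T ℤ] [∀ n : ℤ, (shiftFunctor T n).Additive] [Pretriangulated T] [IsTriangulated T]
    [MonoidalCategory T] [SymmetricCategory T] [TensorTriangulated T] [MonoidalClosed T]
    [HasCoproducts.{0} T] [HasProducts.{0} T] [StableCat T]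
  {S : EvenSpheres T} {F : SpaceFunctor T} {e : F.S.obj CCF ≅ S.L}
  {R : T} [MonObj R] [IsCommMonObj R] (o : Orientation (thK e R))
  {p : ℕ} [hp : Fact p.Prime] {K : Type} [Fintype K] [DecidableEq K]

/-- a morphism of `T` as a morphism of free modules -/
def fr (R : T) [MonObj R] [IsCommMonObj R] {A B : T} (g : A ⟶ B) :
    FM.of (R := R) A ⟶ FM.of B := (FM.free R).map g

theorem fr_hom {A B : T} (g : A ⟶ B) :
    FM.Hom.hom (R := R) (X := FM.of (R := R) A) (Y := FM.of B) (fr R g) = g ≫ FM.unit R B := rfl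

theorem fr_comp {A B C : T} (g : A ⟶ B) (h : B ⟶ C) : fr R (g ≫ h) = fr R g ≫ fr R h :=
  (FM.free R).map_comp g h

theorem fr_comp_hom {A B C : T} (g : A ⟶ B) (h : FM.of (R := R) B ⟶ FM.of C) :
    FM.Hom.hom (R := R) (X := FM.of (R := R) A) (Y := FM.of C) (fr R g ≫ h) =
      g ≫ FM.Hom.hom (R := R) (X := FM.of (R := R) B) (Y := FM.of C) h :=
  FM.free_map_comp_hom g h

/-- the bundle `K ⊗ ρ` over `CP^{p-1}` -/
abbrev kR (p : ℕ) (K : Type) [Fintype K] [DecidableEq K] :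
    Bun (CP (Fin p) : LC) (K × RhoIdx p (Fin p)) := kRho p (Fin p) K

theorem kR_isRank : (kR p K).IsRank (Fintype.card (K × Fin p)) := by
  have h := kRho_isRank p (Fin p) K hp.out.ne_zero
  rwa [Fintype.card_prod, Fintype.card_fin]

theorem map_fibC_pos (x : SS (Fin p)) {j : ℕ} (hj : j ≠ 0) :
    (thK e R).map (fibC (K := K) hp.out.ne_zero x) (zU o (kR p K) kR_isRank j) = 0 := by
  haveI := good_tot_CP (E := thK e R) (kR p K) kR_isRank
  haveI : (thK e R).Good (Bun.tot (X := CPO (Fin p)) (kRho p (Fin p) K)) := this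
  haveI : (thK e R).Good (LC.of (Fin p → K → ℂ)) := MultTheory.Good.of_iso _ (pairIso p K).symm
  rw [fibC_eq, MultTheory.map_comp, zU]
  have h1 := map_fibHom_phi_zero (B := CP (Fin p)) (kRho p (Fin p) K) x.line
    (amp K (frameΦ p x.v)) (amp_isom hp.out.ne_zero x) (amp_mul_amp hp.out.ne_zero x) o
    kR_isRank (o.z (Fin p) ^ j) (map_pt_z_pow o x hj)
  exact (congrArg _ h1).trans (map_zero _)

theorem map_fibC_zero (x : SS (Fin p)) :
    (thK e R).map (fibC (K := K) hp.out.ne_zero x) (zU o (kR p K) kR_isRank 0) =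
      (thK e R).map (pairIso p K).hom (o.lin (K × Fin p)) := by
  haveI := good_tot_CP (E := thK e R) (kR p K) kR_isRank
  haveI : (thK e R).Good (Bun.tot (X := CPO (Fin p)) (kRho p (Fin p) K)) := this
  haveI : (thK e R).Good (LC.of (Fin p → K → ℂ)) := MultTheory.Good.of_iso _ (pairIso p K).symm
  rw [fibC_eq, MultTheory.map_comp, zU, pow_zero]
  have h1 := map_fibHom_phi_one (B := CP (Fin p)) (kRho p (Fin p) K) x.line
    (amp K (frameΦ p x.v)) (amp_isom hp.out.ne_zero x) (amp_mul_amp hp.out.ne_zero x) o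
    kR_isRank
  exact congrArg _ h1

/-- the space `ℂ^(p K)` -/
abbrev vF (p : ℕ) (K : Type) [Fintype K] : FCat :=
  ⟨LC.of (Fin p → K → ℂ), (inferInstance : IsFC _).out⟩

/-- the fibre inclusion as a morphism of `FCat` -/
abbrev fibKR (x : SS (Fin p)) : vF p K ⟶ totF (kR p K) kR_isRank :=
  FCat.hom (X := vF p K) (Y := totF (kR p K) kR_isRank) (fibC (K := K) hp.out.ne_zero x)

theorem isC_fib_pos (x : SS (Fin p)) {j : ℕ} (hj : j ≠ 0) {k : ℤ}
    {f : FM.of (R := R) (F.S.obj (totF (kR p K) kR_isRank)) ⟶ FM.of (S.S k)}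
    (hf : IsC e (totF (kR p K) kR_isRank) k (zU o (kR p K) kR_isRank j) f) :
    fr R (F.S.map (fibKR x)) ≫ f = 0 := by
  have h1 := hf.map (fibKR x)
  have h2 : (thK e R).map (fibKR (K := K) x).hom (zU o (kR p K) kR_isRank j) = 0 :=
    map_fibC_pos o x hj
  rw [h2] at h1
  exact h1.unique IsC.zero

theorem isC_fib_zero (x : SS (Fin p)) :
    ∃ y : F.S.obj (vF p K) ⟶ S.S (((0 : ℕ) : ℤ) + (Fintype.card (K × Fin p) : ℕ)),
      ∀ f : FM.of (R := R) (F.S.obj (totF (kR p K) kR_isRank)) ⟶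
        FM.of (S.S (((0 : ℕ) : ℤ) + (Fintype.card (K × Fin p) : ℕ))),
      IsC e (totF (kR p K) kR_isRank) _ (zU o (kR p K) kR_isRank 0) f →
        fr R (F.S.map (fibKR x)) ≫ f = fr R y := by
  have h0 : ((0 : ℕ) : ℤ) + (Fintype.card (K × Fin p) : ℕ) = (Fintype.card (K × Fin p) : ℕ) := by
    simp
  rw [h0]
  obtain ⟨g, hg⟩ := exists_linHom (e := e) o (K × Fin p)
  have h3 := hg.map (X := vF p K) (FCat.hom (X := vF p K) (Y := cpF (K × Fin p))
    (pairIso p K).hom)
  refine ⟨F.S.map (FCat.hom (X := vF p K) (Y := cpF (K × Fin p)) (pairIso p K).hom) ≫ g,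
    fun f hf => ?_⟩
  have h1 := hf.map (fibKR x)
  have h2 : (thK e R).map (fibKR (K := K) x).hom (zU o (kR p K) kR_isRank 0) =
      (thK e R).map (pairIso p K).hom (o.lin (K × Fin p)) := map_fibC_zero o x
  rw [h2] at h1
  rw [fr_comp]
  exact h1.unique h3

/-- **The fibre inclusion is a multiple of the dual class `b_0`.** -/
theorem fib_dual (x : SS (Fin p))
    (f : ∀ i : Fin p, FM.of (R := R) (F.S.obj (totF (kR p K) kR_isRank)) ⟶
      FM.of (S.S (((i : ℕ) : ℤ) + (Fintype.card (K × Fin p) : ℕ))))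
    (hf : ∀ i : Fin p, IsC e (totF (kR p K) kR_isRank) _ (zU o (kR p K) kR_isRank i) (f i))
    (b : ∀ i : Fin p, FM.of (R := R) (S.S (((i : ℕ) : ℤ) + (Fintype.card (K × Fin p) : ℕ))) ⟶
      FM.of (F.S.obj (totF (kR p K) kR_isRank))) (hb : ∑ i, f i ≫ b i = 𝟙 _) :
    ∃ y : F.S.obj (vF p K) ⟶ S.S (((0 : ℕ) : ℤ) + (Fintype.card (K × Fin p) : ℕ)),
      fr R (F.S.map (fibKR x)) = fr R y ≫ b ⟨0, hp.out.pos⟩ := by
  obtain ⟨y, hy⟩ := isC_fib_zero (e := e) o (K := K) x
  refine ⟨y, ?_⟩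
  have h1 : fr R (F.S.map (fibKR (K := K) x)) =
      fr R (F.S.map (fibKR x)) ≫ ∑ i, f i ≫ b i := by rw [hb, Category.comp_id]
  rw [h1, Preadditive.comp_sum, Finset.sum_eq_single ⟨0, hp.out.pos⟩]
  · rw [← Category.assoc]
    congr 1
    exact hy _ (hf ⟨0, hp.out.pos⟩)
  · intro i _ hi
    rw [← Category.assoc, isC_fib_pos o x (j := (i : ℕ)) (fun h => hi (Fin.ext h)) (hf i),
      zero_comp]
  · intro h
    exact absurd (Finset.mem_univ _) h

end Vale.Agent.P257.V4.T
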