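import Vale.Agent.P257.V4.B.XMB
import Vale.Agent.P257.V4.B.Classes
import Vale.Agent.P251.M.ChainT

/-!
# P257, V(4), part T: the class `t` and the coefficient of the comparison series

For `b : BData D p` and `p t = d v_1` (`IsT1 p t`):

* `add_tL_mem_kx` : `t + tL p` vanishes on normal chains, so lies in the kernel to
  `π (B ⊗ B ⊗ S/p)`;
* `exists_evw_t` : `t = - tL p + p g` in `π_{2(p-1)} (B ⊗ B)`;
* `amEv_push` : naturality of the characteristic homomorphisms of oriented monoids;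
* `rmodOf_ev_X` : the value of the coefficient `X (0, m)` of the universal strict series is the
  coefficient of the comparison series of the two orientations of `R' ⊗ R'`;
* `exists_ev_t` : the value of `t` is minus the coefficient `p - 1` of the comparison series,
  modulo `p`.
-/

open CategoryTheory MonoidalCategory Limits Pretriangulated MonObj

set_option linter.unusedSectionVars false

universe v u

namespace Vale.Agent.P257.V4.T.HT

open Vale.Agent.P251.S Vale.Agent.P251.T Vale.Agent.P251.M Vale.Agent.P251.F Vale.Agent.P251.I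
  Vale.Agent.P251.G Vale.Agent.P251 Vale.Agent.P257.V4.B Vale.Agent.P257.V4.E

variable {T : Type u} [Category.{v} T] [Preadditive T] [HasZeroObject T]
    [HasShift T ℤ] [∀ n : ℤ, (shiftFunctor T n).Additive] [Pretriangulated T] [IsTriangulated T]
    [MonoidalCategory T] [SymmetricCategory T] [TensorTriangulated T] [MonoidalClosed T]
    [HasCoproducts.{0} T] [HasProducts.{0} T] [StableCat T]

section kernel

variable {D : MUData T} {p : ℕ} [hp : Fact p.Prime] (b : BData D p)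
variable {C : T} {iC : 𝟙_ T ⟶ C} {δC : C ⟶ (𝟙_ T)⟦(1 : ℤ)⟧}
  (hC : Triangle.mk ((p : ℤ) • 𝟙 (𝟙_ T)) iC δC ∈ distTriang T)

include hC in
/-- `t + tL p` vanishes modulo `p`. -/
theorem add_tL_mem_kx (hp2 : p ≠ 2) {t : Cob Laz 1} (ht : IsT1 p t) {w : ℤ}
    (h1 : t ∈ cobK.wt 1 w) (h2 : tL p ∈ cobK.wt 1 w) :
    (⟨t, h1⟩ + ⟨tL p, h2⟩ : cobK.wt 1 w) ∈ b.rmod.kx iC 1 w := by
  rw [b.mem_kx hC hp2]
  change toNB p 1 (t + tL p) = 0
  rw [map_add, toNB_t ht, toNB_tL, neg_add_cancel]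

include hC in
/-- elements of the kernel modulo `p` are divisible by `p` -/
theorem exists_of_mem_kx {s : ℕ} {w : ℤ} {z : cobK.wt s w} (hz : z ∈ b.rmod.kx iC s w) :
    ∃ g : (stdEven T).S w ⟶ Am b.obj (s + 1), b.rmod.evw s w z = (p : ℤ) • g := by
  rw [RMod.mem_kx, RMod.evX_apply, ux, ← Category.assoc] at hz
  have h3 := dist_whiskerLeft (Am b.obj (s + 1)) hC
  obtain ⟨g, hg⟩ : ∃ g : (stdEven T).S w ⟶ Am b.obj (s + 1) ⊗ 𝟙_ T,
      b.rmod.evw s w z ≫ (ρ_ (Am b.obj (s + 1))).inv =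
        g ≫ ((Am b.obj (s + 1)) ◁ ((p : ℤ) • 𝟙 (𝟙_ T))) :=
    Triangle.coyoneda_exact₂ _ h3 _ hz
  have h4 : (Am b.obj (s + 1)) ◁ ((p : ℤ) • 𝟙 (𝟙_ T)) = (p : ℤ) • 𝟙 _ := by
    have h := (tensorLeft (Am b.obj (s + 1))).map_zsmul (f := 𝟙 (𝟙_ T)) (r := (p : ℤ))
    rw [CategoryTheory.Functor.map_id] at h
    exact h
  refine ⟨g ≫ (ρ_ _).hom, ?_⟩
  rw [h4, Preadditive.comp_zsmul, Category.comp_id] at hg
  rw [← Preadditive.zsmul_comp, ← hg, Category.assoc, Iso.inv_hom_id, Category.comp_id]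

include hC in
/-- **`t = - tL p` modulo `p`** in `π_{2(p-1)} (B ⊗ B)`. -/
theorem exists_evw_t (hp2 : p ≠ 2) {t : Cob Laz 1} (ht : IsT1 p t) {w : ℤ}
    (h1 : t ∈ cobK.wt 1 w) (h2 : tL p ∈ cobK.wt 1 w) :
    ∃ g : (stdEven T).S w ⟶ Am b.obj 2,
      b.rmod.evw 1 w ⟨t, h1⟩ = - b.rmod.evw 1 w ⟨tL p, h2⟩ + (p : ℤ) • g := by
  obtain ⟨g, hg⟩ := exists_of_mem_kx b hC (add_tL_mem_kx b hC hp2 ht h1 h2)
  refine ⟨g, ?_⟩
  rw [map_add] at hg
  rw [← hg]
  abel

end kernel

section orientation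

open Vale.Agent.P251.G.LC

variable {F : SpaceFunctor T} (e : F.S.obj CCF ≅ (stdEven T).L)
variable {R R' : T} [MonObj R] [IsCommMonObj R] [MonObj R'] [IsCommMonObj R']
  (g : R ⟶ R') [IsMonHom g] (o : Q.Orientation (thK e R))

/-- **Naturality of the characteristic homomorphisms.** -/
theorem amEv_push (s : ℕ) (z : Cob Laz s) :
    amEv e R' ((thKHom e g).push o) s z =
      HRing.map (E := stdEven T) (amHom g (s + 1)) (amEv e R o s z) := by
  have h : (fun j : Fin (s + 1) => amO e R' ((thKHom e g).push o) j) =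
      fun j => (thKHom e (amHom g (s + 1))).push (amO e R o j) := by
    funext j
    have h1 : Am.v R j ≫ amHom g (s + 1) = g ≫ Am.v R' j := v_amHom g j
    rw [amO, amO, thKHom_push_comp e g (Am.v R' j) (g ≫ Am.v R' j) rfl,
      thKHom_push_comp e (Am.v R j) (amHom g (s + 1)) (g ≫ Am.v R' j) h1]
  rw [amEv_apply, amEv_apply, ← coefK_mapA, mapA_oEv, h]

variable {D : MUData T} (oD : Q.Orientation (thK e D.R))
  (hD : ∀ (s : ℕ) (z : Cob Laz s), D.ev s z = amEv e D.R oD s z)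
  (f : D.R ⟶ R') [IsMonHom f]

include hD in
/-- The action of the functions on chains in terms of the orientations. -/
theorem rmodOf_ev_amEv (s : ℕ) (z : Cob Laz s) :
    (rmodOf f).ev s z = amEv e R' ((thKHom e f).push oD) s z := by
  rw [amEv_push, rmodOf_ev, hD]

include hD in
/-- The coefficients of the comparison series. -/
theorem rmodOf_ev_X (s : ℕ) (i : Fin s) (m : ℕ) :
    (rmodOf f).ev s (MvPolynomial.X (i, m)) = coefK e (Am R' (s + 1))
      ((CPSys.Coord.cmp (coordO (amO e R' ((thKHom e f).push oD) (0 : Fin (s + 1))))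
      (coordO (amO e R' ((thKHom e f).push oD) i.succ)) (z_one_eq _ _)).c (m + 1)) := by
  rw [rmodOf_ev_amEv e oD hD f, amEv_X]

end orientation

section main

open Vale.Agent.P251.G.LC

variable {F : SpaceFunctor T} (e : F.S.obj CCF ≅ (stdEven T).L)
variable {D : MUData T} (oD : Q.Orientation (thK e D.R))
  (hD : ∀ (s : ℕ) (z : Cob Laz s), D.ev s z = amEv e D.R oD s z)
variable {p : ℕ} [hp : Fact p.Prime] (b : BData D p)
variable {C : T} {iC : 𝟙_ T ⟶ C} {δC : C ⟶ (𝟙_ T)⟦(1 : ℤ)⟧}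
  (hC : Triangle.mk ((p : ℤ) • 𝟙 (𝟙_ T)) iC δC ∈ distTriang T)

include hD hC in
/-- **The class of `t`** is minus the coefficient `p - 1` of the comparison series of the two
orientations of `B ⊗ B`, modulo `p`. -/
theorem exists_ev_t (hp2 : p ≠ 2) {t : Cob Laz 1} (ht : IsT1 p t) {w : ℤ}
    (hw : w = ((p - 1 : ℕ) : ℤ)) (h1 : t ∈ cobK.wt 1 w) :
    ∃ g : (stdEven T).S w ⟶ Am b.obj 2,
      HRing.of (stdEven T) (Am b.obj 2) w (b.rmod.evw 1 w ⟨t, h1⟩) =
        - coefK e (Am b.obj 2)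
          ((CPSys.Coord.cmp (coordO (amO e b.obj ((thKHom e b.u).push oD) (0 : Fin 2)))
            (coordO (amO e b.obj ((thKHom e b.u).push oD) (1 : Fin 2))) (z_one_eq _ _)).c (p - 1)) +
        (p : ℤ) • HRing.of (stdEven T) (Am b.obj 2) w g := by
  have h2 : tL p ∈ cobK.wt 1 w := by
    rw [hw]
    exact isWt_tL
  obtain ⟨g, hg⟩ := exists_evw_t b hC hp2 ht h1 h2
  refine ⟨g, ?_⟩
  have h3 := rmodOf_ev_X e oD hD b.u 1 0 (p - 2)
  have h4 : p - 2 + 1 = p - 1 := by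
    have := hp.out.two_le
    omega
  rw [h4] at h3
  have h5 : HRing.of (stdEven T) (Am b.obj 2) w (b.rmod.evw 1 w ⟨tL p, h2⟩) =
      b.rmod.ev 1 (tL p) := b.rmod.of_evw ⟨tL p, h2⟩
  have h6 : b.rmod.ev 1 (tL p) = coefK e (Am b.obj 2)
      ((CPSys.Coord.cmp (coordO (amO e b.obj ((thKHom e b.u).push oD) (0 : Fin 2)))
        (coordO (amO e b.obj ((thKHom e b.u).push oD) (1 : Fin 2))) (z_one_eq _ _)).c (p - 1)) := h3
  rw [← h6, ← h5, hg]
  have h7 : ∀ x y : (stdEven T).S w ⟶ Am b.obj 2,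
      HRing.of (stdEven T) (Am b.obj 2) w (-x + (p : ℤ) • y) =
        - HRing.of (stdEven T) (Am b.obj 2) w x +
          (p : ℤ) • HRing.of (stdEven T) (Am b.obj 2) w y := by
    intro x y
    refine (map_add (DirectSum.of ((stdEven T).Gr (Am b.obj 2)) w) _ _).trans ?_
    exact congrArg₂ (· + ·) (map_neg (DirectSum.of ((stdEven T).Gr (Am b.obj 2)) w) _)
      (map_zsmul (DirectSum.of ((stdEven T).Gr (Am b.obj 2)) w) _ _)
  exact h7 _ _

end main

end Vale.Agent.P257.V4.T.HT
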