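import Vale.Agent.P257.V4.T.HT
import Vale.Agent.P257.V4.T.TodaB

/-!
# P257, V(4), part T: the lift of `α₁` and the coefficient of the comparison series

* `am2 R : Am R 2 ≅ R ⊗ R`, with the vertices `inlM`, `inrM`;
* `aJ_class` : `t ≫ (R ◁ ρ) = aJ ≫ unitMap R J`;
* `exists_cmp_aJ` : for the coefficient `x` at `p - 1` of the comparison series of the two
  orientations of `B ⊗ B`: `x ≫ (B ◁ ρ) = - aJ ≫ unitMap B J + p y`.
-/

open CategoryTheory MonoidalCategory Limits Pretriangulated MonObj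

set_option linter.unusedSectionVars false

universe v u

namespace Vale.Agent.P257.V4.T.HT

open Vale.Agent.P251.S Vale.Agent.P251.T Vale.Agent.P251.M Vale.Agent.P251.F Vale.Agent.P251.I
  Vale.Agent.P251.G Vale.Agent.P251 Vale.Agent.P257.V4.B Vale.Agent.P257.V4.E

section am2

variable {T : Type u} [Category.{v} T] [MonoidalCategory T] [SymmetricCategory T]
variable (R : T) [MonObj R]

/-- `Am R 2 = (𝟙 ⊗ R) ⊗ R ≅ R ⊗ R` -/
def am2 : Am R 2 ≅ R ⊗ R := whiskerRightIso (λ_ R) R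

lemma v0_am2 : Am.v R (0 : Fin 2) ≫ (am2 R).hom = inlM R R := by
  have h1 : Am.v R (0 : Fin 2) = Am.v R (0 : Fin 1) ≫ inlM (Am R 1) R :=
    Am.v_castSucc R (0 : Fin 1)
  have h2 : Am.v R (0 : Fin 1) = (λ_ R).inv := by
    have h : (0 : Fin 1) = Fin.last 0 := rfl
    rw [h, Am.v_last]
    change (λ_ R).inv ≫ (𝟙 (𝟙_ T) ▷ R) = _
    rw [id_whiskerRight, Category.comp_id]
  rw [h1, h2, am2]
  change ((λ_ R).inv ≫ inlM (𝟙_ T ⊗ R) R) ≫ ((λ_ R).hom ▷ R) = inlM R R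
  rw [Category.assoc, inlM_whiskerRight, Iso.inv_hom_id_assoc]

lemma v1_am2 : Am.v R (1 : Fin 2) ≫ (am2 R).hom = inrM R R := by
  have h1 : Am.v R (1 : Fin 2) = inrM (Am R 1) R := Am.v_last R 1
  rw [h1, am2]
  change inrM (𝟙_ T ⊗ R) R ≫ ((λ_ R).hom ▷ R) = inrM R R
  rw [inrM_whiskerRight]

end am2

section tower

variable {T : Type u} [Category.{v} T] [Preadditive T] [HasZeroObject T] [HasShift T ℤ]
  [∀ n : ℤ, (shiftFunctor T n).Additive] [Pretriangulated T] [MonoidalCategory T]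
  [SymmetricCategory T] [TensorTriangulated T]
variable {R : T} [MonObj R] [IsCommMonObj R] (U : UnitCof R)

lemma θ_two_am2 : (U.θ 2 (𝟙_ T)).hom ≫ (ρ_ (Am R 2)).hom ≫ (am2 R).hom =
    R ◁ (ρ_ R).hom := by
  have h : (((λ_ (R ⊗ (R ⊗ 𝟙_ T))).inv ≫ (α_ (𝟙_ T) R (R ⊗ 𝟙_ T)).inv) ≫
      (α_ (𝟙_ T ⊗ R) R (𝟙_ T)).inv) ≫ (ρ_ ((𝟙_ T ⊗ R) ⊗ R)).hom ≫ ((λ_ R).hom ▷ R) =
      R ◁ (ρ_ R).hom := by
    monoidal
  exact h

/-- the image of a `1`-cochain in the `E_1`-term -/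
lemma coch_am2 {w : ℤ} (b : (stdEven T).S w ⟶ Am R 2) :
    (coch U b ≫ U.cobar.q 1 (𝟙_ T)) ≫ R ◁ (ρ_ U.J).hom =
      (sphI T w).inv ≫ b ≫ (am2 R).hom ≫ (R ◁ U.ρ) := by
  have h1 : U.cobar.q 1 (𝟙_ T) ≫ R ◁ (ρ_ U.J).hom = (R ◁ (ρ_ R).hom) ≫ (R ◁ U.ρ) := by
    change ((R ◁ (U.ρ ▷ 𝟙_ T)) ≫ 𝟙 _) ≫ R ◁ (ρ_ U.J).hom = _
    rw [Category.comp_id, ← MonoidalCategory.whiskerLeft_comp,
      ← MonoidalCategory.whiskerLeft_comp, rightUnitor_naturality]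
  rw [Category.assoc, h1, coch, ← θ_two_am2 U]
  simp only [Category.assoc, Iso.inv_hom_id_assoc]

variable [HasCoproducts.{0} T] {E : RMod cobK R} {U} {p : ℕ} [Fact p.Prime] (Z : T0D E U p)

/-- **The class of `aJ`** is `t`. -/
theorem aJ_class : (sphI T ((p : ℤ) - 1)).inv ≫ E.evw 1 ((p : ℤ) - 1) ⟨Z.t, Z.wt⟩ ≫
    (am2 R).hom ≫ (R ◁ U.ρ) = Z.aJ ≫ unitMap R U.J := by
  rw [← coch_am2 U, Z.a_class, Category.assoc, ← unitMap_nat, T0D.aJ, Category.assoc]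

end tower

section main

open Vale.Agent.P251.G.LC

variable {T : Type u} [Category.{v} T] [Preadditive T] [HasZeroObject T]
    [HasShift T ℤ] [∀ n : ℤ, (shiftFunctor T n).Additive] [Pretriangulated T] [IsTriangulated T]
    [MonoidalCategory T] [SymmetricCategory T] [TensorTriangulated T] [MonoidalClosed T]
    [HasCoproducts.{0} T] [HasProducts.{0} T] [StableCat T]
variable {F : SpaceFunctor T} (e : F.S.obj CCF ≅ (stdEven T).L)
variable {D : MUData T} (oD : Q.Orientation (thK e D.R))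
  (hD : ∀ (s : ℕ) (z : Cob Laz s), D.ev s z = amEv e D.R oD s z)
variable {p : ℕ} [hp : Fact p.Prime] (b : BData D p)
variable {C : T} {iC : 𝟙_ T ⟶ C} {δC : C ⟶ (𝟙_ T)⟦(1 : ℤ)⟧}
  (hC : Triangle.mk ((p : ℤ) • 𝟙 (𝟙_ T)) iC δC ∈ distTriang T)
  {U : UnitCof b.obj} (Z : T0D b.rmod U p)

/-- the coefficient at `p - 1` of the comparison series of the two orientations of `B ⊗ B` -/
noncomputable def cpm : HRing (stdEven T) (Am b.obj 2) :=
  coefK e (Am b.obj 2)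
    ((CPSys.Coord.cmp (coordO (amO e b.obj ((thKHom e b.u).push oD) (0 : Fin 2)))
      (coordO (amO e b.obj ((thKHom e b.u).push oD) (1 : Fin 2))) (z_one_eq _ _)).c (p - 1))

include hD hC in
/-- **The comparison series and the lift of `α₁`.** -/
theorem exists_cmp_aJ (hp2 : p ≠ 2) (x : (stdEven T).S ((p : ℤ) - 1) ⟶ Am b.obj 2)
    (hx : HRing.of (stdEven T) (Am b.obj 2) ((p : ℤ) - 1) x = cpm e oD b) :
    ∃ y : (𝟙_ T)⟦2 * ((p : ℤ) - 1)⟧ ⟶ b.obj ⊗ U.J,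
      (sphI T ((p : ℤ) - 1)).inv ≫ x ≫ (am2 b.obj).hom ≫ (b.obj ◁ U.ρ) =
        - (Z.aJ ≫ unitMap b.obj U.J) + (p : ℤ) • y := by
  have hw : (p : ℤ) - 1 = ((p - 1 : ℕ) : ℤ) := by
    rw [Nat.cast_sub hp.out.one_lt.le, Nat.cast_one]
  obtain ⟨g, hg⟩ := exists_ev_t e oD hD b hC hp2 Z.isT1 hw Z.wt
  have h1 : HRing.of (stdEven T) (Am b.obj 2) ((p : ℤ) - 1)
      (b.rmod.evw 1 ((p : ℤ) - 1) ⟨Z.t, Z.wt⟩) =
      HRing.of (stdEven T) (Am b.obj 2) ((p : ℤ) - 1) (- x + (p : ℤ) • g) := by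
    refine hg.trans ?_
    have h2 : HRing.of (stdEven T) (Am b.obj 2) ((p : ℤ) - 1) (- x + (p : ℤ) • g) =
        - HRing.of (stdEven T) (Am b.obj 2) ((p : ℤ) - 1) x +
          (p : ℤ) • HRing.of (stdEven T) (Am b.obj 2) ((p : ℤ) - 1) g := by
      refine (map_add (DirectSum.of ((stdEven T).Gr (Am b.obj 2)) ((p : ℤ) - 1)) _ _).trans ?_
      exact congrArg₂ (· + ·)
        (map_neg (DirectSum.of ((stdEven T).Gr (Am b.obj 2)) ((p : ℤ) - 1)) _)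
        (map_zsmul (DirectSum.of ((stdEven T).Gr (Am b.obj 2)) ((p : ℤ) - 1)) _ _)
    rw [h2, hx]
    rfl
  have h3 := B.of_inj h1
  refine ⟨(sphI T ((p : ℤ) - 1)).inv ≫ g ≫ (am2 b.obj).hom ≫ (b.obj ◁ U.ρ), ?_⟩
  rw [← aJ_class Z, h3]
  simp only [Preadditive.add_comp, Preadditive.comp_add, Preadditive.neg_comp,
    Preadditive.comp_neg, Preadditive.zsmul_comp, Preadditive.comp_zsmul]
  abel

include hD in
/-- The coefficient is homogeneous. -/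
theorem exists_of_cpm : ∃ x : (stdEven T).S ((p : ℤ) - 1) ⟶ Am b.obj 2,
    HRing.of (stdEven T) (Am b.obj 2) ((p : ℤ) - 1) x = cpm e oD b := by
  have hw : (p : ℤ) - 1 = ((p - 1 : ℕ) : ℤ) := by
    rw [Nat.cast_sub hp.out.one_lt.le, Nat.cast_one]
  have h2 : tL p ∈ cobK.wt 1 ((p : ℤ) - 1) := by
    rw [hw]
    exact isWt_tL
  refine ⟨b.rmod.evw 1 _ ⟨tL p, h2⟩, ?_⟩
  have h3 := rmodOf_ev_X e oD hD b.u 1 0 (p - 2)
  have h4 : p - 2 + 1 = p - 1 := by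
    have := hp.out.two_le
    omega
  rw [h4] at h3
  exact (b.rmod.of_evw ⟨tL p, h2⟩).trans h3

end main

end Vale.Agent.P257.V4.T.HT
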