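import Vale.Agent.P251.G.LensFrames
import Vale.Agent.P251.M.BUGysin
import Vale.Agent.P251.M.FCInst
import Vale.Agent.P251.M.ThomMul

/-!
# P257, part T (T1): the spaces

* `isCofSeq_thom W V`: for bundles `W`, `V` over `Z` the cofibre sequence
  `Th(W | S(V)) → Th(W) → Th(W ⊕ V)`;
* `rhoC p κ = 1 ⊕ l ⊕ … ⊕ l^{p-1}` over the projective space of `ℂ^κ`, `kRho p κ K = ℂ^K ⊗ ρ`;
* `lens_ρW`: the bundle `ρW K` of the frames over the lens space is the pull back of `kRho p κ K`.
-/

set_option linter.unusedSectionVars false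

open CategoryTheory MonoidalCategory Limits Topology Matrix OnePoint Filter

noncomputable section

namespace Vale.Agent.P257.V4.T

open Vale.Agent.P251 Vale.Agent.P251.G Vale.Agent.P251.G.LC Vale.Agent.P251.G.Bun
open Vale.Agent.P251.M

/-! ### The cofibre sequence -/

theorem isCofSeq_of_iso₁ {A A' B C : LC} {f : A ⟶ B} {j : B ⟶ C} {d : C ⟶ A ⊗ RR}
    (h : IsCofSeq f j d) (e : A' ≅ A) : IsCofSeq (e.hom ≫ f) j (d ≫ e.inv ▷ RR) := by
  obtain ⟨⟨k, hk, hk'⟩, h0⟩ := h
  refine ⟨⟨e.hom ▷ HH ≫ k, ?_, ?_⟩, ?_⟩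
  · refine IsPushout.of_iso hk e.symm (whiskerRightIso e.symm HH) (Iso.refl _) (Iso.refl _)
      ?_ ?_ ?_ ?_
    · simp only [inclH, Iso.symm_hom, whiskerRightIso_hom, Category.assoc]
      rw [whisker_exchange, rightUnitor_inv_naturality_assoc]
    · simp
    · simp only [Iso.refl_hom, Category.comp_id, whiskerRightIso_hom, Iso.symm_hom]
      rw [← Category.assoc, ← comp_whiskerRight, Iso.inv_hom_id, id_whiskerRight,
        Category.id_comp]
    · simp
  · rw [Category.assoc, ← Category.assoc k, hk', whisker_exchange, ← Category.assoc,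
      ← comp_whiskerRight, Iso.hom_inv_id, id_whiskerRight, Category.id_comp]
  · rw [← Category.assoc, h0, zero_comp]

section gysin

variable {Z : LC} {ι κ : Type} [Fintype ι] [Fintype κ] (W : Bun Z ι) (V : Bun Z κ)

/-- the projection of the sphere bundle as a continuous map -/
def sphC : C(V.Sph, Z) := ⟨Sph.base, Sph.continuous_base⟩

@[simp] theorem sphC_apply (s : V.Sph) : sphC V s = s.base := rfl

/-- The sphere bundle of `V` over the total space of `W` is the total space of `W` over the sphere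
bundle of `V`. -/
def sphTotHomeo : (V.pullback (⟨base, continuous_base⟩ : C(W.E, Z))).Sph ≃ₜ
    (W.pullback (sphC V)).E where
  toFun s := mkE (W.pullback (sphC V)) (V.mkSph (base (Sph.base s)) (Sph.vec s) (Sph.P_vec s)
    (Sph.nsq_vec s)) (vec (Sph.base s)) (P_vec (Sph.base s))
  invFun q := mkSph (V.pullback (⟨base, continuous_base⟩ : C(W.E, Z)))
    (mkE W (Sph.base (base q)) (vec q) (P_vec q)) (Sph.vec (base q)) (Sph.P_vec (base q))
    (Sph.nsq_vec (base q))
  left_inv s := rfl
  right_inv q := rfl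
  continuous_toFun := by
    have h1 : Continuous fun s : (V.pullback (⟨base, continuous_base⟩ : C(W.E, Z))).Sph =>
        V.mkSph (base (Sph.base s)) (Sph.vec s) (Sph.P_vec s) (Sph.nsq_vec s) := by
      have h2 : Continuous fun s : (V.pullback (⟨base, continuous_base⟩ : C(W.E, Z))).Sph =>
        base (Sph.base s) := continuous_base.comp Sph.continuous_base
      exact continuous_Sph_iff.mpr ⟨h2, Sph.continuous_vec⟩
    exact continuous_mkE h1 (continuous_vec.comp Sph.continuous_base) _
  continuous_invFun := by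
    have h1 : Continuous fun q : (W.pullback (sphC V)).E =>
        mkE W (Sph.base (base q)) (vec q) (P_vec q) :=
      continuous_mkE (Sph.continuous_base.comp continuous_base) continuous_vec _
    have h2 : Continuous fun q : (W.pullback (sphC V)).E => Sph.vec (base q) :=
      Sph.continuous_vec.comp continuous_base
    exact continuous_Sph_iff.mpr ⟨h1, h2⟩

/-- the projection `Th(W | S(V)) → Th(W)` -/
def rHom : (W.pullback (sphC V)).tot ⟶ W.tot :=
  (ofHomeo (X := (V.pullback (⟨base, continuous_base⟩ : C(W.E, Z))).sph)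
      (Y := (W.pullback (sphC V)).tot) (sphTotHomeo W V)).inv ≫
    (V.pullback (⟨base, continuous_base⟩ : C(W.E, Z))).sphHom

theorem app_rHom (q : (W.pullback (sphC V)).E) :
    app (rHom W V) (q : OnePoint (W.pullback (sphC V)).E) =
      (mkE W (Sph.base (base q)) (vec q) (P_vec q) : OnePoint W.E) := rfl

/-- the zero section `Th(W) → Th(W ⊕ V)` -/
def zHom : W.tot ⟶ (W.sum V).tot :=
  (V.pullback (⟨base, continuous_base⟩ : C(W.E, Z))).zeroHom ≫ (Q.sumIso W V).inv

/-- the connecting map -/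
def cHom : (W.sum V).tot ⟶ (W.pullback (sphC V)).tot ⊗ RR :=
  ((Q.sumIso W V).hom ≫ (V.pullback (⟨base, continuous_base⟩ : C(W.E, Z))).polarConn) ≫
    (ofHomeo (X := (V.pullback (⟨base, continuous_base⟩ : C(W.E, Z))).sph)
      (Y := (W.pullback (sphC V)).tot) (sphTotHomeo W V)).hom ▷ RR

theorem isCofSeq_thom : IsCofSeq (rHom W V) (zHom W V) (cHom W V) := by
  have h1 : IsCofSeq (V.pullback (⟨base, continuous_base⟩ : C(W.E, Z))).sphHom
      (V.pullback (⟨base, continuous_base⟩ : C(W.E, Z))).zeroHom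
      (V.pullback (⟨base, continuous_base⟩ : C(W.E, Z))).polarConn := isCofSeq_polar _
  exact isCofSeq_of_iso₁ (h1.of_iso₃ (Q.sumIso W V).symm)
    (ofHomeo (X := (V.pullback (⟨base, continuous_base⟩ : C(W.E, Z))).sph)
      (Y := (W.pullback (sphC V)).tot) (sphTotHomeo W V)).symm

end gysin

/-! ### The bundles -/

variable (p : ℕ) (κ K : Type) [Fintype κ] [Fintype K] [DecidableEq K]

/-- the bundle `ρ = 1 ⊕ l ⊕ … ⊕ l^{p-1}` over the projective space -/
def rhoC : Bun (Gr 1 κ) (RhoIdx p κ) :=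
  (Bun.triv (Gr 1 κ) Unit).sum (Bun.sigma fun i : Fin (p - 1) => (taut 1 κ).tpow ((i : ℕ) + 1))

/-- the bundle `ℂ^K ⊗ ρ` over the projective space -/
def kRho : Bun (Gr 1 κ) (K × RhoIdx p κ) := (Bun.triv (Gr 1 κ) K).tensor (rhoC p κ)

theorem lens_ρW (hp : p ≠ 0) :
    (lensFrames p hp κ).ρW K = (kRho p κ K).pullback (Lens.toGr p κ) := by
  apply Bun.ext
  funext y
  rw [Frames.ρW_P, lensFrames_ρ]
  rfl

end Vale.Agent.P257.V4.T
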