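import Vale.Agent.P257.V4.T.Dict
import Vale.Agent.P257.V4.T.FibCls

/-!
# P257, block T: the suspension classes come from the sphere

For the class `o.lin J` of `ℂ^J` in the theory of `K` there is a morphism `g` of `T` (not only of
free `K`-modules) which represents it: `exists_linHom`.
-/

open CategoryTheory MonoidalCategory Limits Pretriangulated MonObj
open Vale.Agent.P251.G Vale.Agent.P251.G.LC Vale.Agent.P251.I Vale.Agent.P251.T
open Vale.Agent.P251.M Vale.Agent.P251.S Vale.Agent.P251.M.EvenSpheres Vale.Agent.P251.Q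

universe v u w

set_option linter.unusedSectionVars false
set_option linter.style.haveILetI false

noncomputable section

namespace Vale.Agent.P257.V4.T

section linU

variable (E : MultTheory.{v})

/-- the suspension class, without an orientation -/
def linU : ∀ n : ℕ, E.U (Cpow (Fin n))
  | 0 => E.map (cpowEmpty (Fin 0)).inv E.one
  | n + 1 => E.map (cpowIso (finSumUnit n).symm).hom (E.map (Th.csum (Fin n) Unit).inv
      (E.cross (linU n) (E.map cpowUnit.hom E.sg)))

variable {E}

theorem linU_deg (n : ℕ) : linU E n ∈ E.deg (Cpow (Fin n)) n := by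
  induction n with
  | zero => exact MultTheory.map_deg _ E.one_deg
  | succ n ih =>
    have h1 := MultTheory.cross_deg ih (MultTheory.map_deg (E := E) cpowUnit.hom E.sg_deg)
    have h2 : ((n + 1 : ℕ) : ℤ) = (n : ℤ) + 1 := by push_cast; rfl
    rw [h2]
    exact MultTheory.map_deg _ (MultTheory.map_deg _ h1)

theorem lin_eq_linU (o : Orientation E) (n : ℕ) : o.lin (Fin n) = linU E n := by
  induction n with
  | zero =>
    rw [linU, ← lin_empty o (I := Fin 0), MultTheory.map_inv_hom]
  | succ n ih =>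
    rw [linU, ← ih, ← lin_unit o, MultTheory.map_hom_inv, ← lin_sum, MultTheory.map_inv_hom,
      lin_reindex]

theorem linU_app {E' : MultTheory.{w}} (φ : MultTheory.Hom E E') (n : ℕ) :
    φ.app (Cpow (Fin n)) (linU E n) = linU E' n := by
  induction n with
  | zero => rw [linU, linU, φ.app_map, φ.app_one]
  | succ n ih =>
    rw [linU, linU, φ.app_map, φ.app_map, φ.app_cross, ih, φ.app_map, φ.app_sg]

end linU

section linHom

variable {T : Type u} [Category.{v} T] [Preadditive T] [HasZeroObject T]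
    [HasShift T ℤ] [∀ n : ℤ, (shiftFunctor T n).Additive] [Pretriangulated T] [IsTriangulated T]
    [MonoidalCategory T] [SymmetricCategory T] [TensorTriangulated T] [MonoidalClosed T]
    [HasCoproducts.{0} T] [HasProducts.{0} T] [StableCat T]
  {S : EvenSpheres T} {F : SpaceFunctor T} {e : F.S.obj CCF ≅ S.L}
  {K : T} [MonObj K] [IsCommMonObj K]

/-- the vector space `ℂ^J` as a finite cell space -/
abbrev cpF (J : Type) [Fintype J] : FCat := ⟨Cpow J, Cell.fc_cvec J⟩

theorem pu_one {A B : T} (f : FM.of (R := 𝟙_ T) A ⟶ FM.of B) :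
    pu (η[K]) f = (FM.free K).map
      (FM.Hom.hom (R := 𝟙_ T) (X := FM.of A) (Y := FM.of B) f ≫ (λ_ B).hom) := by
  apply FM.hom_ext
  rw [pu_hom]
  change _ = (FM.Hom.hom (R := 𝟙_ T) (X := FM.of A) (Y := FM.of B) f ≫ (λ_ B).hom) ≫ FM.unit K B
  rw [FM.unit, Category.assoc, Iso.hom_inv_id_assoc]

theorem exists_linHom (o : Orientation (thK e K)) (J : Type) [Fintype J] [DecidableEq J] :
    ∃ g : F.S.obj (cpF J) ⟶ S.S ((Fintype.card J : ℕ) : ℤ),
      IsC e (cpF J) (Fintype.card J : ℕ) (o.lin J) ((FM.free K).map g) := by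
  obtain ⟨f, hf⟩ := exists_isC (e := e) (K := 𝟙_ T) (X := cpF (Fin (Fintype.card J)))
    (linU_deg (Fintype.card J))
  have h1 := hf.push (η[K])
  rw [pu_one] at h1
  have h2 : (thKHom e η[K]).app (Cpow (Fin (Fintype.card J))) (linU _ (Fintype.card J)) =
      o.lin (Fin (Fintype.card J)) := by
    rw [linU_app, lin_eq_linU]
  have h3 : IsC e (cpF (Fin (Fintype.card J))) (Fintype.card J : ℕ)
      (o.lin (Fin (Fintype.card J))) _ := h2 ▸ h1
  have h4 := h3.map (X := cpF J) (FCat.hom (X := cpF J) (Y := cpF (Fin (Fintype.card J)))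
    (cpowIso (Fintype.equivFin J)).hom)
  have h5 : (thK e K).map (cpowIso (Fintype.equivFin J)).hom (o.lin (Fin (Fintype.card J))) =
      o.lin J := lin_reindex o _
  refine ⟨F.S.map (FCat.hom (X := cpF J) (Y := cpF (Fin (Fintype.card J)))
    (cpowIso (Fintype.equivFin J)).hom) ≫
      (FM.Hom.hom (R := 𝟙_ T) (X := FM.of _) (Y := FM.of _) f ≫ (λ_ _).hom), ?_⟩
  rw [(FM.free K).map_comp, ← h5]
  exact h4

end linHom

end Vale.Agent.P257.V4.T
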