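import Mathlib.Algebra.Module.LinearMap.Basic
import Mathlib.Algebra.BigOperators.Group.Finset.Basic
import Mathlib.Algebra.Module.BigOperators
import Mathlib.Data.Nat.Choose.Sum
import Mathlib.Data.Nat.Choose.Dvd
import Mathlib.Tactic.Ring
import Mathlib.Tactic.Abel
import Mathlib.Tactic.LinearCombination

/-!
# P257, V(4), part T (T3): the algebra of the cochain bounding `b`

`Λ` a commutative ring, `M k` (`k = 0, 1, ...`) modules with linear maps `I k, Z k : M k → M (k+1)`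
and `e : M 0`. The elements `yy k j` (`j ≤ k`) are `j! (k-j)!` times the `j`-th elementary symmetric
function of `k` copies of `Z`:

`yy (k+1) j = (k+1-j) I (yy k j) + j Z (yy k (j-1))`.

* `yy_translate`: replacing `Z` by `Z + a I` replaces `yy k j` by `∑ binom(j,i) a^(j-i) yy k i`;
* `W c t y = ∑_{0<i<p} (binom(p,i)/p) t^(p-i) y_i`, `W_cocycle`.
-/

namespace Vale.Agent.P257.V4.T

open Finset

section yy

variable {Λ : Type*} [CommRing Λ] {M : ℕ → Type*} [∀ k, AddCommGroup (M k)]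
  [∀ k, Module Λ (M k)]

/-- `j! (k-j)! e_j(Z, ..., Z)` applied to `e`. -/
def yy (I Z : ∀ k, M k → M (k + 1)) (e : M 0) : ∀ k : ℕ, ℕ → M k
  | 0, j => if j = 0 then e else 0
  | k + 1, j => ((k : ℤ) + 1 - j) • I k (yy I Z e k j) + (j : ℤ) • Z k (yy I Z e k (j - 1))

variable (I Z : ∀ k, M k → M (k + 1)) (e : M 0)

lemma yy_zero_left (j : ℕ) : yy I Z e 0 j = if j = 0 then e else 0 := rfl

lemma yy_succ (k j : ℕ) : yy I Z e (k + 1) j =
    ((k : ℤ) + 1 - j) • I k (yy I Z e k j) + (j : ℤ) • Z k (yy I Z e k (j - 1)) := rfl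

/-- naturality -/
lemma yy_nat {M' : ℕ → Type*} [∀ k, AddCommGroup (M' k)] (I' Z' : ∀ k, M' k → M' (k + 1))
    (φ : ∀ k, M k →+ M' k) (hI : ∀ k x, φ (k + 1) (I k x) = I' k (φ k x))
    (hZ : ∀ k x, φ (k + 1) (Z k x) = Z' k (φ k x)) (k j : ℕ) :
    φ k (yy I Z e k j) = yy I' Z' (φ 0 e) k j := by
  induction k generalizing j with
  | zero =>
    rw [yy_zero_left, yy_zero_left]
    split_ifs
    · rfl
    · exact map_zero _
  | succ k ih => rw [yy_succ, yy_succ, map_add, map_zsmul, map_zsmul, hI, hZ, ih, ih]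

/-- the iterate of `I` -/
def itI (I : ∀ k, M k → M (k + 1)) (e : M 0) : ∀ k : ℕ, M k
  | 0 => e
  | k + 1 => I k (itI I e k)

lemma yy_zero_right (hI : ∀ k (n : ℤ) x, I k (n • x) = n • I k x) (k : ℕ) :
    yy I Z e k 0 = ((k.factorial : ℕ) : ℤ) • itI I e k := by
  induction k with
  | zero => rw [yy_zero_left, if_pos rfl]; simp [itI]
  | succ k ih =>
    rw [yy_succ, ih, hI, itI, smul_smul, Nat.factorial_succ]
    push_cast
    simp

lemma trans_aux1 {N : Type*} [AddCommGroup N] [Module Λ N] (a : Λ) (w : ℕ → N) (l : ℕ) :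
    ∑ i ∈ range (l + 2), ((l + 1).choose i : ℤ) • a ^ (l + 1 - i) • ((i : ℤ) • w (i - 1)) =
      ((l + 1 : ℕ) : ℤ) • ∑ i ∈ range (l + 1), (l.choose i : ℤ) • a ^ (l - i) • w i := by
  rw [sum_range_succ']
  simp only [Nat.cast_zero, zero_smul, smul_zero, add_zero]
  rw [smul_sum]
  refine sum_congr rfl fun i _ => ?_
  have h : ((l + 1).choose (i + 1) : ℤ) * ((i + 1 : ℕ) : ℤ) = ((l + 1 : ℕ) : ℤ) * (l.choose i : ℤ) := by
    exact_mod_cast (Nat.add_one_mul_choose_eq l i).symm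
  rw [Nat.add_sub_add_right, Nat.add_sub_cancel, smul_comm (a ^ (l - i)) (((i + 1 : ℕ) : ℤ)),
    smul_smul, smul_smul, h]

lemma trans_aux2 {N : Type*} [AddCommGroup N] [Module Λ N] (a : Λ) (u : ℕ → N) (l : ℕ) (c : ℤ) :
    (c - ((l + 1 : ℕ) : ℤ)) • ∑ i ∈ range (l + 2), ((l + 1).choose i : ℤ) • a ^ (l + 1 - i) • u i +
      ((l + 1 : ℕ) : ℤ) • a • ∑ i ∈ range (l + 1), (l.choose i : ℤ) • a ^ (l - i) • u i =
    ∑ i ∈ range (l + 2), ((l + 1).choose i : ℤ) • a ^ (l + 1 - i) • ((c - i) • u i) := by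
  have h1 : ((l + 1 : ℕ) : ℤ) • a • ∑ i ∈ range (l + 1), (l.choose i : ℤ) • a ^ (l - i) • u i =
      ∑ i ∈ range (l + 2), ((((l + 1 : ℕ) : ℤ) - i) * ((l + 1).choose i : ℤ)) •
        a ^ (l + 1 - i) • u i := by
    rw [sum_range_succ _ (l + 1), sub_self, zero_mul, zero_smul, add_zero, smul_sum, smul_sum]
    refine sum_congr rfl fun i hi => ?_
    have hi' : i ≤ l := by rw [mem_range] at hi; omega
    have h : (l.choose i : ℤ) * ((l + 1 : ℕ) : ℤ) =
        ((l + 1).choose i : ℤ) * (((l + 1 : ℕ) : ℤ) - i) := by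
      have h3 := Nat.choose_mul_succ_eq l i
      have h4 : ((l + 1 - i : ℕ) : ℤ) = ((l + 1 : ℕ) : ℤ) - i := by
        rw [Nat.cast_sub (by omega)]
      rw [← h4]
      exact_mod_cast h3
    rw [smul_comm a, smul_smul, mul_comm, h, mul_comm, smul_smul a, ← pow_succ',
      show l - i + 1 = l + 1 - i by omega]
  rw [h1, smul_sum, ← sum_add_distrib]
  refine sum_congr rfl fun i _ => ?_
  rw [smul_comm (a ^ (l + 1 - i)) (c - (i : ℤ)), smul_smul, smul_smul, ← add_smul]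
  congr 1
  ring

/-- Translation. -/
theorem yy_translate (I Z : ∀ k, M k →ₗ[Λ] M (k + 1)) (e : M 0) (a : Λ)
    (Z' : ∀ k, M k → M (k + 1)) (hZ' : ∀ k x, Z' k x = Z k x + a • I k x) (k j : ℕ) (hj : j ≤ k) :
    yy (fun k => I k) Z' e k j =
      ∑ i ∈ range (j + 1), (j.choose i : ℤ) • a ^ (j - i) •
        yy (fun k => I k) (fun k => Z k) e k i := by
  induction k generalizing j with
  | zero =>
    obtain rfl : j = 0 := by omega
    simp [yy_zero_left]
  | succ k ih =>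
    have h1 : ((k : ℤ) + 1 - j) • I k (yy (fun k => I k) Z' e k j) =
        ((k : ℤ) + 1 - j) • ∑ i ∈ range (j + 1), (j.choose i : ℤ) • a ^ (j - i) •
          I k (yy (fun k => I k) (fun k => Z k) e k i) := by
      rcases Nat.lt_or_ge k j with h | h
      · have : (k : ℤ) + 1 - j = 0 := by omega
        rw [this, zero_smul, zero_smul]
      · rw [ih j h, map_sum]
        simp only [map_smul, map_zsmul]
    rcases Nat.eq_zero_or_pos j with h0 | h0
    · subst h0
      rw [yy_succ, h1]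
      simp [yy_succ]
    · obtain ⟨l, rfl⟩ : ∃ l, j = l + 1 := ⟨j - 1, by omega⟩
      have h2 := ih l (by omega)
      have h3 : ∀ i, yy (fun k => I k) (fun k => Z k) e (k + 1) i =
          (((k : ℤ) + 1) - i) • I k (yy (fun k => I k) (fun k => Z k) e k i) +
            (i : ℤ) • Z k (yy (fun k => I k) (fun k => Z k) e k (i - 1)) := fun i => rfl
      rw [yy_succ, h1, Nat.add_sub_cancel, hZ', h2]
      simp only [h3, smul_add, sum_add_distrib]
      rw [trans_aux1 a (fun i => Z k (yy (fun k => I k) (fun k => Z k) e k i)) l,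
        ← trans_aux2 a (fun i => I k (yy (fun k => I k) (fun k => Z k) e k i)) l ((k : ℤ) + 1)]
      simp only [map_sum, map_smul, map_zsmul]
      abel

end yy

section W

/-- `binom(p,i)/p` -/
def ccN (p i : ℕ) : ℕ := p.choose i / p

lemma p_mul_ccN {p : ℕ} (hp : p.Prime) {i : ℕ} (hi : i ∈ Ioo 0 p) : p * ccN p i = p.choose i := by
  rw [mem_Ioo] at hi
  exact Nat.mul_div_cancel' (hp.dvd_choose_self hi.1.ne' hi.2)

lemma cc_mul_choose {p : ℕ} (hp : p.Prime) {i l : ℕ} (hi : i ∈ Ioo 0 p) (hl : l ∈ Ioo 0 p)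
    (hli : l ≤ i) : ccN p i * i.choose l = ccN p l * (p - l).choose (i - l) := by
  apply Nat.eq_of_mul_eq_mul_left hp.pos
  rw [← mul_assoc, ← mul_assoc, p_mul_ccN hp hi, p_mul_ccN hp hl]
  rw [mem_Ioo] at hi
  exact Nat.choose_mul hli

lemma cc_sum {Λ : Type*} [CommRing Λ] {p : ℕ} (hp : p.Prime) (a b : Λ) {l : ℕ}
    (hl : l ∈ Ioo 0 p) :
    ∑ i ∈ Ioo 0 p, ((ccN p i * i.choose l : ℕ) : Λ) * (a ^ (p - i) * b ^ (i - l)) =
      (ccN p l : Λ) * ((a + b) ^ (p - l) - b ^ (p - l)) := by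
  have hl' := mem_Ioo.1 hl
  have h1 : ∑ i ∈ Ioo 0 p, ((ccN p i * i.choose l : ℕ) : Λ) * (a ^ (p - i) * b ^ (i - l)) =
      ∑ i ∈ Ico l p, ((ccN p i * i.choose l : ℕ) : Λ) * (a ^ (p - i) * b ^ (i - l)) := by
    symm
    apply sum_subset
    · intro i hi
      rw [mem_Ico] at hi
      rw [mem_Ioo]
      omega
    · intro i hi hi'
      rw [mem_Ioo] at hi
      rw [mem_Ico] at hi'
      rw [Nat.choose_eq_zero_of_lt (by omega)]
      simp
  rw [h1, sum_Ico_eq_sum_range, add_comm a b, add_pow, sum_range_succ]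
  have h2 : b ^ (p - l) * a ^ (p - l - (p - l)) * ((p - l).choose (p - l) : Λ) = b ^ (p - l) := by
    simp
  rw [h2, add_sub_cancel_right, mul_sum]
  refine sum_congr rfl fun m hm => ?_
  rw [mem_range] at hm
  rw [cc_mul_choose hp (i := l + m) (by rw [mem_Ioo]; omega) hl (by omega),
    Nat.add_sub_cancel_left, show p - (l + m) = p - l - m by omega]
  push_cast
  ring

/-- The cochain bounding `b`. -/
def WW {Λ N : Type*} [CommRing Λ] [AddCommGroup N] [Module Λ N] (p : ℕ) (t : Λ) (y : ℕ → N) : N :=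
  ∑ i ∈ Ioo 0 p, (ccN p i : Λ) • t ^ (p - i) • y i

/-- The cochain `b`. -/
def bb {Λ : Type*} [CommRing Λ] (p : ℕ) (a b : Λ) : Λ :=
  ∑ i ∈ Ioo 0 p, (ccN p i : Λ) * (a ^ (p - i) * b ^ i)

/-- **The cochain `WW` bounds `b`.** -/
theorem WW_cocycle {Λ N : Type*} [CommRing Λ] [AddCommGroup N] [Module Λ N] {p : ℕ}
    (hp : p.Prime) (a b : Λ) (y y' : ℕ → N)
    (hy : ∀ j < p, y' j = ∑ i ∈ range (j + 1), (j.choose i : ℤ) • b ^ (j - i) • y i) :
    WW p a y' - WW p (a + b) y + WW p b y = bb p a b • y 0 := by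
  have h1 : WW p a y' = ∑ l ∈ range p, (∑ i ∈ Ioo 0 p,
      ((ccN p i * i.choose l : ℕ) : Λ) * (a ^ (p - i) * b ^ (i - l))) • y l := by
    simp only [sum_smul]
    rw [sum_comm, WW]
    refine sum_congr rfl fun i hi => ?_
    rw [mem_Ioo] at hi
    rw [hy i hi.2, smul_sum, smul_sum]
    have h2 : ∑ l ∈ range p, (((ccN p i * i.choose l : ℕ) : Λ) *
        (a ^ (p - i) * b ^ (i - l))) • y l =
        ∑ l ∈ range (i + 1), (((ccN p i * i.choose l : ℕ) : Λ) *
        (a ^ (p - i) * b ^ (i - l))) • y l := by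
      symm
      apply sum_subset
      · intro l hl
        rw [mem_range] at hl ⊢
        omega
      · intro l _ hl'
        rw [mem_range] at hl'
        rw [Nat.choose_eq_zero_of_lt (by omega)]
        simp
    rw [h2]
    refine sum_congr rfl fun l _ => ?_
    rw [← Int.cast_smul_eq_zsmul Λ, smul_smul, smul_smul, smul_smul]
    congr 1
    push_cast
    ring
  have hr : range p = insert 0 (Ioo 0 p) := by
    ext i
    have := hp.pos
    simp only [mem_range, mem_Ioo, mem_insert]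
    omega
  have h0 : (∑ i ∈ Ioo 0 p, ((ccN p i * i.choose 0 : ℕ) : Λ) * (a ^ (p - i) * b ^ (i - 0))) =
      bb p a b := by
    rw [bb]
    refine sum_congr rfl fun i _ => ?_
    simp
  rw [h1, hr, sum_insert (by simp), h0]
  have h3 : ∑ l ∈ Ioo 0 p, (∑ i ∈ Ioo 0 p,
      ((ccN p i * i.choose l : ℕ) : Λ) * (a ^ (p - i) * b ^ (i - l))) • y l =
      WW p (a + b) y - WW p b y := by
    rw [WW, WW, ← sum_sub_distrib]
    refine sum_congr rfl fun l hl => ?_
    rw [cc_sum hp a b hl, smul_smul, smul_smul, ← sub_smul, mul_sub]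
  rw [h3]
  abel

lemma bb_symm {Λ : Type*} [CommRing Λ] {p : ℕ} (a b : Λ) :
    bb p a b = ∑ i ∈ Ioo 0 p, (ccN p i : Λ) * (a ^ i * b ^ (p - i)) := by
  rw [bb]
  refine sum_bij' (fun i _ => p - i) (fun i _ => p - i) ?_ ?_ ?_ ?_ ?_
  · intro i hi; rw [mem_Ioo] at hi ⊢; omega
  · intro i hi; rw [mem_Ioo] at hi ⊢; omega
  · intro i hi; rw [mem_Ioo] at hi; omega
  · intro i hi; rw [mem_Ioo] at hi; omega
  · intro i hi
    rw [mem_Ioo] at hi
    rw [show ccN p (p - i) = ccN p i by rw [ccN, ccN, Nat.choose_symm hi.2.le],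
      show p - (p - i) = i by omega]

end W

end Vale.Agent.P257.V4.T
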