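import Vale.Agent.P257.V4.T.PowT
import Vale.Agent.P251.G.LensFrames

/-!
# P257, part T (T2): the extended power over the lens space
-/

open CategoryTheory MonoidalCategory Limits Pretriangulated OnePoint Topology
open Vale.Agent.P251.G Vale.Agent.P251.G.LC Vale.Agent.P251.M Vale.Agent.P251.T
  Vale.Agent.P251.I

universe v u

set_option linter.unusedSectionVars false

namespace Vale.Agent.P257.V4.T

variable {T : Type u} [Category.{v} T] [Preadditive T] [HasZeroObject T]
    [HasShift T ℤ] [∀ n : ℤ, (shiftFunctor T n).Additive] [Pretriangulated T]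
    [MonoidalCategory T] [SymmetricCategory T] [TensorTriangulated T]
variable {S : SpaceFunctor T}

instance hasChain_lens (p : ℕ) (κ : Type) [Fintype κ] : Cell.HasChain (Lens p κ) :=
  inferInstanceAs (Cell.HasChain ((taut 1 κ).tpow p).Sph)

/-- the total space of a bundle over the lens space is a finite cell space -/
theorem fc_lens_tot (p : ℕ) (κ : Type) [Fintype κ] {ι : Type} [Fintype ι]
    (V : Bun (Lens p κ) ι) : LC.FC V.tot :=
  Cell.fc_tot V

/-- the Thom space of `K ⊗ ρ` over the lens space `S(ℂ^κ)/μ_p` -/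
noncomputable def lensE (p : ℕ) (hp : p ≠ 0) (κ K : Type) [Fintype κ] [Fintype K]
    [DecidableEq K] : FCat :=
  ⟨((lensFrames p hp κ).ρW K).tot, fc_lens_tot p κ _⟩

/-- the inclusion of the fibre of `K ⊗ ρ` over the image of the unit vector `x` -/
noncomputable def lensFib (p : ℕ) [NeZero p] (κ K : Type) [Fintype κ] [Fintype K]
    [DecidableEq K] (x : SS κ) : pwF (VF K) p ⟶ lensE p (NeZero.ne p) κ K :=
  fibF (lensFrames p (NeZero.ne p) κ) K (fc_lens_tot p κ _) x

/-- **The extended power over the lens space.** -/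
theorem toda_pow_lens (p : ℕ) [NeZero p] (κ K : Type) [Fintype κ] [Fintype K] [DecidableEq K]
    (b : S.S.obj (VF K) ⟶ 𝟙_ T) :
    ∃ P : S.S.obj (lensE p (NeZero.ne p) κ K) ⟶ 𝟙_ T,
      ∀ x : SS κ, S.S.map (lensFib p κ K x) ≫ P = bpow b p :=
  toda_pow (lensFrames p (NeZero.ne p) κ) K (fc_lens_tot p κ _) b

end Vale.Agent.P257.V4.T
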