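import Vale.Agent.P257.V4.T.Cls
import Vale.Agent.P251.G.PowLC

/-!
# P257, part T (T2): the class of the `n`-fold power of a representing map

`IsCls b f` implies `IsCls (bpow b n) (powMap n f)`.
-/

open CategoryTheory MonoidalCategory Limits Pretriangulated OnePoint
open Vale.Agent.P251.G Vale.Agent.P251.G.LC Vale.Agent.P251.M Vale.Agent.P251.T
  Vale.Agent.P251.I

universe v u

set_option linter.unusedSectionVars false

namespace Vale.Agent.P257.V4.T

section spaces

/-- `X × (Fin n → X) ≃ₜ (Fin (n + 1) → X)` -/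
def consHomeo (X : Type) [TopologicalSpace X] (n : ℕ) :
    X × (Fin n → X) ≃ₜ (Fin (n + 1) → X) where
  toFun p := Fin.cons (α := fun _ => X) p.1 p.2
  invFun z := (z 0, fun l => z l.succ)
  left_inv _ := rfl
  right_inv z := Fin.cons_self_tail z
  continuous_toFun := by
    refine continuous_pi fun l => ?_
    induction l using Fin.cases with
    | zero => exact continuous_fst
    | succ l => exact (continuous_apply l).comp continuous_snd
  continuous_invFun :=
    (continuous_apply 0).prodMk (continuous_pi fun l => continuous_apply l.succ)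

/-- powers of finite cell spaces -/
theorem fc_pow {X : LC} (hX : LC.FC X) (n : ℕ) : LC.FC (LC.of (Fin n → X)) := by
  induction n with
  | zero =>
    have : Unique (LC.of (Fin 0 → X)) := inferInstanceAs (Unique (Fin 0 → X))
    exact FC.of_unique _
  | succ n ih =>
    exact FC.of_homeo (X := X ⊗ LC.of (Fin n → X)) (Y := LC.of (Fin (n + 1) → X))
      (hX.tensor ih) (consHomeo X n)

/-- the power of a finite cell space -/
def pwF (X : FCat) (n : ℕ) : FCat := ⟨LC.of (Fin n → X.obj), fc_pow X.property n⟩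

/-- `X ⊗ X^n ≅ X^(n+1)` -/
def consIso (X : FCat) (n : ℕ) : X ⊗ pwF X n ≅ pwF X (n + 1) :=
  fcIso (X := X ⊗ pwF X n) (Y := pwF X (n + 1))
    (ofHomeo (X := LC.of (X.obj × (Fin n → X.obj))) (Y := LC.of (Fin (n + 1) → X.obj))
      (consHomeo X.obj n))

/-- `(J → X) × (J → Z) ≃ₜ (J → X × Z)` -/
def zipHomeo (J X Z : Type) [TopologicalSpace X] [TopologicalSpace Z] :
    (J → X) × (J → Z) ≃ₜ (J → X × Z) where
  toFun a j := (a.1 j, a.2 j)
  invFun b := (fun j => (b j).1, fun j => (b j).2)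
  left_inv _ := rfl
  right_inv _ := rfl
  continuous_toFun := by fun_prop
  continuous_invFun := by fun_prop

/-- the `J`-fold power of `f : X ⊗ Z ⟶ Z`, rearranged -/
noncomputable def zipPow (J : Type) [Finite J] {X Z : LC} (f : X ⊗ Z ⟶ Z) :
    LC.of (J → X) ⊗ LC.of (J → Z) ⟶ LC.of (J → Z) :=
  (ofHomeo (X := LC.of ((J → X) × (J → Z))) (Y := LC.of (J → X × Z)) (zipHomeo J X Z)).hom ≫
    LC.powHom J f

theorem app_zipPow (J : Type) [Finite J] {X Z : LC} (f : X ⊗ Z ⟶ Z) (x : J → X) (z : J → Z) :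
    app (zipPow J f) (((x, z) : (J → X) × (J → Z)) : OnePoint ((J → X) × (J → Z))) =
      OP.smash fun j => app f ((x j, z j) : X × Z) := rfl

theorem smash_cons {Z : Type} {n : ℕ} (y : Fin (n + 1) → OnePoint Z) :
    OnePoint.map (fun p : Z × (Fin n → Z) => Fin.cons (α := fun _ => Z) p.1 p.2)
      (LC.smash (y 0) (OP.smash fun j : Fin n => y j.succ)) = OP.smash y := by
  by_cases h : ∀ j, ∃ z : Z, (z : OnePoint Z) = y j
  · choose z hz using h
    have : y = fun j => (z j : OnePoint Z) := funext fun j => (hz j).symm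
    subst this
    rw [OP.smash_coe, OP.smash_coe]
    change ((Fin.cons (α := fun _ => Z) (z 0) (fun j : Fin n => z j.succ) : Fin (n + 1) → Z) :
      OnePoint (Fin (n + 1) → Z)) = _
    congr 1
    exact Fin.cons_self_tail z
  · push Not at h
    obtain ⟨j, hj⟩ := h
    have hj' : y j = ∞ := by
      by_contra hcon
      obtain ⟨z, hz⟩ := OnePoint.ne_infty_iff_exists.1 hcon
      exact hj z hz
    rw [OP.smash_infty y hj']
    induction j using Fin.cases with
    | zero => rw [hj', LC.smash_infty_left]; rfl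
    | succ j => rw [OP.smash_infty (fun j : Fin n => y j.succ) hj', LC.smash_infty_right]; rfl

/-- the `n`-fold power -/
noncomputable def powMap {X Z : FCat} (f : X ⊗ Z ⟶ Z) (n : ℕ) :
    pwF X n ⊗ pwF Z n ⟶ pwF Z n :=
  FCat.hom (X := pwF X n ⊗ pwF Z n) (Y := pwF Z n)
    (zipPow (Fin n) (X := X.obj) (Z := Z.obj) f.hom)

/-- `X^0` is a point -/
def pwZero (X : FCat) : pwF X 0 ≅ 𝟙_ FCat :=
  fcIso (X := pwF X 0) (Y := 𝟙_ FCat)
    (ofHomeo (X := LC.of (Fin 0 → X.obj)) (Y := LC.of Unit)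
      { toFun := fun _ => ()
        invFun := fun _ => default
        left_inv := fun _ => Subsingleton.elim _ _
        right_inv := fun _ => rfl
        continuous_toFun := continuous_const
        continuous_invFun := continuous_const })

theorem powMap_zero {X Z : FCat} (f : X ⊗ Z ⟶ Z) :
    powMap f 0 = ((pwZero X).hom ▷ pwF Z 0) ≫ (λ_ (pwF Z 0)).hom := by
  apply ObjectProperty.hom_ext
  apply LC.hom_ext
  rintro ⟨x, z⟩
  change Fin 0 → X.obj at x
  change Fin 0 → Z.obj at z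
  have h1 : OP.smash (fun j : Fin 0 => app f.hom ((x j, z j) : X.obj × Z.obj)) =
      (z : OnePoint (Fin 0 → Z.obj)) := by
    rw [← OP.smash_coe]
    congr 1
    funext j
    exact j.elim0
  exact h1

/-- two actions, one after the other -/
theorem app_two {X A Z C : LC} (f : X ⊗ Z ⟶ Z) (h : A ⊗ C ⟶ C) (x : OnePoint X)
    (a : OnePoint A) (z : OnePoint Z) (c : OnePoint C) :
    app ((α_ X A (Z ⊗ C)).hom ≫ (X ◁ ((A ◁ (β_ C Z).inv) ≫ ((α_ A C Z).inv ≫ (h ▷ Z)) ≫
      (β_ C Z).hom)) ≫ ((α_ X Z C).inv ≫ (f ▷ C))) (LC.smash (LC.smash x a) (LC.smash z c)) =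
      LC.smash (app f (LC.smash x z)) (app h (LC.smash a c)) := by
  have hb : (β_ C Z).inv = (β_ Z C).hom := (SymmetricCategory.braiding_swap_eq_inv_braiding C Z).symm
  rw [hb]
  simp only [app_comp]
  rw [app_associator_smash, app_whiskerLeft_smash]
  simp only [app_comp]
  rw [app_whiskerLeft_smash, app_braiding_smash, app_associator_inv_smash,
    app_whiskerRight_smash, app_braiding_smash, app_associator_inv_smash, app_whiskerRight_smash]

theorem powMap_succ {X Z : FCat} (f : X ⊗ Z ⟶ Z) (n : ℕ) :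
    powMap f (n + 1) = ((consIso X n).inv ▷ pwF Z (n + 1)) ≫
      ((X ⊗ pwF X n) ◁ (consIso Z n).inv) ≫
      ((α_ X (pwF X n) (Z ⊗ pwF Z n)).hom ≫
        (X ◁ ((pwF X n ◁ (β_ (pwF Z n) Z).inv) ≫
          ((α_ (pwF X n) (pwF Z n) Z).inv ≫ (powMap f n ▷ Z)) ≫ (β_ (pwF Z n) Z).hom)) ≫
        ((α_ X Z (pwF Z n)).inv ≫ (f ▷ pwF Z n))) ≫ (consIso Z n).hom := by
  apply ObjectProperty.hom_ext
  apply LC.hom_ext
  rintro ⟨x, z⟩
  have h0 : app (powMap f (n + 1)).hom (((x, z) : (Fin (n + 1) → X.obj) × (Fin (n + 1) → Z.obj)) :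
      OnePoint ((Fin (n + 1) → X.obj) × (Fin (n + 1) → Z.obj))) =
      OP.smash fun j => app f.hom ((x j, z j) : X.obj × Z.obj) := rfl
  refine h0.trans ?_
  rw [← smash_cons]
  have h2 := app_two f.hom (powMap f n).hom ((x 0 : X.obj) : OnePoint X.obj)
    ((fun j => x j.succ : Fin n → X.obj) : OnePoint (Fin n → X.obj))
    ((z 0 : Z.obj) : OnePoint Z.obj) ((fun j => z j.succ : Fin n → Z.obj) : OnePoint (Fin n → Z.obj))
  exact (congrArg (app (consIso Z n).hom.hom) h2).symm

end spaces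

variable {T : Type u} [Category.{v} T] [Preadditive T] [HasZeroObject T]
    [HasShift T ℤ] [∀ n : ℤ, (shiftFunctor T n).Additive] [Pretriangulated T]
    [MonoidalCategory T] [SymmetricCategory T] [TensorTriangulated T]
variable {F : SpaceFunctor T}

/-- the `n`-fold power of `b : S X ⟶ 𝟙` -/
noncomputable def bpow {X : FCat} (b : F.S.obj X ⟶ 𝟙_ T) : ∀ n : ℕ, F.S.obj (pwF X n) ⟶ 𝟙_ T
  | 0 => F.S.map (pwZero X).hom ≫ Functor.OplaxMonoidal.η F.S
  | n + 1 => F.S.map (consIso X n).inv ≫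
      Functor.OplaxMonoidal.δ F.S X (pwF X n) ≫ (b ▷ _) ≫ (λ_ _).hom ≫ bpow b n

theorem isCls_unit (Z : FCat) :
    IsCls F (X := 𝟙_ FCat) (Z := Z) (Functor.OplaxMonoidal.η F.S) (λ_ Z).hom := by
  unfold IsCls
  rw [Functor.LaxMonoidal.left_unitality F.S Z, ← comp_whiskerRight_assoc,
    Functor.Monoidal.η_ε, id_whiskerRight, Category.id_comp]

/-- **The class of the power.** -/
theorem IsCls.pow {X Z : FCat} {b : F.S.obj X ⟶ 𝟙_ T} {f : X ⊗ Z ⟶ Z} (h : IsCls F b f) (n : ℕ) :
    IsCls F (bpow b n) (powMap f n) := by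
  induction n with
  | zero =>
    rw [powMap_zero]
    exact (isCls_unit (pwF Z 0)).pull (pwZero X).hom
  | succ n ih =>
    rw [powMap_succ]
    have h1 := ((h.stabR (pwF Z n)).comp ((ih.stabR Z).conj (β_ (pwF Z n) Z)))
    exact (h1.conj (consIso Z n)).pull (consIso X n).inv

end Vale.Agent.P257.V4.T
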