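import Vale.Agent.P251.G.PowerProps
import Vale.Agent.P251.G.CellInst

/-!
# P257, part T (T2, space level): the extended power of a map `ℂ^K ⊗ ℂ^W ⟶ ℂ^W`

For a family of orthonormal frames `F : Frames B κ J` and a morphism
`f : ℂ^K ⊗ ℂ^W ⟶ ℂ^W` of `LC` we construct
`F.powS f : E(K ⊗ ρ) ⊗ ℂ^(W × κ) ⟶ ℂ^(W × κ)`,
`(q(e, u), c) ↦ Φ_e f^J(u, Φ_e^* c) + (c - Φ_e Φ_e^* c)`, and compute its restriction to a fibre.
-/

open CategoryTheory MonoidalCategory Matrix Filter Topology OnePoint

set_option linter.unusedSectionVars false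

namespace Vale.Agent.P257.V4.T

open Vale.Agent.P251.G

variable {κ J K W : Type} [Fintype κ] [Fintype J] [Fintype K] [Fintype W]
  [DecidableEq J] [DecidableEq K] [DecidableEq W]

theorem powVec_add (Φ : Matrix κ J ℂ) (v w : J → W → ℂ) :
    powVec Φ (v + w) = powVec Φ v + powVec Φ w := by
  funext a
  simp only [powVec, Pi.add_apply, add_mul, Finset.sum_add_distrib]

theorem coordVec_add (Φ : Matrix κ J ℂ) (v w : W × κ → ℂ) :
    coordVec Φ (v + w) = coordVec Φ v + coordVec Φ w := by
  funext j a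
  simp only [coordVec, Pi.add_apply, mul_add, Finset.sum_add_distrib]

theorem coordVec_sub (Φ : Matrix κ J ℂ) (v w : W × κ → ℂ) :
    coordVec Φ (v - w) = coordVec Φ v - coordVec Φ w := by
  funext j a
  simp only [coordVec, Pi.sub_apply, mul_sub, Finset.sum_sub_distrib]

end Vale.Agent.P257.V4.T

namespace Vale.Agent.P251.G.Frames

open Vale.Agent.P257.V4.T

variable {κ J K W : Type} [Fintype κ] [Fintype J] [Fintype K] [Fintype W]
  [DecidableEq J] [DecidableEq K] [DecidableEq W]
variable {B : Type} [TopologicalSpace B] [CompactSpace B] [T2Space B] [Nonempty J]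

section defs

variable (F : Frames B κ J)

/-- the part of `ℂ^(W × κ)` orthogonal to `W ⊗ ρ` -/
def perpS (W : Type) : Type := {a : F.S × (W × κ → ℂ) // coordVec (F.Φ a.1) a.2 = 0}

instance (W : Type) : TopologicalSpace (F.perpS W) := inferInstanceAs (TopologicalSpace (Subtype _))

theorem continuous_coordS (W : Type) :
    Continuous fun a : F.S × (W × κ → ℂ) => coordVec (F.Φ a.1) a.2 := by
  refine continuous_pi fun j => continuous_pi fun a => ?_
  simp only [coordVec]
  refine continuous_finsetSum _ fun c _ => ?_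
  exact ((continuous_apply j).comp ((continuous_apply c).comp
    (F.cont_Φ.comp continuous_fst))).star.mul ((continuous_apply (a, c)).comp continuous_snd)

theorem isClosedEmbedding_perpS (W : Type) :
    IsClosedEmbedding (Subtype.val : F.perpS W → F.S × (W × κ → ℂ)) :=
  (isClosed_eq (F.continuous_coordS W) continuous_const).isClosedEmbedding_subtypeVal

instance (W : Type) : T2Space (F.perpS W) := inferInstanceAs (T2Space (Subtype _))

instance (W : Type) [Fintype W] : LocallyCompactSpace (F.perpS W) :=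
  (F.isClosedEmbedding_perpS W).locallyCompactSpace

/-- the component orthogonal to `W ⊗ ρ` -/
noncomputable def perpOf (W : Type) [Fintype W] (a : F.S × (W × κ → ℂ)) : F.perpS W :=
  ⟨(a.1, a.2 - powVec (F.Φ a.1) (coordVec (F.Φ a.1) a.2)), by
    classical
    rw [coordVec_sub, coordVec_powVec (F.isom a.1), sub_self]⟩

theorem continuous_perpOf : Continuous (F.perpOf W) := by
  refine Continuous.subtype_mk ?_ _
  refine continuous_fst.prodMk (continuous_snd.sub ?_)
  exact continuous_powVec (F.cont_Φ.comp continuous_fst)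
    (continuous_coordVec (F.cont_Φ.comp continuous_fst) continuous_snd)

theorem perpOf_powVec (a : F.perpS W) (z : J → W → ℂ) :
    F.perpOf W (a.1.1, powVec (F.Φ a.1.1) z + a.1.2) = a := by
  refine Subtype.ext (Prod.ext rfl ?_)
  change powVec (F.Φ a.1.1) z + a.1.2 - powVec (F.Φ a.1.1)
    (coordVec (F.Φ a.1.1) (powVec (F.Φ a.1.1) z + a.1.2)) = a.1.2
  rw [coordVec_add, coordVec_powVec (F.isom a.1.1), a.2, add_zero]
  abel

theorem coordVec_powVec_add (a : F.perpS W) (z : J → W → ℂ) :
    coordVec (F.Φ a.1.1) (powVec (F.Φ a.1.1) z + a.1.2) = z := by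
  rw [coordVec_add, coordVec_powVec (F.isom a.1.1), a.2, add_zero]

/-- the splitting of the source: `((e, u), c) ↦ ((e, c'), (u, Φ_e^* c))` -/
noncomputable def splitS (K W : Type) [Fintype K] [Fintype W]
    (a : (F.S × (J → K → ℂ)) × (W × κ → ℂ)) :
    F.perpS W × (J → (K → ℂ) × (W → ℂ)) :=
  (F.perpOf W (a.1.1, a.2), fun j => (a.1.2 j, coordVec (F.Φ a.1.1) a.2 j))

theorem isProperMap_splitS : IsProperMap (F.splitS K W) := by
  have hc : Continuous (F.splitS K W) := by
    refine Continuous.prodMk (F.continuous_perpOf.comp (by fun_prop)) ?_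
    refine continuous_pi fun j => ?_
    refine Continuous.prodMk (by fun_prop) ?_
    exact (continuous_apply j).comp (continuous_coordVec
      (F.cont_Φ.comp (continuous_fst.comp continuous_fst)) continuous_snd)
  let l : F.perpS W × (J → (K → ℂ) × (W → ℂ)) → (F.S × (J → K → ℂ)) × (W × κ → ℂ) := fun b =>
    ((b.1.1.1, fun j => (b.2 j).1), powVec (F.Φ b.1.1.1) (fun j => (b.2 j).2) + b.1.1.2)
  have hl : Continuous l := by
    have h1 : Continuous fun b : F.perpS W × (J → (K → ℂ) × (W → ℂ)) => b.1.1 :=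
      continuous_subtype_val.comp continuous_fst
    refine Continuous.prodMk ((continuous_fst.comp h1).prodMk (by fun_prop)) ?_
    refine Continuous.add ?_ (continuous_snd.comp h1)
    exact continuous_powVec (F.cont_Φ.comp (continuous_fst.comp h1)) (by fun_prop)
  have hlr : Function.LeftInverse l (F.splitS K W) := by
    rintro ⟨⟨e, u⟩, c⟩
    refine Prod.ext rfl ?_
    change powVec (F.Φ e) (coordVec (F.Φ e) c) + (c - powVec (F.Φ e) (coordVec (F.Φ e) c)) = c
    abel
  exact (hlr.isClosedEmbedding hl hc).isProperMap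

/-- `((e, c'), z) ↦ Φ_e z + c'` -/
noncomputable def joinS (W : Type) [Fintype W] (a : F.perpS W × (J → W → ℂ)) : W × κ → ℂ :=
  powVec (F.Φ a.1.1.1) a.2 + a.1.1.2

theorem isProperMap_joinS : IsProperMap (F.joinS W) := by
  have h1 : Continuous fun b : F.perpS W × (J → W → ℂ) => b.1.1 :=
    continuous_subtype_val.comp continuous_fst
  have hc : Continuous (F.joinS W) := by
    refine Continuous.add ?_ (continuous_snd.comp h1)
    exact continuous_powVec (F.cont_Φ.comp (continuous_fst.comp h1)) continuous_snd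
  let c : F.perpS W × (J → W → ℂ) → F.S × (W × κ → ℂ) := fun a => (a.1.1.1, F.joinS W a)
  let d : F.S × (W × κ → ℂ) → F.perpS W × (J → W → ℂ) := fun a =>
    (F.perpOf W a, coordVec (F.Φ a.1) a.2)
  have hcc : Continuous c := (continuous_fst.comp h1).prodMk hc
  have hd : Continuous d := F.continuous_perpOf.prodMk
    (continuous_coordVec (F.cont_Φ.comp continuous_fst) continuous_snd)
  have hdc : Function.LeftInverse d c := fun a =>
    Prod.ext (F.perpOf_powVec a.1 a.2) (F.coordVec_powVec_add a.1 a.2)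
  have h2 : IsProperMap c := (hdc.isClosedEmbedding hd hcc).isProperMap
  have h3 : IsProperMap (Prod.snd : F.S × (W × κ → ℂ) → _) := isProperMap_snd_of_compactSpace
  exact h3.comp h2

variable (f : LC.of (K → ℂ) ⊗ LC.of (W → ℂ) ⟶ LC.of (W → ℂ))

/-- the extended power on the cover -/
noncomputable def preS :
    LC.of ((F.S × (J → K → ℂ)) × (W × κ → ℂ)) ⟶ LC.of (W × κ → ℂ) :=
  LC.ofIsProper (X := LC.of ((F.S × (J → K → ℂ)) × (W × κ → ℂ)))
    (Y := LC.of (F.perpS W × (J → (K → ℂ) × (W → ℂ)))) (F.splitS K W) F.isProperMap_splitS ≫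
  (LC.of (F.perpS W) ◁ LC.powHom J f) ≫
  LC.ofIsProper (X := LC.of (F.perpS W × (J → W → ℂ))) (Y := LC.of (W × κ → ℂ))
    (F.joinS W) F.isProperMap_joinS

/-- the value of the extended power for the frame `e` -/
noncomputable def valS (e : F.S) (u : J → K → ℂ) (c : W × κ → ℂ) : OnePoint (W × κ → ℂ) :=
  OnePoint.map (fun z : J → W → ℂ => powVec (F.Φ e) z +
      (c - powVec (F.Φ e) (coordVec (F.Φ e) c)))
    (OP.smash fun j => LC.app f ((u j, coordVec (F.Φ e) c j) : (K → ℂ) × (W → ℂ)))

theorem app_preS (e : F.S) (u : J → K → ℂ) (c : W × κ → ℂ) :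
    LC.app (F.preS f) ((((e, u), c) : (F.S × (J → K → ℂ)) × (W × κ → ℂ)) : OnePoint _) =
      F.valS f e u c := by
  rw [preS, LC.app_comp, LC.app_comp, LC.app_ofIsProper_coe]
  have h1 : (F.splitS K W ((e, u), c) : OnePoint (F.perpS W × (J → (K → ℂ) × (W → ℂ)))) =
      LC.smash (F.perpOf W (e, c) : OnePoint (F.perpS W))
        ((fun j => (u j, coordVec (F.Φ e) c j) : J → (K → ℂ) × (W → ℂ)) : OnePoint _) := rfl
  rw [h1]
  have h2 := LC.app_whiskerLeft_smash (LC.of (F.perpS W)) (LC.powHom J f)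
    (F.perpOf W (e, c) : OnePoint (F.perpS W))
    ((fun j => (u j, coordVec (F.Φ e) c j) : J → (K → ℂ) × (W → ℂ)) :
      OnePoint (J → (K → ℂ) × (W → ℂ)))
  rw [h2, LC.app_powHom_coe, valS]
  generalize (OP.smash fun j => LC.app f ((u j, coordVec (F.Φ e) c j) : (K → ℂ) × (W → ℂ))) = z
  induction z using OnePoint.rec with
  | infty => rfl
  | coe z => rfl

/-- the underlying function of the extended power -/
noncomputable def powSFun (a : (F.ρW K).E × (W × κ → ℂ)) : OnePoint (W × κ → ℂ) :=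
  F.valS f (F.lift (Bun.base a.1))
    (coordVec (F.Φ (F.lift (Bun.base a.1))) (Bun.vec a.1)) a.2

theorem powSFun_q (e : F.S) (u : J → K → ℂ) (c : W × κ → ℂ) :
    F.powSFun f (F.q (e, u), c) = F.valS f e u c := by
  unfold powSFun
  simp only [base_q, vec_q]
  obtain ⟨σ, hσ⟩ := F.perm e (F.lift (F.π e)) (F.π_lift _).symm
  have h1 : ∀ j, coordVec (F.Φ (F.lift (F.π e))) (powVec (F.Φ e) u) j = u (σ j) := by
    intro j
    rw [hσ, coordVec_perm, coordVec_powVec (F.isom e)]
  have h2 : ∀ j, coordVec (F.Φ (F.lift (F.π e))) c j = coordVec (F.Φ e) c (σ j) := by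
    intro j
    rw [hσ, coordVec_perm]
  have h3 : powVec (F.Φ (F.lift (F.π e))) (coordVec (F.Φ (F.lift (F.π e))) c) =
      powVec (F.Φ e) (coordVec (F.Φ e) c) := by
    have : coordVec (F.Φ (F.lift (F.π e))) c = fun j => coordVec (F.Φ e) c (σ j) := funext h2
    rw [this, hσ]
    exact powVec_perm (F.Φ e) (coordVec (F.Φ e) c) σ
  unfold valS
  simp only [h1, h2, h3]
  rw [smash_perm σ fun j => LC.app f ((u j, coordVec (F.Φ e) c j) : (K → ℂ) × (W → ℂ))]
  generalize (OP.smash fun j => LC.app f ((u j, coordVec (F.Φ e) c j) : (K → ℂ) × (W → ℂ))) = z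
  induction z using OnePoint.rec with
  | infty => rfl
  | coe z =>
    refine congrArg OnePoint.some ?_
    change powVec (F.Φ (F.lift (F.π e))) (fun j => z (σ j)) + _ = powVec (F.Φ e) z + _
    rw [hσ, powVec_perm]

theorem isProperMap_qR (K W : Type) [Fintype K] [Fintype W] [DecidableEq K] :
    IsProperMap (Prod.map F.q id : (F.S × (J → K → ℂ)) × (W × κ → ℂ) →
      (F.ρW K).E × (W × κ → ℂ)) :=
  F.isProperMap_q.prodMap isProperMap_id

theorem surjective_qR (K W : Type) [Fintype K] [DecidableEq K] :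
    Function.Surjective (Prod.map F.q id : (F.S × (J → K → ℂ)) × (W × κ → ℂ) →
      (F.ρW K).E × (W × κ → ℂ)) :=
  F.surjective_q.prodMap Function.surjective_id

/-- **The extended power** of `f : ℂ^K ⊗ ℂ^W ⟶ ℂ^W`. -/
noncomputable def powS : (F.ρW K).tot ⊗ LC.of (W × κ → ℂ) ⟶ LC.of (W × κ → ℂ) :=
  LC.descend (A' := LC.of ((F.S × (J → K → ℂ)) × (W × κ → ℂ)))
    (A := LC.of ((F.ρW K).E × (W × κ → ℂ)))
    (Prod.map F.q id) (F.isProperMap_qR K W) (F.surjective_qR K W) (F.preS f) (F.powSFun f)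
    (fun a => by
      obtain ⟨⟨e, u⟩, c⟩ := a
      rw [F.app_preS f e u c]
      exact F.powSFun_q f e u c)

theorem app_powS_q (e : F.S) (u : J → K → ℂ) (c : W × κ → ℂ) :
    LC.app (F.powS f) ((F.q (e, u), c) : (F.ρW K).E × (W × κ → ℂ)) = F.valS f e u c :=
  F.powSFun_q f e u c

end defs

end Vale.Agent.P251.G.Frames
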