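import Vale.Agent.P257.V4.T.PowN
import Vale.Agent.P257.V4.T.PowSph

/-!
# P257, part T (T2): the `p`-fold power of `β : S(ℂ^K) ⟶ 𝟙` extends over the Thom space of `K ⊗ ρ`

`toda_pow`: for a family of frames `Φ : Frames B κ (Fin n)` and every `b : S(ℂ^K) ⟶ 𝟙` there is
`P : S(E(K ⊗ ρ)) ⟶ 𝟙` such that for every `e` the restriction of `P` to the fibre
`(Fin n → ℂ^K) ⟶ E(K ⊗ ρ)`, `u ↦ q(e, u)`, is the `n`-fold power of `b`.
-/

open CategoryTheory MonoidalCategory Limits Pretriangulated OnePoint Topology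
open Vale.Agent.P251.G Vale.Agent.P251.G.LC Vale.Agent.P251.M Vale.Agent.P251.T
  Vale.Agent.P251.I

universe v u

set_option linter.unusedSectionVars false

namespace Vale.Agent.P257.V4.T

section fib

variable {κ J K W : Type} [Fintype κ] [Fintype J] [Fintype K] [Fintype W]
  [DecidableEq J] [DecidableEq K] [DecidableEq W]

/-- `coordVec` as a linear map -/
def coordLin (W : Type) [Fintype W] (Φ : Matrix κ J ℂ) : (W × κ → ℂ) →ₗ[ℂ] (J → W → ℂ) where
  toFun := coordVec Φ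
  map_add' a b := by
    classical
    exact coordVec_add Φ a b
  map_smul' c v := by
    funext j a
    simp only [coordVec, Pi.smul_apply, smul_eq_mul, Finset.mul_sum, RingHom.id_apply]
    exact Finset.sum_congr rfl fun _ _ => by ring

/-- the orthogonal complement of `ℂ^W ⊗ Φ` -/
abbrev perpV (W : Type) [Fintype W] (Φ : Matrix κ J ℂ) : Submodule ℂ (W × κ → ℂ) :=
  LinearMap.ker (coordLin W Φ)

theorem isClosed_perpV (W : Type) [Fintype W] (Φ : Matrix κ J ℂ) :
    IsClosed ((perpV W Φ : Submodule ℂ (W × κ → ℂ)) : Set (W × κ → ℂ)) := by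
  have h : Continuous fun a : W × κ → ℂ => coordVec Φ a := by
    refine continuous_pi fun j => continuous_pi fun a => ?_
    simp only [coordVec]
    fun_prop
  exact isClosed_eq h continuous_const

instance (W : Type) [Fintype W] (Φ : Matrix κ J ℂ) : LocallyCompactSpace (perpV W Φ) :=
  (isClosed_perpV W Φ).isClosedEmbedding_subtypeVal.locallyCompactSpace

/-- the orthogonal complement as a finite cell space -/
noncomputable def perpF (W : Type) [Fintype W] (Φ : Matrix κ J ℂ) : FCat :=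
  ⟨LC.of (perpV W Φ), (Cell.fc_cvec (Fin (Module.finrank ℂ (perpV W Φ)))).of_homeo
    (Y := LC.of (perpV W Φ)) (Module.finBasis ℂ (perpV W Φ)).equivFunL.symm.toHomeomorph⟩

variable {Φ : Matrix κ J ℂ}

open Matrix in
/-- `(J → ℂ^W) × (ℂ^W ⊗ Φ)^⊥ ≃ ℂ^(W × κ)` -/
noncomputable def splitHomeo (W : Type) [Fintype W] (hΦ : Φᴴ * Φ = 1) :
    (J → W → ℂ) × perpV W Φ ≃ₜ (W × κ → ℂ) where
  toFun a := powVec Φ a.1 + a.2.1
  invFun c := (coordVec Φ c, ⟨c - powVec Φ (coordVec Φ c), by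
    classical
    change coordVec Φ _ = 0
    rw [coordVec_sub, coordVec_powVec hΦ, sub_self]⟩)
  left_inv a := by
    classical
    have h1 : coordVec Φ (powVec Φ a.1 + a.2.1) = a.1 := by
      have h2 : coordVec Φ a.2.1 = 0 := a.2.2
      rw [coordVec_add, coordVec_powVec hΦ, h2, add_zero]
    refine Prod.ext h1 (Subtype.ext ?_)
    change powVec Φ a.1 + a.2.1 - powVec Φ (coordVec Φ (powVec Φ a.1 + a.2.1)) = a.2.1
    rw [h1]
    abel
  right_inv c := by
    change powVec Φ (coordVec Φ c) + (c - powVec Φ (coordVec Φ c)) = c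
    abel
  continuous_toFun := by
    refine Continuous.add ?_ (continuous_subtype_val.comp continuous_snd)
    exact continuous_powVec continuous_const continuous_fst
  continuous_invFun := by
    have h1 : Continuous fun c : W × κ → ℂ => coordVec Φ c :=
      continuous_coordVec continuous_const continuous_id
    refine h1.prodMk (Continuous.subtype_mk ?_ _)
    exact continuous_id.sub (continuous_powVec continuous_const h1)

variable {B : Type} [TopologicalSpace B] [CompactSpace B] [T2Space B] [Nonempty J]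
variable (F : Frames B κ J) (f : LC.of (K → ℂ) ⊗ LC.of (W → ℂ) ⟶ LC.of (W → ℂ))

/-- the splitting as an isomorphism of `LC` -/
noncomputable def splitLC (W : Type) [Fintype W] (e : F.S) :
    LC.of (J → W → ℂ) ⊗ LC.of (perpV W (F.Φ e)) ≅ LC.of (W × κ → ℂ) :=
  ofHomeo (X := LC.of ((J → W → ℂ) × perpV W (F.Φ e))) (Y := LC.of (W × κ → ℂ))
    (splitHomeo W (F.isom e))

/-- **The restriction of the extended power to a fibre.** -/
theorem fibre_powS (e : F.S) :
    (F.fibre e ▷ LC.of (W × κ → ℂ)) ≫ F.powS f =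
      (LC.of (J → K → ℂ) ◁ (splitLC F W e).inv) ≫
        ((α_ _ _ _).inv ≫ (zipPow J f ▷ LC.of (perpV W (F.Φ e)))) ≫ (splitLC F W e).hom := by
  apply LC.hom_ext
  rintro ⟨u, c⟩
  change J → K → ℂ at u
  change W × κ → ℂ at c
  have h1 : LC.app ((F.fibre e ▷ LC.of (W × κ → ℂ)) ≫ F.powS f)
      (((u, c) : (J → K → ℂ) × (W × κ → ℂ)) : OnePoint ((J → K → ℂ) × (W × κ → ℂ))) =
      F.valS f e u c := F.app_powS_q f e u c
  refine h1.trans ?_
  let c' : perpV W (F.Φ e) := ((splitHomeo W (F.isom e)).symm c).2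
  have h2 : LC.app ((LC.of (J → K → ℂ) ◁ (splitLC F W e).inv) ≫
        ((α_ _ _ _).inv ≫ (zipPow J f ▷ LC.of (perpV W (F.Φ e)))) ≫ (splitLC F W e).hom)
      (((u, c) : (J → K → ℂ) × (W × κ → ℂ)) : OnePoint ((J → K → ℂ) × (W × κ → ℂ))) =
      LC.app (splitLC F W e).hom (LC.smash (OP.smash fun j => LC.app f
        ((u j, coordVec (F.Φ e) c j) : (K → ℂ) × (W → ℂ)))
          (c' : OnePoint (perpV W (F.Φ e)))) := rfl
  refine Eq.trans ?_ h2.symm
  unfold Frames.valS
  generalize (OP.smash fun j => LC.app f ((u j, coordVec (F.Φ e) c j) : (K → ℂ) × (W → ℂ))) = z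
  induction z using OnePoint.rec with
  | infty => exact (LC.app_infty (splitLC F W e).hom).symm
  | coe z => rfl

end fib

section stable

variable {T : Type u} [Category.{v} T] [Preadditive T] [HasZeroObject T]
    [HasShift T ℤ] [∀ n : ℤ, (shiftFunctor T n).Additive] [Pretriangulated T]
    [MonoidalCategory T] [SymmetricCategory T] [TensorTriangulated T]
variable {S : SpaceFunctor T}

/-- `ℂ^W` as a finite cell space -/
noncomputable def VF (W : Type) [Fintype W] : FCat := ⟨LC.of (W → ℂ), Cell.fc_cvec W⟩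

/-- the homeomorphism `ℝ^m ≅ ℂ^W`, `m = 2 |W|` -/
noncomputable def vfHomeo (W : Type) [Fintype W] (m : ℕ) (hm : m = 2 * Fintype.card W) :
    (Fin m → ℝ) ≃ₜ (W → ℂ) :=
  (ContinuousLinearEquiv.ofFinrankEq (𝕜 := ℝ) (E := Fin m → ℝ)
    (F := W → ℂ) (by
      rw [Module.finrank_pi, Module.finrank_pi_fintype, hm]
      simp [Complex.finrank_real_complex, mul_comm])).toHomeomorph

/-- `S^m ≅ ℂ^W`, `m = 2 |W|`, as finite cell spaces -/
noncomputable def vfIso (W : Type) [Fintype W] (m : ℕ) (hm : m = 2 * Fintype.card W) :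
    SphF m ≅ VF W :=
  fcIso (X := SphF m) (Y := VF W)
    (ofHomeo (X := LC.of (Fin m → ℝ)) (Y := LC.of (W → ℂ)) (vfHomeo W m hm))

/-- the suspension spectrum of `ℂ^W` is a shift of the unit -/
noncomputable def vfSph (S : SpaceFunctor T) (W : Type) [Fintype W] :
    S.S.obj (VF W) ≅ (𝟙_ T)⟦((2 * Fintype.card W : ℕ) : ℤ)⟧ :=
  S.S.mapIso (vfIso W _ rfl).symm ≪≫ sphIso S (2 * Fintype.card W)

/-- every map `S X ⟶ 𝟙` is represented on some `ℂ^m` -/
theorem exists_rep_cx {X : FCat} (b : S.S.obj X ⟶ 𝟙_ T) :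
    ∃ (m : ℕ) (f : X ⊗ VF (Fin m) ⟶ VF (Fin m)), IsCls S b f := by
  obtain ⟨m, f, hf⟩ := exists_rep b
  have i : SphF m ⊗ SphF m ≅ VF (Fin m) :=
    fcIso (X := SphF m ⊗ SphF m) (Y := SphF (m + m)) (sphTensor m m) ≪≫
      vfIso (Fin m) (m + m) (by rw [Fintype.card_fin, two_mul])
  exact ⟨m, _, (hf.stabR (SphF m)).conj i⟩

variable {κ K : Type} [Fintype κ] [Fintype K] [DecidableEq K] {n : ℕ} [NeZero n]
variable {B : Type} [TopologicalSpace B] [CompactSpace B] [T2Space B]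

/-- the fibre inclusion `(Fin n → ℂ^K) ⟶ E(K ⊗ ρ)` -/
noncomputable def fibF (F : Frames B κ (Fin n)) (K : Type) [Fintype K] [DecidableEq K]
    (hE : LC.FC (F.ρW K).tot) (e : F.S) : pwF (VF K) n ⟶ (⟨(F.ρW K).tot, hE⟩ : FCat) :=
  FCat.hom (X := pwF (VF K) n) (Y := ⟨(F.ρW K).tot, hE⟩) (F.fibre e)

/-- **The extended power.** For every `b : S(ℂ^K) ⟶ 𝟙`, the `n`-fold power of `b` extends over the
Thom space of `K ⊗ ρ`. -/
theorem toda_pow (F : Frames B κ (Fin n)) (K : Type) [Fintype K] [DecidableEq K]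
    (hE : LC.FC (F.ρW K).tot) (b : S.S.obj (VF K) ⟶ 𝟙_ T) :
    ∃ P : S.S.obj (⟨(F.ρW K).tot, hE⟩ : FCat) ⟶ 𝟙_ T,
      ∀ e : F.S, S.S.map (fibF F K hE e) ≫ P = bpow b n := by
  obtain ⟨m, f, hf⟩ := exists_rep_cx b
  let g : (⟨(F.ρW K).tot, hE⟩ : FCat) ⊗ VF (Fin m × κ) ⟶ VF (Fin m × κ) :=
    FCat.hom (X := (⟨(F.ρW K).tot, hE⟩ : FCat) ⊗ VF (Fin m × κ)) (Y := VF (Fin m × κ))
      (F.powS (W := Fin m) f.hom)
  obtain ⟨P, hP⟩ := exists_isCls (F := S) g _ (vfSph S (Fin m × κ))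
  refine ⟨P, fun e => ?_⟩
  have h1 := hP.pull (fibF F K hE e)
  let i : pwF (VF (Fin m)) n ⊗ perpF (Fin m) (F.Φ e) ≅ VF (Fin m × κ) :=
    fcIso (X := pwF (VF (Fin m)) n ⊗ perpF (Fin m) (F.Φ e)) (Y := VF (Fin m × κ))
      (splitLC F (Fin m) e)
  have h2 := ((hf.pow n).stabR (perpF (Fin m) (F.Φ e))).conj i
  have h3 : (fibF F K hE e ▷ VF (Fin m × κ)) ≫ g = (pwF (VF K) n ◁ i.inv) ≫
      ((α_ (pwF (VF K) n) (pwF (VF (Fin m)) n) (perpF (Fin m) (F.Φ e))).inv ≫
        (powMap f n ▷ perpF (Fin m) (F.Φ e))) ≫ i.hom := by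
    apply ObjectProperty.hom_ext
    exact fibre_powS F f.hom e
  rw [h3] at h1
  exact h1.unique _ (vfSph S (Fin m × κ)) h2

end stable

end Vale.Agent.P257.V4.T
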