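import Mathlib.RingTheory.Ideal.Quotient.Basic
import Mathlib.RingTheory.Ideal.Span
import Mathlib.FieldTheory.Finite.Basic
import Mathlib.Tactic.Ring
import Mathlib.Tactic.LinearCombination

/-!
# P257, part T (T1): the comparison of the Thom classes modulo `p`

`prod_series_mod` : if `z ^ p = 0`, `c 0 = 1`, `p ∣ c j` for `0 < j < p - 1` and `y i = z * u i`
with `u i = i` modulo `p`, then `(∏_{i < p} ∑_{j < n} c j (y i) ^ j) ^ K = 1 - K c_{p-1} z ^ (p-1)`
modulo `p`.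
-/

namespace Vale.Agent.P257.V4.T

open Finset

variable {B : Type*} [CommRing B]

theorem one_add_pow_of_sq {x : B} (hx : x ^ 2 = 0) (n : ℕ) : (1 + x) ^ n = 1 + n * x := by
  induction n with
  | zero => simp
  | succ n ih =>
    rw [pow_succ, ih]
    push_cast
    linear_combination (n : B) * hx

theorem series_eq {p : ℕ} (hp : p.Prime) {z : B} (hz : z ^ p = 0) {c : ℕ → B} (h0 : c 0 = 1)
    (hc : ∀ j, 0 < j → j < p - 1 → c j = 0) {n : ℕ} (hn : p ≤ n) (a : B) :
    ∑ j ∈ range n, c j * (z * a) ^ j = 1 + c (p - 1) * z ^ (p - 1) * a ^ (p - 1) := by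
  have h2 := hp.two_le
  rw [Finset.sum_eq_add 0 (p - 1) (by omega)]
  · rw [h0]
    ring
  · intro j _ hj
    by_cases h : j < p - 1
    · rw [hc j (by omega) h, zero_mul]
    · obtain ⟨d, rfl⟩ : ∃ d, j = p + d := ⟨j - p, by omega⟩
      rw [mul_pow, pow_add, hz]
      ring
  · intro h
    exact absurd (mem_range.2 (by omega)) h
  · intro h
    exact absurd (mem_range.2 (by omega)) h

theorem natCast_pow_eq_one {p : ℕ} (hp : p.Prime) (hpB : (p : B) = 0) {i : ℕ} (h0 : 0 < i)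
    (hi : i < p) : (i : B) ^ (p - 1) = 1 := by
  have h1 : IsCoprime (i : ℤ) p := by
    rw [Nat.isCoprime_iff_coprime]
    exact Nat.Coprime.symm ((Nat.Prime.coprime_iff_not_dvd hp).2 fun h => absurd (Nat.le_of_dvd h0 h) (by omega))
  have h2 := (Int.ModEq.pow_card_sub_one_eq_one hp h1).symm.dvd
  obtain ⟨k, hk⟩ := h2
  have h3 := congrArg (Int.cast : ℤ → B) hk
  push_cast at h3
  rw [hpB, zero_mul, sub_eq_zero] at h3
  exact h3

theorem prod_series_eq {p : ℕ} (hp : p.Prime) (hpB : (p : B) = 0) {z : B} (hz : z ^ p = 0)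
    {c : ℕ → B} (h0 : c 0 = 1) (hc : ∀ j, 0 < j → j < p - 1 → c j = 0) {n : ℕ} (hn : p ≤ n)
    (K : ℕ) : (∏ i ∈ range p, ∑ j ∈ range n, c j * (z * (i : B)) ^ j) ^ K =
      1 - K * (c (p - 1) * z ^ (p - 1)) := by
  have h2 := hp.two_le
  obtain ⟨x, hx⟩ : ∃ x, x = c (p - 1) * z ^ (p - 1) := ⟨_, rfl⟩
  have hx2 : x ^ 2 = 0 := by
    have h3 : (z ^ (p - 1)) ^ 2 = z ^ p * z ^ (p - 2) := by
      rw [← pow_mul, ← pow_add]
      congr 1
      omega
    rw [hx, mul_pow, h3, hz]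
    ring
  have h4 : ∀ i ∈ range p, ∑ j ∈ range n, c j * (z * (i : B)) ^ j =
      if i = 0 then 1 else 1 + x := by
    intro i hi
    rw [series_eq hp hz h0 hc hn, ← hx]
    by_cases h : i = 0
    · rw [if_pos h, h, Nat.cast_zero, zero_pow (by omega)]
      ring
    · rw [if_neg h, natCast_pow_eq_one hp hpB (Nat.pos_of_ne_zero h) (mem_range.1 hi), mul_one]
  rw [Finset.prod_congr rfl h4]
  obtain ⟨q, rfl⟩ : ∃ q, p = q + 1 := ⟨p - 1, by omega⟩
  rw [Finset.prod_range_succ']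
  have h5 : ∀ i ∈ range q, (if i + 1 = 0 then (1 : B) else 1 + x) = 1 + x :=
    fun i _ => if_neg (by omega)
  rw [Finset.prod_congr rfl h5, Finset.prod_const, Finset.card_range, if_pos rfl, mul_one,
    one_add_pow_of_sq hx2]
  have h6 : (q : B) = -1 := by
    push_cast at hpB
    linear_combination hpB
  have h7 : (1 : B) + q * x = 1 + (-x) := by rw [h6]; ring
  rw [h7, one_add_pow_of_sq (by rw [neg_sq, hx2]), hx]
  ring

/-- **The comparison modulo `p`.** -/
theorem prod_series_mod {p : ℕ} (hp : p.Prime) {z : B} (hz : z ^ p = 0) {c : ℕ → B}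
    (h0 : c 0 = 1) (hc : ∀ j, 0 < j → j < p - 1 → (p : B) ∣ c j) {n : ℕ} (hn : p ≤ n)
    {y u : ℕ → B} (hy : ∀ i < p, y i = z * u i) (hu : ∀ i < p, (p : B) ∣ u i - i) (K : ℕ) :
    (p : B) ∣ (∏ i ∈ range p, ∑ j ∈ range n, c j * y i ^ j) ^ K -
      (1 - K * (c (p - 1) * z ^ (p - 1))) := by
  let π := Ideal.Quotient.mk (Ideal.span {(p : B)})
  have hπ : ∀ b : B, π b = 0 ↔ (p : B) ∣ b := fun b => by
    rw [Ideal.Quotient.eq_zero_iff_mem, Ideal.mem_span_singleton]
  have hp0 : ((p : ℕ) : B ⧸ Ideal.span {(p : B)}) = 0 := by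
    have := (hπ (p : B)).2 dvd_rfl
    rwa [map_natCast] at this
  have key := prod_series_eq (B := B ⧸ Ideal.span {(p : B)}) hp hp0 (z := π z)
    (by rw [← map_pow, hz, map_zero]) (c := fun j => π (c j)) (by rw [h0, map_one])
    (fun j h1 h2 => (hπ _).2 (hc j h1 h2)) hn K
  rw [← hπ, map_sub, sub_eq_zero, map_pow, map_prod, map_sub, map_one, map_mul, map_mul,
    map_pow, map_natCast, ← key]
  congr 1
  refine Finset.prod_congr rfl fun i hi => ?_
  rw [map_sum]
  refine Finset.sum_congr rfl fun j _ => ?_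
  have h1 : π (u i) = (i : B ⧸ Ideal.span {(p : B)}) := by
    have := (hπ _).2 (hu i (mem_range.1 hi))
    rwa [map_sub, map_natCast, sub_eq_zero] at this
  rw [hy i (mem_range.1 hi), map_mul, map_pow, map_mul, h1]

end Vale.Agent.P257.V4.T
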