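import Vale.Agent.P251.M.BUCap
import Vale.Agent.P251.M.BTInst
import Vale.Agent.P251.Q.CPn

/-!
# P257, part T (T1, I2): the top class of the `K`-homology of a projective space

* `exists_sec`: the collapse `S (Gr 1 (I ⊕ Unit)) ⟶ S (Th 1 I)` has a section which is killed by
  the augmentation;
* `zz_collapse`: the Euler map of `Gr n (I ⊕ Unit)` factors through the collapse;
* `exists_beta`: for Thom classes with values in `K` there is
  `b : S N ⟶ K[Gr 1 (Fin (N + 1))]` in the category of free `K`-modules with `⟨x^N, b⟩ = 1` and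
  `⟨x^j, b⟩ = 0` for `j < N`.
-/

set_option linter.unusedSectionVars false
set_option linter.style.haveILetI false

open CategoryTheory MonoidalCategory Limits Pretriangulated Topology OnePoint Matrix MonObj

universe v u

noncomputable section

namespace Vale.Agent.P257.V4.T

open Vale.Agent.P251 Vale.Agent.P251.G Vale.Agent.P251.G.LC Vale.Agent.P251.I
  Vale.Agent.P251.T Vale.Agent.P251.M

section general

variable {D : Type u} [Category.{v} D] [MonoidalCategory D] [SymmetricCategory D]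
variable {F : FCat ⥤ D} [F.Braided] [HInv F] (t : ThomStr F)

/-- The Euler map factors through the collapse. -/
theorem zz_collapse (n : ℕ) (I : Type) [Fintype I] [DecidableEq I]
    (h : Fintype.card I ≤ Fintype.card (I ⊕ Unit)) :
    t.zz n (I ⊕ Unit) = mp F (Gr.collapse (n := n) (I := I)) ≫ t.TT n I ≫ (gj F n h ▷ t.S n) := by
  have h1 : zr F n (I ⊕ Unit) = mp F (Gr.collapse (n := n) (I := I)) ≫ tj F n h := by
    have h2 : mp F (Th.inj (n := n) (Sum.inl : I → I ⊕ Unit) Sum.inl_injective) = tj F n h :=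
      mp_tmap F _ _ h
    rw [← h2, ← mp_comp, zr, ← zeroHom_eq_z]
    exact mp_eq F Gr.zeroHom_homotopic
  rw [ThomStr.zz, h1, Category.assoc, t.tj_TT]

end general

variable {T : Type u} [Category.{v} T] [Preadditive T] [HasZeroObject T]
    [HasShift T ℤ] [∀ n : ℤ, (shiftFunctor T n).Additive] [Pretriangulated T]
    [MonoidalCategory T] [SymmetricCategory T] [TensorTriangulated T]

/-- The section of the collapse of projective spaces. -/
theorem exists_sec (S : SpaceFunctor T) (I : Type) [Fintype I] [DecidableEq I] :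
    ∃ s : ob S.S (ThO 1 I) ⟶ ob S.S (GrO 1 (I ⊕ Unit)),
      s ≫ mp S.S (Gr.collapse (n := 1) (I := I)) = 𝟙 _ ∧ s ≫ aug S.S 1 (I ⊕ Unit) = 0 := by
  let i : ob S.S (GrO 0 I) ⟶ ob S.S (GrO 1 (I ⊕ Unit)) :=
    mp S.S (Gr.addOneHom (n := 0) (I := I))
  let c : ob S.S (GrO 1 (I ⊕ Unit)) ⟶ ob S.S (ThO 1 I) :=
    mp S.S (Gr.collapse (n := 1) (I := I))
  let r : ob S.S (GrO 1 (I ⊕ Unit)) ⟶ ob S.S (GrO 0 I) := mp S.S (Q.Gr.retr I)
  have hir : i ≫ r = 𝟙 _ := by
    change mp S.S _ ≫ mp S.S _ = _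
    rw [← mp_comp, Q.addOneHom_retr, mp_id]
  have hic : i ≫ c = 0 := by
    change mp S.S _ ≫ mp S.S _ = _
    rw [← mp_comp, Gr.addOneHom_collapse]
    exact S.map_zero _ rfl
  obtain ⟨d, hd⟩ : ∃ d, Triangle.mk i c d ∈ distTriang T := by
    have h1 := S.cof_distinguished (A := ⟨GrO 0 I, IsFC.out⟩) (B := ⟨GrO 1 (I ⊕ Unit), IsFC.out⟩)
      (FCat.hom (Gr.addOneHom (n := 0) (I := I))) Gr.cofib_addOneHom
    haveI : IsFC (cof (Gr.addOneHom (n := 0) (I := I))) :=
      ⟨FC.cof Gr.cofib_addOneHom IsFC.out IsFC.out⟩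
    let f : ob S.S (cof (Gr.addOneHom (n := 0) (I := I))) ≅ ob S.S (ThO 1 I) :=
      mpIso S.S (Gr.cofAddOne (n := 0) (I := I))
    refine ⟨_, dist_of_iso₃ (g' := c) h1 f ?_ (f.hom_inv_id_assoc _)⟩
    change mp S.S (cofMap (Gr.addOneHom (n := 0) (I := I))) ≫ mp S.S _ = mp S.S _
    rw [← mp_comp, Gr.cofMap_cofAddOne]
  obtain ⟨s, hs⟩ : ∃ s : ob S.S (ThO 1 I) ⟶ ob S.S (GrO 1 (I ⊕ Unit)), s ≫ c = 𝟙 _ := by
    have h1 : d = 0 := by
      have h2 : d ≫ i⟦(1 : ℤ)⟧' = 0 := comp_distTriang_mor_zero₃₁ _ hd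
      have h3 : d ≫ i⟦(1 : ℤ)⟧' ≫ r⟦(1 : ℤ)⟧' = 0 := by rw [reassoc_of% h2, zero_comp]
      rwa [← Functor.map_comp, hir, CategoryTheory.Functor.map_id, Category.comp_id] at h3
    obtain ⟨s, hs⟩ := Triangle.coyoneda_exact₃ _ hd (𝟙 _) (by
      change 𝟙 _ ≫ d = 0
      rw [h1, comp_zero])
    exact ⟨s, hs.symm⟩
  refine ⟨s - s ≫ r ≫ i, ?_, ?_⟩
  · change (s - s ≫ r ≫ i) ≫ c = _
    rw [Preadditive.sub_comp, hs, Category.assoc, Category.assoc, hic, comp_zero, comp_zero,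
      sub_zero]
  · have h1 : aug S.S 1 (I ⊕ Unit) = r ≫ aug S.S 0 I := by
      rw [aug, aug]
      change _ = mp S.S _ ≫ _
      have h2 : Q.Gr.retr I ≫ GS.gaug 0 I = GS.gaug 1 (I ⊕ Unit) := by
        apply LC.hom_ext
        intro x
        rfl
      rw [← mp_comp_assoc, h2]
    rw [h1, Preadditive.sub_comp, Category.assoc, Category.assoc, reassoc_of% hir, sub_self]

variable {S : SpaceFunctor T} {E : EvenSpheres T} {e : S.S.obj CCF ≅ E.L}
  {K : T} [MonObj K] [IsCommMonObj K] (C : ThomSys.Cls (thomSys S E e) K)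

/-- The powers of the Euler class are natural. -/
theorem gj_xpF (j : ℕ) {N M : ℕ} (h : N ≤ M) (h' : Fintype.card (Fin N) ≤ Fintype.card (Fin M)) :
    gj (FR S K) 1 h' ≫ xpF C j M = xpF C j N :=
  (buDataK C).xp_map j h

theorem xpF_succ' (j N : ℕ) : xpF C (j + 1) N =
    (thomStrK C).zz 1 (Fin N) ≫ (xpF C j N ▷ (sphK E K).S ((1 : ℕ) : ℤ)) ≫
      ((sphK E K).mu _ _ _ (BUData.natCast_add_one j)).hom := by
  have h1 : xpF C (j + 1) N = zzK C N ≫
      (xpF C j N ▷ (sphK E K).S ((1 : ℕ) : ℤ)) ≫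
      ((sphK E K).mu _ _ _ (BUData.natCast_add_one j)).hom := rfl
  have h2 : zzK C N = (thomStrK C).zz 1 (Fin N) ≫
      (ob (FR S K) (GrO 1 (Fin N)) ◁ 𝟙 _) := (compatK C).z_θ 1 N
  rw [h1, h2, MonoidalCategory.whiskerLeft_id, Category.comp_id]
  rfl

/-- **The top class of the `K`-homology of a projective space.** -/
theorem exists_beta (N : ℕ) :
    ∃ b : (sphK E K).S ((N : ℕ) : ℤ) ⟶ ob (FR S K) (GrO 1 (Fin (N + 1))),
      b ≫ xpF C N (N + 1) = 𝟙 _ ∧ ∀ j < N, b ≫ xpF C j (N + 1) = 0 := by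
  induction N with
  | zero =>
    refine ⟨(sphK E K).e0.inv ≫ pt1 (FR S K) (by simp), ?_, fun j hj => by omega⟩
    have h1 : xpF C 0 (0 + 1) = aug (FR S K) 1 (Fin 1) ≫ (sphK E K).e0.hom := rfl
    rw [h1, Category.assoc, pt1_aug_assoc, Iso.inv_hom_id]
  | succ N ih =>
    obtain ⟨b, hb, hb0⟩ := ih
    obtain ⟨s, hs, hs0⟩ := exists_sec S (Fin (N + 1))
    have hcard : Fintype.card (Fin (N + 1) ⊕ Unit) ≤ Fintype.card (Fin (N + 1 + 1)) := by simp
    let s' : ob (FR S K) (ThO 1 (Fin (N + 1))) ⟶ ob (FR S K) (GrO 1 (Fin (N + 1) ⊕ Unit)) :=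
      (FM.free K).map s
    have hs' : s' ≫ mp (FR S K) (Gr.collapse (n := 1) (I := Fin (N + 1))) = 𝟙 _ :=
      ((FM.free K).map_comp s (mp S.S (Gr.collapse (n := 1) (I := Fin (N + 1))))).symm.trans
        ((congrArg (FM.free K).map hs).trans ((FM.free K).map_id _))
    have hs1 : s' ≫ aug (FR S K) 1 (Fin (N + 1) ⊕ Unit) = 0 := by
      have h2 : (un (FR S K)).inv = (FM.free K).map (un S.S).inv :=
        congrArg Iso.inv (Iso.ext (un_FR S K) : un (FR S K) = (FM.free K).mapIso (un S.S))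
      have h3 : aug (FR S K) 1 (Fin (N + 1) ⊕ Unit) =
          (FM.free K).map (aug S.S 1 (Fin (N + 1) ⊕ Unit)) := by
        rw [aug, h2, aug, Functor.map_comp]
        rfl
      rw [h3]
      exact ((FM.free K).map_comp s _).symm.trans
        ((congrArg (FM.free K).map hs0).trans (Functor.map_zero _ _ _))
    have key : ∀ j, s' ≫ gj (FR S K) 1 hcard ≫ xpF C (j + 1) (N + 1 + 1) =
        (thomStrK C).TT 1 (Fin (N + 1)) ≫ (xpF C j (N + 1) ▷ (sphK E K).S ((1 : ℕ) : ℤ)) ≫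
          ((sphK E K).mu _ _ _ (BUData.natCast_add_one j)).hom := by
      intro j
      rw [xpF_succ', (thomStrK C).gj_zz_assoc, zz_collapse (thomStrK C) 1 (Fin (N + 1)) (by simp)]
      simp only [Category.assoc]
      rw [reassoc_of% hs']
      have h1 : ∀ (X : FM K) {Z : FM K} (g : _ ⟶ Z),
          (gj (FR S K) 1 (I := Fin (N + 1)) (J := Fin (N + 1) ⊕ Unit) (by simp) ▷ X) ≫
            (gj (FR S K) 1 hcard ▷ X) ≫ (xpF C j (N + 1 + 1) ▷ X) ≫ g =
            (xpF C j (N + 1) ▷ X) ≫ g := by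
        intro X Z g
        rw [← comp_whiskerRight_assoc, ← comp_whiskerRight_assoc, gj_gj,
          gj_xpF C j (Nat.le_succ _)]
      exact congrArg ((thomStrK C).TT 1 (Fin (N + 1)) ≫ ·) (h1 ((sphK E K).S ((1 : ℕ) : ℤ))
          ((sphK E K).mu _ _ _ (BUData.natCast_add_one j)).hom)
    have key2 : ∀ j, (b ▷ (sphK E K).S ((1 : ℕ) : ℤ)) ≫
        (xpF C j (N + 1) ▷ (sphK E K).S ((1 : ℕ) : ℤ)) =
          (b ≫ xpF C j (N + 1)) ▷ (sphK E K).S ((1 : ℕ) : ℤ) := fun j =>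
      (comp_whiskerRight _ _ _).symm
    have hiso : IsIso ((thomStrK C).TT 1 (Fin (N + 1))) := (thomStrK C).isIso_TT' 1 (Fin (N + 1))
    let b1 : (sphK E K).S ((N + 1 : ℕ) : ℤ) ⟶
        ob (FR S K) (GrO 1 (Fin (N + 1))) ⊗ (thomStrK C).S 1 :=
      ((sphK E K).mu _ _ _ (BUData.natCast_add_one N)).inv ≫
        (b ▷ (sphK E K).S ((1 : ℕ) : ℤ))
    refine ⟨b1 ≫ inv ((thomStrK C).TT 1 (Fin (N + 1))) ≫ s' ≫ gj (FR S K) 1 hcard, ?_, ?_⟩
    · simp only [Category.assoc]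
      rw [key, IsIso.inv_hom_id_assoc]
      change (((sphK E K).mu _ _ _ (BUData.natCast_add_one N)).inv ≫
        (b ▷ (sphK E K).S ((1 : ℕ) : ℤ))) ≫ (xpF C N (N + 1) ▷ (sphK E K).S ((1 : ℕ) : ℤ)) ≫
          ((sphK E K).mu _ _ _ (BUData.natCast_add_one N)).hom = _
      rw [Category.assoc, ← Category.assoc (b ▷ _), key2, hb, id_whiskerRight, Category.id_comp,
        Iso.inv_hom_id]
    · intro j hj
      simp only [Category.assoc]
      cases j with
      | zero =>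
        have h1 : xpF C 0 (N + 1 + 1) =
          aug (FR S K) 1 (Fin (N + 1 + 1)) ≫ (sphK E K).e0.hom := rfl
        rw [h1, gj_aug_assoc, reassoc_of% hs1, zero_comp, comp_zero, comp_zero]
      | succ j =>
        rw [key, IsIso.inv_hom_id_assoc]
        change (((sphK E K).mu _ _ _ (BUData.natCast_add_one N)).inv ≫
          (b ▷ (sphK E K).S ((1 : ℕ) : ℤ))) ≫ (xpF C j (N + 1) ▷ (sphK E K).S ((1 : ℕ) : ℤ)) ≫
            ((sphK E K).mu _ _ _ (BUData.natCast_add_one j)).hom = _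
        rw [Category.assoc, ← Category.assoc (b ▷ _), key2, hb0 j (by omega),
          MonoidalPreadditive.zero_whiskerRight, zero_comp, comp_zero]

end Vale.Agent.P257.V4.T
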