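import Vale.Agent.P257.V4.T.T1L
import Vale.Agent.P251.S.Amitsur

/-!
# P257, block T (T1): projection of `R ⊗ R ⊗ Y` to `R ⊗ J ⊗ Y ⊗ C`
-/

set_option linter.unusedSectionVars false

open CategoryTheory MonoidalCategory Limits Pretriangulated MonObj

universe v u

noncomputable section

namespace Vale.Agent.P257.V4.T

open Vale.Agent.P251.T Vale.Agent.P251.S

variable {T : Type u} [Category.{v} T] [Preadditive T] [HasZeroObject T] [HasShift T ℤ]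
  [∀ n : ℤ, (shiftFunctor T n).Additive] [Pretriangulated T] [MonoidalCategory T]
  [SymmetricCategory T] [TensorTriangulated T]

variable {R : T} [MonObj R] [IsCommMonObj R] (U : UnitCof R) {C : T} (i : 𝟙_ T ⟶ C)

/-- the projection `R ⊗ R ⊗ Y ⟶ R ⊗ J ⊗ Y ⊗ C` -/
def piM (Y : T) : (R ⊗ R) ⊗ Y ⟶ R ⊗ (U.J ⊗ (Y ⊗ C)) :=
  (α_ R R Y).hom ≫ R ◁ (U.ρ ▷ Y) ≫ R ◁ (U.J ◁ inC (𝟙 Y) i)

theorem inlM_piM (Y : T) : (inlM R R ▷ Y) ≫ piM U i Y = 0 := by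
  have h1 : (inlM R R ▷ Y) ≫ (α_ R R Y).hom = R ◁ unitMap R Y := by
    rw [inlM, unitMap, comp_whiskerRight, Category.assoc, associator_naturality_middle,
      MonoidalCategory.whiskerLeft_comp]
    simp
  rw [piM, reassoc_of% h1, ← MonoidalCategory.whiskerLeft_comp_assoc, U.unitMap_ρ]
  have h2 : R ◁ (0 : Y ⟶ U.J ⊗ Y) = 0 := MonoidalPreadditive.whiskerLeft_zero
  rw [h2, zero_comp]

theorem inrM_piM {A Y : T} (g : A ⟶ R ⊗ Y) : (g ≫ inrM R R ▷ Y) ≫ piM U i Y =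
    (g ≫ R ◁ inC (𝟙 Y) i) ≫ (U.ρ ▷ (Y ⊗ C)) ≫ unitMap R (U.J ⊗ (Y ⊗ C)) := by
  have h1 : (inrM R R ▷ Y) ≫ (α_ R R Y).hom = unitMap R (R ⊗ Y) := by
    rw [inrM, unitMap, comp_whiskerRight, Category.assoc, associator_naturality_left]
    simp
  rw [piM, Category.assoc, reassoc_of% h1, ← unitMap_nat_assoc, ← unitMap_nat,
    Category.assoc, whisker_exchange_assoc]

theorem piM_tors {p : ℤ} (hi : p • i = 0) {A Y : T} (g : A ⟶ (R ⊗ R) ⊗ Y) :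
    (p • g) ≫ piM U i Y = 0 := by
  have h1 : p • inC (𝟙 Y) i = 0 := zsmul_inC i (𝟙 Y) hi
  have h2 : p • (R ◁ (U.J ◁ inC (𝟙 Y) i)) = 0 := by
    have h3 : R ◁ (U.J ◁ (p • inC (𝟙 Y) i)) = p • (R ◁ (U.J ◁ inC (𝟙 Y) i)) := by
      have h4 : U.J ◁ (p • inC (𝟙 Y) i) = p • (U.J ◁ inC (𝟙 Y) i) := (tensorLeft U.J).map_zsmul
      have h5 : R ◁ (p • (U.J ◁ inC (𝟙 Y) i)) = p • (R ◁ (U.J ◁ inC (𝟙 Y) i)) :=
        (tensorLeft R).map_zsmul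
      rw [h4, h5]
    rw [← h3, h1, MonoidalPreadditive.whiskerLeft_zero, MonoidalPreadditive.whiskerLeft_zero]
  rw [piM, Preadditive.zsmul_comp, ← Preadditive.comp_zsmul, ← Preadditive.comp_zsmul,
    ← Preadditive.comp_zsmul, h2, comp_zero, comp_zero, comp_zero]

/-- moving `C` to the other factor -/
def swC (Y : T) : (U.J ⊗ C) ⊗ Y ⟶ U.J ⊗ (Y ⊗ C) := (α_ U.J C Y).hom ≫ U.J ◁ (β_ C Y).hom

theorem whiskerLeft_inC (Y : T) : U.J ◁ inC (𝟙 Y) i = (inC (𝟙 U.J) i ▷ Y) ≫ swC U Y := by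
  simp only [inC, swC, Category.id_comp, comp_whiskerRight, Category.assoc,
    MonoidalCategory.whiskerLeft_comp]
  have h0 : (i ▷ Y) ≫ (β_ C Y).hom = (β_ (𝟙_ T) Y).hom ≫ Y ◁ i :=
    BraidedCategory.braiding_naturality_left _ _
  have h1 : (ρ_ U.J).inv ▷ Y ≫ (α_ U.J (𝟙_ T) Y).hom = U.J ◁ (λ_ Y).inv := by simp
  rw [associator_naturality_middle_assoc, ← MonoidalCategory.whiskerLeft_comp _ (i ▷ Y), h0,
    reassoc_of% h1, ← MonoidalCategory.whiskerLeft_comp, braiding_tensorUnit_left]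
  simp

theorem tens_piM {A X Y : T} {c : A ⟶ R ⊗ R} {a : A ⟶ U.J} {n : ℤ}
    (h : c ≫ (R ◁ U.ρ) ≫ (R ◁ inC (𝟙 U.J) i) = n • (inC a i ≫ unitMap R (U.J ⊗ C)))
    (x : X ⟶ Y) :
    (c ⊗ₘ x) ≫ piM U i Y = n • ((a ⊗ₘ inC x i) ≫ unitMap R (U.J ⊗ (Y ⊗ C))) := by
  have key : ∀ d : A ⟶ R ⊗ U.J, (d ⊗ₘ x) ≫ (α_ R U.J Y).hom ≫ R ◁ (U.J ◁ inC (𝟙 Y) i) =
      ((d ≫ R ◁ inC (𝟙 U.J) i) ⊗ₘ x) ≫ (α_ R (U.J ⊗ C) Y).hom ≫ R ◁ swC U Y := by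
    intro d
    have h1 : ((d ≫ R ◁ inC (𝟙 U.J) i) ⊗ₘ x) = (d ⊗ₘ x) ≫ ((R ◁ inC (𝟙 U.J) i) ▷ Y) := by
      rw [← tensorHom_id, tensorHom_comp_tensorHom, Category.comp_id]
    rw [h1, Category.assoc, associator_naturality_middle_assoc,
      ← MonoidalCategory.whiskerLeft_comp, ← whiskerLeft_inC]
  have h2 : (c ⊗ₘ x) ≫ piM U i Y =
      ((c ≫ R ◁ U.ρ) ⊗ₘ x) ≫ (α_ R U.J Y).hom ≫ R ◁ (U.J ◁ inC (𝟙 Y) i) := by
    have h1 : ((c ≫ R ◁ U.ρ) ⊗ₘ x) = (c ⊗ₘ x) ≫ ((R ◁ U.ρ) ▷ Y) := by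
      rw [← tensorHom_id, tensorHom_comp_tensorHom, Category.comp_id]
    rw [h1, Category.assoc, associator_naturality_middle_assoc, piM]
  have h3 : (a ⊗ₘ inC x i) ≫ unitMap R (U.J ⊗ (Y ⊗ C)) =
      ((a ≫ unitMap R U.J) ⊗ₘ x) ≫ (α_ R U.J Y).hom ≫ R ◁ (U.J ◁ inC (𝟙 Y) i) := by
    have h4 : (a ⊗ₘ inC x i) = (a ⊗ₘ x) ≫ (U.J ◁ inC (𝟙 Y) i) := by
      rw [← id_tensorHom, tensorHom_comp_tensorHom, Category.comp_id]
      simp only [inC, Category.id_comp]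
    have h5 : ((a ≫ unitMap R U.J) ⊗ₘ x) = (a ⊗ₘ x) ≫ (unitMap R U.J ▷ Y) := by
      rw [← tensorHom_id, tensorHom_comp_tensorHom, Category.comp_id]
    have h6 : (unitMap R U.J ▷ Y) ≫ (α_ R U.J Y).hom = unitMap R (U.J ⊗ Y) := by
      rw [unitMap, unitMap, comp_whiskerRight, Category.assoc, associator_naturality_left]
      simp
    rw [h4, h5, Category.assoc, Category.assoc, reassoc_of% h6, unitMap_nat]
  have h7 : (a ≫ unitMap R U.J) ≫ R ◁ inC (𝟙 U.J) i = inC a i ≫ unitMap R (U.J ⊗ C) := by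
    rw [Category.assoc, ← unitMap_nat, ← Category.assoc]
    simp only [inC, Category.id_comp, Category.assoc]
  rw [h2, key, h3, key, h7, Category.assoc, h]
  have h8 : ((n • (inC a i ≫ unitMap R (U.J ⊗ C))) ⊗ₘ x) =
      n • ((inC a i ≫ unitMap R (U.J ⊗ C)) ⊗ₘ x) := by
    have h9 : ∀ k : A ⟶ R ⊗ (U.J ⊗ C), (k ⊗ₘ x) = (k ▷ X) ≫ ((R ⊗ (U.J ⊗ C)) ◁ x) := fun k =>
      MonoidalCategory.tensorHom_def k x
    have h10 : (n • (inC a i ≫ unitMap R (U.J ⊗ C))) ▷ X =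
      n • ((inC a i ≫ unitMap R (U.J ⊗ C)) ▷ X) := (tensorRight X).map_zsmul
    rw [h9, h9, h10, Preadditive.zsmul_comp]
  rw [h8, Preadditive.zsmul_comp]

end Vale.Agent.P257.V4.T
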