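import Vale.Agent.P257.V4.T.CmpExp
import Vale.Agent.P257.V4.T.FibDual
import Vale.Agent.P257.V4.T.T1CAbs

/-!
# P257, block T (T1): the class of the Thom space over `CP^{p-1}`

`t1_class`, `t1c`: a class `f` of `R ⊗ Th(CP^{p-1}; K ⊗ ρ) ⊗ C` with `d_1 f = c a ι`.
-/

open CategoryTheory MonoidalCategory Limits Pretriangulated
open Vale.Agent.P251.G Vale.Agent.P251.G.LC Vale.Agent.P251.I Vale.Agent.P251.T
open Vale.Agent.P251.M Vale.Agent.P251.S Vale.Agent.P251.M.EvenSpheres Vale.Agent.P251.Q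
open Vale.Agent.P251.Q.MultTheory Vale.Agent.P241.H588

universe v u

set_option linter.unusedSectionVars false
set_option linter.style.haveILetI false

noncomputable section

namespace Vale.Agent.P257.V4.T

variable {T : Type u} [Category.{v} T] [Preadditive T] [HasZeroObject T]
    [HasShift T ℤ] [∀ n : ℤ, (shiftFunctor T n).Additive] [Pretriangulated T] [IsTriangulated T]
    [MonoidalCategory T] [SymmetricCategory T] [TensorTriangulated T] [MonoidalClosed T]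
    [HasCoproducts.{0} T] [HasProducts.{0} T] [StableCat T]
  {S : EvenSpheres T} {F : SpaceFunctor T} {e : F.S.obj CCF ≅ S.L}

/-! ### Divisibility -/

section div

/-- a morphism which vanishes modulo `p` is divisible by `p` -/
theorem exists_div {A X C : T} {p : ℤ} {i : 𝟙_ T ⟶ C} {δ : C ⟶ (𝟙_ T)⟦(1 : ℤ)⟧}
    (hC : Triangle.mk (p • 𝟙 (𝟙_ T)) i δ ∈ distTriang T) (g : A ⟶ X)
    (h : g ≫ (ρ_ X).inv ≫ X ◁ i = 0) : ∃ g' : A ⟶ X, g = p • g' := by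
  obtain ⟨k, hk⟩ := dist_left hC X
  obtain ⟨g', hg'⟩ := dist_exact₂ hk (g ≫ (ρ_ X).inv) (by rw [Category.assoc, h])
  refine ⟨g' ≫ (ρ_ X).hom, ?_⟩
  have h1 : X ◁ (p • 𝟙 (𝟙_ T)) = p • 𝟙 (X ⊗ 𝟙_ T) := by
    have h2 : X ◁ (p • 𝟙 (𝟙_ T)) = p • (X ◁ 𝟙 (𝟙_ T)) := (tensorLeft X).map_zsmul
    rw [h2, MonoidalCategory.whiskerLeft_id]
  rw [h1, Preadditive.comp_zsmul, Category.comp_id] at hg'
  have h3 := congrArg (· ≫ (ρ_ X).hom) hg'
  simp only [Category.assoc, Iso.inv_hom_id, Category.comp_id, Preadditive.zsmul_comp] at h3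
  exact h3

variable {R : T} [MonObj R] [IsCommMonObj R]

theorem exists_div_RR {j : ℤ} {C : T} {p : ℤ} {i : 𝟙_ T ⟶ C} {δ : C ⟶ (𝟙_ T)⟦(1 : ℤ)⟧}
    (hC : Triangle.mk (p • 𝟙 (𝟙_ T)) i δ ∈ distTriang T)
    (hev : ∀ f : S.S j ⟶ R ⊗ (R ⊗ C), f = 0) (g : S.S j ⟶ R ⊗ R) :
    ∃ g' : S.S j ⟶ R ⊗ R, g = p • g' := by
  refine exists_div hC g ?_
  have h1 := hev ((g ≫ (ρ_ (R ⊗ R)).inv ≫ (R ⊗ R) ◁ i) ≫ (α_ R R C).hom)
  rw [← cancel_mono (α_ R R C).hom, h1, zero_comp]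

/-- the coefficients of the comparison series are divisible by `p` -/
theorem exists_div_cc (o o' : Orientation (thK e (R ⊗ R))) {p : ℕ} {C : T} {i : 𝟙_ T ⟶ C}
    {δ : C ⟶ (𝟙_ T)⟦(1 : ℤ)⟧} (hC : Triangle.mk ((p : ℤ) • 𝟙 (𝟙_ T)) i δ ∈ distTriang T)
    (hev : ∀ j : ℤ, 0 < j → j < (p : ℤ) - 1 → ∀ f : S.S j ⟶ R ⊗ (R ⊗ C), f = 0) :
    ∀ i, 0 < i → i < p - 1 → ∃ a : (thK e (R ⊗ R)).A, cc o o' i = p • a := by
  intro l hl0 hl
  obtain ⟨g, hg⟩ := exists_coefHom (i := (l : ℤ)) (cc_mem o o' l) (neg_neg _).symm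
  obtain ⟨g', hg'⟩ := exists_div_RR hC (hev (l : ℤ) (by omega) (by omega)) g
  obtain ⟨a, ha⟩ := (coefK_bijective e (R ⊗ R)).2 (HRing.of S (R ⊗ R) (l : ℤ) g')
  refine ⟨a, (coefK_bijective e (R ⊗ R)).1 ?_⟩
  rw [hg, hg', map_nsmul, ha]
  exact (map_zsmul (DirectSum.of (S.Gr (R ⊗ R)) (l : ℤ)) (p : ℤ) g').trans (natCast_zsmul _ _)

end div

/-! ### Change of the dual basis -/

section change

variable {W : T} [MonObj W] [IsCommMonObj W] (oR oL : Orientation (thK e W))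
  {p : ℕ} [hp : Fact p.Prime] {K : Type} [Fintype K] [DecidableEq K]

/-- the last index -/
abbrev lastP (p : ℕ) [hp : Fact p.Prime] : Fin p := ⟨p - 1, Nat.sub_lt hp.out.pos one_pos⟩

/-- the first index -/
abbrev zeroP (p : ℕ) [hp : Fact p.Prime] : Fin p := ⟨0, hp.out.pos⟩

/-- the dimension of the fibre -/
abbrev dimK (p : ℕ) (K : Type) [Fintype K] : ℕ := Fintype.card (K × Fin p)

theorem zeroP_ne_lastP : zeroP p ≠ lastP p := by
  intro h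
  have h1 : 0 = p - 1 := congrArg Fin.val h
  have := hp.out.one_lt
  omega

theorem dual_change
    (fL : ∀ i : Fin p, FM.of (R := W) (F.S.obj (totF (kR p K) kR_isRank)) ⟶
      FM.of (S.S (((i : ℕ) : ℤ) + (dimK p K : ℕ))))
    (hfL : ∀ i : Fin p, IsC e (totF (kR p K) kR_isRank) _ (zU oL (kR p K) kR_isRank i) (fL i))
    (bL : ∀ i : Fin p, FM.of (R := W) (S.S (((i : ℕ) : ℤ) + (dimK p K : ℕ))) ⟶
      FM.of (F.S.obj (totF (kR p K) kR_isRank))) (hbL : ∑ i, fL i ≫ bL i = 𝟙 _)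
    (fR : ∀ i : Fin p, FM.of (R := W) (F.S.obj (totF (kR p K) kR_isRank)) ⟶
      FM.of (S.S (((i : ℕ) : ℤ) + (dimK p K : ℕ))))
    (hfR : ∀ i : Fin p, IsC e (totF (kR p K) kR_isRank) _ (zU oR (kR p K) kR_isRank i) (fR i))
    (bR : ∀ i : Fin p, FM.of (R := W) (S.S (((i : ℕ) : ℤ) + (dimK p K : ℕ))) ⟶
      FM.of (F.S.obj (totF (kR p K) kR_isRank))) (hbR : ∑ i, fR i ≫ bR i = 𝟙 _)
    (hc : ∀ i, 0 < i → i < p - 1 → ∃ a : (thK e W).A, cc oR oL i = p • a)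
    (τ : S.S ((p - 1 : ℕ) : ℤ) ⟶ W)
    (hτ : coefK e W (cc oR oL (p - 1)) = HRing.of S W ((p - 1 : ℕ) : ℤ) τ)
    (hm : ((p - 1 : ℕ) : ℤ) + (((zeroP p : ℕ) : ℤ) + (dimK p K : ℕ)) =
      ((lastP p : ℕ) : ℤ) + (dimK p K : ℕ)) :
    ∃ Z : FM.of (R := W) (S.S (((lastP p : ℕ) : ℤ) + (dimK p K : ℕ))) ⟶
      FM.of (F.S.obj (totF (kR p K) kR_isRank)),
      bR (lastP p) = bL (lastP p) +
        ((Fintype.card K * (p - 1) : ℕ) : ℤ) • (mulS hm τ ≫ bL (zeroP p)) + (p : ℤ) • Z := by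
  haveI := good_tot_CP (E := thK e W) (kR p K) kR_isRank
  have key : ∀ j : Fin p, ∃ Z : FM.of (R := W) (S.S (((lastP p : ℕ) : ℤ) + (dimK p K : ℕ))) ⟶
      FM.of (F.S.obj (totF (kR p K) kR_isRank)),
      (bR (lastP p) ≫ fL j) ≫ bL j = (if j = lastP p then bL (lastP p) else 0) +
        (if j = zeroP p then ((Fintype.card K * (p - 1) : ℕ) : ℤ) • (mulS hm τ ≫ bL (zeroP p))
          else 0) + (p : ℤ) • Z := by
    intro j
    obtain ⟨y, hy⟩ := zU_expansion oR oL hc K (kR_isRank (p := p) (K := K)) j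
    have hdeg : zU oL (kR p K) kR_isRank j ∈ (thK e W).deg (kR p K).tot
        (((j : ℕ) : ℤ) + (dimK p K : ℕ)) := zU_deg oL (kR p K) kR_isRank j
    by_cases h0 : j = zeroP p
    · subst h0
      obtain ⟨g, hg, hg'⟩ := dual_coef oR (kR p K) kR_isRank fR hfR bR hbR hdeg (hfL (zeroP p))
        hy (lastP p) hm
      have h1 : HRing.of S W ((p - 1 : ℕ) : ℤ)
          (g - ((Fintype.card K * (p - 1) : ℕ) : ℤ) • τ) = (p : ℤ) • coefK e W (y (lastP p)) := by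
        have h2 : HRing.of S W ((p - 1 : ℕ) : ℤ)
            (g - ((Fintype.card K * (p - 1) : ℕ) : ℤ) • τ) = HRing.of S W ((p - 1 : ℕ) : ℤ) g -
              ((Fintype.card K * (p - 1) : ℕ) : ℤ) • HRing.of S W ((p - 1 : ℕ) : ℤ) τ :=
          ((DirectSum.of (S.Gr W) ((p - 1 : ℕ) : ℤ)).map_sub _ _).trans
            (congrArg (HRing.of S W ((p - 1 : ℕ) : ℤ) g - ·)
              ((DirectSum.of (S.Gr W) ((p - 1 : ℕ) : ℤ)).map_zsmul _ _))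
        rw [h2, ← hg, ← hτ, if_neg zeroP_ne_lastP.symm, if_pos ⟨rfl, rfl⟩, zero_add,
          map_add, map_nsmul, map_nsmul, natCast_zsmul, natCast_zsmul, add_sub_cancel_left]
      obtain ⟨g', hg2⟩ := exists_div_of h1
      refine ⟨mulS hm g' ≫ bL (zeroP p), ?_⟩
      rw [if_neg zeroP_ne_lastP, if_pos rfl, hg', zero_add]
      have h3 : g = ((Fintype.card K * (p - 1) : ℕ) : ℤ) • τ + (p : ℤ) • g' := by
        rw [← hg2]; abel
      rw [h3, mulS_add, mulS_zsmul, mulS_zsmul, Preadditive.add_comp, Preadditive.zsmul_comp,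
        Preadditive.zsmul_comp]
    · by_cases hl : j = lastP p
      · subst hl
        obtain ⟨g, hg, hg'⟩ := dual_coef oR (kR p K) kR_isRank fR hfR bR hbR hdeg (hfL (lastP p))
          hy (lastP p) (zero_add _)
        have h1 : HRing.of S W 0 (g - (S.zero.inv ≫ MonObj.one)) =
            (p : ℤ) • coefK e W (y (lastP p)) := by
          have h2 : HRing.of S W 0 (g - (S.zero.inv ≫ MonObj.one)) = HRing.of S W 0 g -
              HRing.of S W 0 (S.zero.inv ≫ MonObj.one) :=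
            (DirectSum.of (S.Gr W) 0).map_sub _ _
          have h4 : ¬ (((lastP p : Fin p) : ℕ) = 0 ∧ ((lastP p : Fin p) : ℕ) = p - 1) :=
            fun h => h0 (Fin.ext h.1)
          rw [h2, ← hg, of_one, if_pos rfl, if_neg h4, add_zero, map_add, map_one, map_nsmul,
            natCast_zsmul, add_sub_cancel_left]
        obtain ⟨g', hg2⟩ := exists_div_of h1
        refine ⟨mulS (zero_add _) g' ≫ bL (lastP p), ?_⟩
        rw [if_pos rfl, if_neg h0, hg', add_zero]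
        have h3 : g = (S.zero.inv ≫ MonObj.one) + (p : ℤ) • g' := by
          rw [← hg2]; abel
        rw [h3, mulS_add, mulS_zsmul, mulS_one, Preadditive.add_comp, Preadditive.zsmul_comp,
          Category.id_comp]
      · obtain ⟨g, hg, hg'⟩ := dual_coef oR (kR p K) kR_isRank fR hfR bR hbR hdeg (hfL j)
          hy (lastP p) (l := ((lastP p : ℕ) : ℤ) - ((j : ℕ) : ℤ)) (by ring)
        have h4 : ¬ ((j : ℕ) = 0 ∧ ((lastP p : Fin p) : ℕ) = p - 1) :=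
          fun h => h0 (Fin.ext h.1)
        rw [if_neg (fun h => hl h.symm), if_neg h4, add_zero, zero_add, map_nsmul,
          ← natCast_zsmul] at hg
        obtain ⟨g', hg2⟩ := exists_div_of hg.symm
        refine ⟨mulS (by ring) g' ≫ bL j, ?_⟩
        rw [if_neg hl, if_neg h0, add_zero, zero_add, hg', hg2, mulS_zsmul,
          Preadditive.zsmul_comp]
  choose Z hZ using key
  refine ⟨∑ j, Z j, ?_⟩
  have h1 : bR (lastP p) = ∑ j, (bR (lastP p) ≫ fL j) ≫ bL j := by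
    have h2 := congrArg (bR (lastP p) ≫ ·) hbL
    simp only [Preadditive.comp_sum, Category.comp_id] at h2
    exact h2.symm.trans (Finset.sum_congr rfl fun j _ => (Category.assoc _ _ _).symm)
  rw [h1, Finset.sum_congr rfl fun j _ => hZ j, Finset.sum_add_distrib, Finset.sum_add_distrib,
    Finset.sum_ite_eq' Finset.univ, Finset.sum_ite_eq' Finset.univ, Finset.smul_sum]
  simp

end change

/-! ### The class -/

section main

variable {R : T} [MonObj R] [IsCommMonObj R] (o : Orientation (thK e R))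
  {p : ℕ} [hp : Fact p.Prime] {K : Type} [Fintype K] [DecidableEq K]

/-- the orientation of the left factor -/
abbrev oLR (o : Orientation (thK e R)) : Orientation (thK e (R ⊗ R)) :=
  (thKHom e (inlM R R)).push o

/-- the orientation of the right factor -/
abbrev oRR (o : Orientation (thK e R)) : Orientation (thK e (R ⊗ R)) :=
  (thKHom e (inrM R R)).push o

theorem pu_fr {R' : T} [MonObj R'] [IsCommMonObj R'] (φ : R ⟶ R') [IsMonHom φ] {A B : T}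
    (g : A ⟶ B) : pu φ (fr R g) = fr R' g := pu_free φ g

/-- the composite of `τ` with a multiple of the class `b` -/
theorem mulS_aux {W : T} [MonObj W] [IsCommMonObj W] {X Y A : T} {i k q : ℤ} (h : i + k = q)
    (c : S.S i ⟶ W) (b : FM.of (R := W) (S.S k) ⟶ FM.of Y) (θ : A ⟶ S.S i) (y : X ⟶ S.S k)
    (x : X ⟶ Y) (hx : fr W x = fr W y ≫ b) :
    ((θ ⊗ₘ y) ≫ (S.mu i k q h).hom) ≫ FM.Hom.hom (R := W) (X := FM.of (R := W) (S.S q))
      (Y := FM.of Y) (mulS h c ≫ b) = ((θ ≫ c) ⊗ₘ x) := by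
  have h1 : FM.Hom.hom (R := W) (X := FM.of (R := W) (S.S q)) (Y := FM.of Y) (mulS h c ≫ b) =
      ((S.mu i k q h).inv ≫ c ▷ S.S k) ≫
        FM.bind (FM.Hom.hom (R := W) (X := FM.of (R := W) (S.S k)) (Y := FM.of Y) b) := rfl
  have h2 : y ≫ FM.Hom.hom (R := W) (X := FM.of (R := W) (S.S k)) (Y := FM.of Y) b =
      x ≫ FM.unit W Y := by
    rw [← fr_hom x, hx, fr_comp_hom]
  have h3 : W ◁ y ≫ FM.bind (FM.Hom.hom (R := W) (X := FM.of (R := W) (S.S k)) (Y := FM.of Y) b) =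
      W ◁ x := by
    rw [FM.bind, ← MonoidalCategory.whiskerLeft_comp_assoc, h2]
    exact FM.bind_comp_unit x
  rw [h1, Category.assoc, Category.assoc, Iso.hom_inv_id_assoc, MonoidalCategory.tensorHom_def,
    Category.assoc, whisker_exchange_assoc, h3, ← Category.assoc, ← comp_whiskerRight,
    ← MonoidalCategory.tensorHom_def]

theorem final_aux (U : UnitCof R) {C : T} {i : 𝟙_ T ⟶ C} {m N n : ℤ} (hi : m • i = 0)
    {A X Y Q : T} (φ : A ⊗ X ⟶ Q) (B : Q ⟶ R ⊗ Y) (M Z : Q ⟶ (R ⊗ R) ⊗ Y)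
    (hZ : B ≫ inrM R R ▷ Y = B ≫ inlM R R ▷ Y + N • M + m • Z) {c : A ⟶ R ⊗ R} {x : X ⟶ Y}
    (hM : φ ≫ M = (c ⊗ₘ x)) {a : A ⟶ U.J}
    (ha : c ≫ (R ◁ U.ρ) ≫ (R ◁ inC (𝟙 U.J) i) = n • (inC a i ≫ unitMap R (U.J ⊗ C))) :
    ((φ ≫ B) ≫ R ◁ inC (𝟙 Y) i) ≫ (U.ρ ▷ (Y ⊗ C)) ≫ unitMap R (U.J ⊗ (Y ⊗ C)) =
      ((N * n) • (a ⊗ₘ inC x i)) ≫ unitMap R (U.J ⊗ (Y ⊗ C)) := by
  have h1 : φ ≫ (B ≫ inlM R R ▷ Y) ≫ piM U i Y = 0 := by
    rw [Category.assoc, inlM_piM, comp_zero, comp_zero]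
  have h2 : φ ≫ (m • Z) ≫ piM U i Y = 0 := by rw [piM_tors U i hi, comp_zero]
  have h3 : φ ≫ (N • M) ≫ piM U i Y = (N * n) • ((a ⊗ₘ inC x i) ≫ unitMap R (U.J ⊗ (Y ⊗ C))) := by
    rw [Preadditive.zsmul_comp, Preadditive.comp_zsmul, ← Category.assoc, hM, tens_piM U i ha,
      smul_smul]
  refine (inrM_piM U i (φ ≫ B)).symm.trans ?_
  rw [Category.assoc φ, hZ, Category.assoc, Preadditive.add_comp, Preadditive.add_comp,
    Preadditive.comp_add, Preadditive.comp_add, h1, h2, h3, zero_add, add_zero,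
    Preadditive.zsmul_comp]

/-- **T1C.** A class `f` of `R ⊗ Th(CP^{p-1}; K ⊗ ρ) ⊗ C` with `d_1 f = c a ι`. -/
theorem t1_class (U : UnitCof R) {C : T} {i : 𝟙_ T ⟶ C} {δ : C ⟶ (𝟙_ T)⟦(1 : ℤ)⟧}
    (hC : Triangle.mk ((p : ℤ) • 𝟙 (𝟙_ T)) i δ ∈ distTriang T)
    (hc : ∀ i, 0 < i → i < p - 1 →
      ∃ a : (thK e (R ⊗ R)).A, cc (oRR o) (oLR o) i = p • a)
    {A : T} (θ : A ⟶ S.S ((p - 1 : ℕ) : ℤ)) (a : A ⟶ U.J) (τ : S.S ((p - 1 : ℕ) : ℤ) ⟶ R ⊗ R)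
    (hτ : coefK e (R ⊗ R) (cc (oRR o) (oLR o) (p - 1)) =
      HRing.of S (R ⊗ R) ((p - 1 : ℕ) : ℤ) τ) {n : ℤ}
    (ha : (θ ≫ τ) ≫ (R ◁ U.ρ) ≫ (R ◁ inC (𝟙 U.J) i) = n • (inC a i ≫ unitMap R (U.J ⊗ C)))
    (x : SS (Fin p)) :
    ∃ f : A ⊗ ob F.S (LC.of (Fin p → K → ℂ)) ⟶ R ⊗ (ob F.S (YC p (Fin p) K) ⊗ C),
      f ≫ (U.ρ ▷ _) ≫ unitMap R (U.J ⊗ (ob F.S (YC p (Fin p) K) ⊗ C)) =
        ((((Fintype.card K * (p - 1) : ℕ) : ℤ) * n) •
          (a ⊗ₘ inC (mp F.S (fibC hp.out.ne_zero x)) i)) ≫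
            unitMap R (U.J ⊗ (ob F.S (YC p (Fin p) K) ⊗ C)) := by
  have hi : (p : ℤ) • i = 0 := by
    have h1 : ((p : ℤ) • 𝟙 (𝟙_ T)) ≫ i = 0 := comp_distTriang_mor_zero₁₂ _ hC
    rwa [Preadditive.zsmul_comp, Category.id_comp] at h1
  -- the dual basis over `R`
  have hex : ∀ j : Fin p, ∃ f : FM.of (R := R) (F.S.obj (totF (kR p K) kR_isRank)) ⟶
      FM.of (S.S (((j : ℕ) : ℤ) + (dimK p K : ℕ))),
      IsC e (totF (kR p K) kR_isRank) _ (zU o (kR p K) kR_isRank j) f := fun j =>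
    exists_isC (zU_deg o (kR p K) kR_isRank j)
  choose f hf using hex
  obtain ⟨b, hb⟩ := exists_dual o (kR p K) kR_isRank f hf
  obtain ⟨y, hy⟩ := fib_dual o (K := K) x f hf b hb
  -- over `R ⊗ R`
  have hpush : ∀ (φ : R ⟶ R ⊗ R) [IsMonHom φ], (∀ j : Fin p, IsC e (totF (kR p K) kR_isRank) _
      (zU ((thKHom e φ).push o) (kR p K) kR_isRank j) (pu φ (f j))) ∧
        ∑ j, pu φ (f j) ≫ pu φ (b j) = 𝟙 _ := by
    intro φ _
    refine ⟨fun j => ?_, ?_⟩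
    · rw [push_zU]
      exact (hf j).push φ
    · rw [← pu_id φ, ← hb, pu_sum]
      exact Finset.sum_congr rfl fun j _ => (pu_comp φ _ _).symm
  obtain ⟨hL1, hL2⟩ := hpush (inlM R R)
  obtain ⟨hR1, hR2⟩ := hpush (inrM R R)
  have hm : ((p - 1 : ℕ) : ℤ) + (((zeroP p : ℕ) : ℤ) + (dimK p K : ℕ)) =
      ((lastP p : ℕ) : ℤ) + (dimK p K : ℕ) := by simp
  obtain ⟨Z, hZ⟩ := dual_change (oRR o) (oLR o) (fun j => pu (inlM R R) (f j)) hL1
    (fun j => pu (inlM R R) (b j)) hL2 (fun j => pu (inrM R R) (f j)) hR1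
    (fun j => pu (inrM R R) (b j)) hR2 hc τ hτ hm
  have hx : fr (R ⊗ R) (F.S.map (fibKR (K := K) x)) = fr (R ⊗ R) y ≫ pu (inlM R R) (b (zeroP p)) := by
    rw [← pu_fr (inlM R R), ← pu_fr (inlM R R), hy, pu_comp]
  have hτx := mulS_aux hm τ (pu (inlM R R) (b (zeroP p))) θ y (F.S.map (fibKR (K := K) x)) hx
  have hZ' : FM.Hom.hom (R := R) (X := FM.of (R := R) _) (Y := FM.of _) (b (lastP p)) ≫
      inrM R R ▷ F.S.obj (totF (kR p K) kR_isRank) =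
      FM.Hom.hom (R := R) (X := FM.of (R := R) _) (Y := FM.of _) (b (lastP p)) ≫
        inlM R R ▷ F.S.obj (totF (kR p K) kR_isRank) +
        ((Fintype.card K * (p - 1) : ℕ) : ℤ) • FM.Hom.hom (R := R ⊗ R)
          (X := FM.of (R := R ⊗ R) _) (Y := FM.of _) (mulS hm τ ≫ pu (inlM R R) (b (zeroP p))) +
        (p : ℤ) • FM.Hom.hom (R := R ⊗ R) (X := FM.of (R := R ⊗ R) _) (Y := FM.of _) Z := by
    have h1 := congrArg (fun t => FM.Hom.hom (R := R ⊗ R) (X := FM.of (R := R ⊗ R)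
      (S.S (((lastP p : ℕ) : ℤ) + (dimK p K : ℕ)))) (Y := FM.of
        (F.S.obj (totF (kR p K) kR_isRank))) t) hZ
    exact h1
  exact ⟨_, final_aux U hi ((θ ⊗ₘ y) ≫ (S.mu _ _ _ hm).hom) _ _ _ hZ' hτx ha⟩

/-- **T1C**, with the divisibility of the coefficients from the vanishing of homotopy groups. -/
theorem t1c (U : UnitCof R) {C : T} {i : 𝟙_ T ⟶ C} {δ : C ⟶ (𝟙_ T)⟦(1 : ℤ)⟧}
    (hC : Triangle.mk ((p : ℤ) • 𝟙 (𝟙_ T)) i δ ∈ distTriang T)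
    (hev : ∀ j : ℤ, 0 < j → j < (p : ℤ) - 1 → ∀ f : S.S j ⟶ R ⊗ (R ⊗ C), f = 0)
    {A : T} (θ : A ⟶ S.S ((p - 1 : ℕ) : ℤ)) (a : A ⟶ U.J) (τ : S.S ((p - 1 : ℕ) : ℤ) ⟶ R ⊗ R)
    (hτ : coefK e (R ⊗ R) (cc (oRR o) (oLR o) (p - 1)) =
      HRing.of S (R ⊗ R) ((p - 1 : ℕ) : ℤ) τ) {n : ℤ} (hn : ¬ (p : ℤ) ∣ n)
    (ha : (θ ≫ τ) ≫ (R ◁ U.ρ) ≫ (R ◁ inC (𝟙 U.J) i) = n • (inC a i ≫ unitMap R (U.J ⊗ C)))
    (hK : ¬ p ∣ Fintype.card K) (x : SS (Fin p)) :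
    ∃ (c : ℤ) (_ : ¬ (p : ℤ) ∣ c)
      (f : A ⊗ ob F.S (LC.of (Fin p → K → ℂ)) ⟶ R ⊗ (ob F.S (YC p (Fin p) K) ⊗ C)),
      f ≫ (U.ρ ▷ _) ≫ unitMap R (U.J ⊗ (ob F.S (YC p (Fin p) K) ⊗ C)) =
        (c • (a ⊗ₘ inC (mp F.S (fibC hp.out.ne_zero x)) i)) ≫
            unitMap R (U.J ⊗ (ob F.S (YC p (Fin p) K) ⊗ C)) := by
  obtain ⟨f, hf⟩ := t1_class o (K := K) U hC (exists_div_cc (oRR o) (oLR o) hC hev) θ a τ hτ ha x
  refine ⟨_, ?_, f, hf⟩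
  have hpr : Prime (p : ℤ) := Nat.prime_iff_prime_int.mp hp.out
  intro h
  rcases hpr.dvd_or_dvd h with h | h
  · rw [Nat.cast_mul] at h
    rcases hpr.dvd_or_dvd h with h | h
    · exact hK (Int.natCast_dvd_natCast.mp h)
    · have h1 := Nat.le_of_dvd (by have := hp.out.one_lt; omega) (Int.natCast_dvd_natCast.mp h)
      have := hp.out.one_lt
      omega
  · exact hn h

end main

end Vale.Agent.P257.V4.T
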