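import Vale.Agent.P257.V4.T.T1L

/-!
# P257, part T (T1): the projective space and the lens space, second form

* `abs_lens`: the lens space argument;
* `abs_cp`: the argument for the projective space: a class `e` of `R ⊗ (YC ⊗ C)` whose pairing with
  the Thom class `UV : YC ⟶ R ⊗ E` is the Hurewicz image of `v` gives `∂ v = 0` in `YC⟦1⟧ ⊗ C`.
-/

set_option linter.unusedSectionVars false

open CategoryTheory MonoidalCategory Limits Pretriangulated MonObj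

universe v u

noncomputable section

namespace Vale.Agent.P257.V4.T

open Vale.Agent.P251.T Vale.Agent.P251.S

variable {T : Type u} [Category.{v} T] [Preadditive T] [HasZeroObject T] [HasShift T ℤ]
  [∀ n : ℤ, (shiftFunctor T n).Additive] [Pretriangulated T] [MonoidalCategory T]
  [SymmetricCategory T] [TensorTriangulated T]

variable {R : T} [MonObj R] (U : UnitCof R)

/-- The lens space argument. -/
theorem abs_lens {YL YC Y' : T} {r : YL ⟶ YC} {z : YC ⟶ Y'} {c : Y' ⟶ YL⟦(1 : ℤ)⟧}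
    (h : Triangle.mk r z c ∈ distTriang T) {C A : T}
    (ha : R ◁ (z ▷ C) = 0) (hJ : ∀ g : A⟦(1 : ℤ)⟧ ⟶ U.J ⊗ (Y' ⊗ C), g = 0)
    (w : A ⟶ U.J ⊗ (YL ⊗ C)) (hw : w ≫ (U.J ◁ (r ▷ C)) ≫ U.bdry (YC ⊗ C) = 0) :
    w ≫ U.bdry (YL ⊗ C) = 0 := by
  obtain ⟨c₁, h₁⟩ := dist_right h C
  obtain ⟨c₂, h₂⟩ := dist_left h₁ R
  obtain ⟨c₃, h₃⟩ := dist_left h₁ U.J
  obtain ⟨f, hf⟩ : ∃ f : A ⟶ R ⊗ (YC ⊗ C), w ≫ (U.J ◁ (r ▷ C)) = f ≫ (U.ρ ▷ (YC ⊗ C)) :=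
    Triangle.coyoneda_exact₃ _ (U.triangle_distinguished (YC ⊗ C)) (w ≫ (U.J ◁ (r ▷ C)))
      ((Category.assoc _ _ _).trans hw)
  obtain ⟨fL, hfL⟩ := dist_exact₂ h₂ f (by rw [ha, comp_zero])
  have h5 : (w - fL ≫ (U.ρ ▷ (YL ⊗ C))) = 0 := by
    refine dist_inj h₃ hJ _ ?_
    rw [Preadditive.sub_comp, sub_eq_zero, hf, hfL, Category.assoc, Category.assoc,
      whisker_exchange]
  have h6 : (U.ρ ▷ (YL ⊗ C)) ≫ U.bdry (YL ⊗ C) = 0 :=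
    comp_distTriang_mor_zero₂₃ _ (U.triangle_distinguished (YL ⊗ C))
  rw [sub_eq_zero.mp h5, Category.assoc, h6, comp_zero]

/-- The argument for the projective space. -/
theorem abs_cp {F YC Q E C A : T} {s : F ⟶ YC} {t : YC ⟶ Q} {d : Q ⟶ F⟦(1 : ℤ)⟧}
    (h : Triangle.mk s t d ∈ distTriang T) (UV : YC ⟶ R ⊗ E) (j : F ≅ E)
    (hU : s ≫ UV = j.hom ≫ unitMap R E) (hQ : ∀ g : A ⟶ U.J ⊗ (Q ⊗ C), g = 0)
    (hJJ : ∀ g : A⟦(1 : ℤ)⟧ ⟶ U.J ⊗ ((U.J ⊗ E) ⊗ C), g = 0) (e : A ⟶ R ⊗ (YC ⊗ C))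
    (w : A ⟶ (U.J ⊗ E) ⊗ C)
    (hcomp : e ≫ (R ◁ ((UV ≫ (U.ρ ▷ E)) ▷ C)) = w ≫ unitMap R ((U.J ⊗ E) ⊗ C)) :
    w ≫ ((U.J ◁ (j.inv ≫ s)) ▷ C) ≫ (U.bdry YC ▷ C) = 0 := by
  obtain ⟨g, hg⟩ : ∃ g : A ⟶ Q ⊗ C, e ≫ (R ◁ (t ▷ C)) = g ≫ unitMap R (Q ⊗ C) :=
    Triangle.coyoneda_exact₂ _ (U.triangle_distinguished (Q ⊗ C)) (e ≫ (R ◁ (t ▷ C))) (hQ _)
  obtain ⟨V, hV1, hV2⟩ : ∃ V : Q ⟶ U.J ⊗ E, t ≫ V = UV ≫ (U.ρ ▷ E) ∧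
      d ≫ (j.hom)⟦(1 : ℤ)⟧' = V ≫ U.bdry E :=
    Pretriangulated.complete_distinguished_triangle_morphism _ _ h
      (U.triangle_distinguished E) j.hom UV hU
  have h1 : (g ≫ (V ▷ C) - w) ≫ unitMap R ((U.J ⊗ E) ⊗ C) = 0 := by
    rw [Preadditive.sub_comp, sub_eq_zero, ← hcomp, Category.assoc, unitMap_nat, ← Category.assoc,
      ← hg, Category.assoc, ← whiskerLeft_comp, ← comp_whiskerRight, hV1]
  have h2 : g ≫ (V ▷ C) = w :=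
    sub_eq_zero.mp (dist_inj (U.triangle_distinguished ((U.J ⊗ E) ⊗ C)) hJJ _ h1)
  have h3 : d ≫ s⟦(1 : ℤ)⟧' = 0 := comp_distTriang_mor_zero₃₁ _ h
  have h4 : (U.J ◁ (j.inv ≫ s)) ≫ U.bdry YC = U.bdry E ≫ (j.inv ≫ s)⟦(1 : ℤ)⟧' :=
    U.bdry_nat _
  rw [← comp_whiskerRight, h4, ← h2, Category.assoc, ← comp_whiskerRight, ← Category.assoc V,
    ← hV2, Functor.map_comp, Category.assoc, ← Functor.map_comp_assoc, Iso.hom_inv_id,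
    CategoryTheory.Functor.map_id, Category.id_comp, h3]
  have h5 : (0 : Q ⟶ YC⟦(1 : ℤ)⟧) ▷ C = 0 := MonoidalPreadditive.zero_whiskerRight
  rw [h5, comp_zero]

/-- the boundary map in terms of `δ` -/
theorem bdry_eq (Y : T) : ∃ e : ((𝟙_ T)⟦(1 : ℤ)⟧) ⊗ Y ≅ Y⟦(1 : ℤ)⟧,
    U.bdry Y = (U.δ ▷ Y) ≫ e.hom := by
  refine ⟨β_ _ Y ≪≫ whiskerLeftIso Y (TensorTriangulated.e (𝟙_ T)).symm ≪≫
    (α_ Y (𝟙_ T) ((𝟙_ T)⟦(1 : ℤ)⟧)).symm ≪≫ TensorTriangulated.e (Y ⊗ 𝟙_ T) ≪≫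
      (shiftFunctor T (1 : ℤ)).mapIso (ρ_ Y), ?_⟩
  simp only [UnitCof.bdry, Iso.trans_hom, whiskerLeftIso_hom, Iso.symm_hom, Functor.mapIso_hom]
  rw [← BraidedCategory.braiding_naturality_left_assoc]

theorem comp_bdry_eq_zero {A Y : T} (f : A ⟶ U.J ⊗ Y) :
    f ≫ U.bdry Y = 0 ↔ f ≫ (U.δ ▷ Y) = 0 := by
  obtain ⟨e, he⟩ := bdry_eq U Y
  rw [he, ← Category.assoc]
  exact ⟨fun h => by rwa [← cancel_mono e.hom, zero_comp], fun h => by rw [h, zero_comp]⟩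

theorem assoc_bdry_eq_zero {A Y C : T} (f : A ⟶ U.J ⊗ (Y ⊗ C)) :
    f ≫ (α_ U.J Y C).inv ≫ (U.bdry Y ▷ C) = 0 ↔ f ≫ (U.δ ▷ (Y ⊗ C)) = 0 := by
  obtain ⟨e, he⟩ := bdry_eq U Y
  have h1 : (α_ U.J Y C).inv ≫ (U.bdry Y ▷ C) = (U.δ ▷ (Y ⊗ C)) ≫ (α_ _ Y C).inv ≫ (e.hom ▷ C) := by
    rw [he, comp_whiskerRight, associator_inv_naturality_left_assoc]
  rw [h1, ← Category.assoc]
  constructor
  · intro h
    rwa [← cancel_mono ((α_ _ Y C).inv ≫ (e.hom ▷ C)), zero_comp]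
  · intro h
    rw [h, zero_comp]

end Vale.Agent.P257.V4.T
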