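import Vale.Agent.P257.V4.T.T1Cells
import Vale.Agent.P251.G.CellLC

/-!
# P257, part T (T1): the cells of `Th(CP; kρ)` relative to a fibre

* `ptS e`: the point of the projective space of `ℂ^κ` given by `e : I ⊕ Unit ≃ κ`;
* `chain_pt`: cells of the projective space relative to that point, dimensions `≥ 2`;
* `relCell_fibC`: the fibre inclusion is a relative cell complex with cells of dimensions
  `2 |K| p + evens 2`.
-/

set_option linter.unusedSectionVars false

open CategoryTheory MonoidalCategory Limits Topology Matrix OnePoint Set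

noncomputable section

namespace Vale.Agent.P257.V4.T

open Vale.Agent.P251 Vale.Agent.P251.G Vale.Agent.P251.G.LC Vale.Agent.P251.G.Bun
open Vale.Agent.P251.M Vale.Agent.P251.G.Cell

section point

variable {I κ : Type} [Fintype I] [DecidableEq I] [Fintype κ]

/-- the point of the sphere given by a bijection `e : I ⊕ Unit ≃ κ` -/
def ptS (e : I ⊕ Unit ≃ κ) : SS κ :=
  ⟨eL I ∘ e.symm, by
    rw [← nsq_eL (I := I)]
    exact Equiv.sum_comp e.symm fun j => Complex.normSq (eL I j)⟩

theorem chain_pt (e : I ⊕ Unit ≃ κ) :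
    CellChain (evens 2) ({(ptS e).line} : Set (Gr 1 κ)) univ := by
  have h := chain_gr_of (chain_prj_reindex e (chain_fix 0 I))
  have h1 : (Gr.P ⁻¹' ((fun P : Matrix (I ⊕ Unit) (I ⊕ Unit) ℂ => P.submatrix e.symm e.symm) ''
      fix (0 + 1) I) : Set (Gr 1 κ)) = {(ptS e).line} := by
    apply Subset.antisymm
    · rintro Q ⟨P, ⟨hP, hPe⟩, hQ⟩
      have h2 := hP.eq_lineP nsq_eL hPe
      rw [mem_singleton_iff]
      apply Gr.ext
      rw [← hQ, h2]
      rfl
    · rintro Q hQ
      rw [mem_singleton_iff] at hQ
      subst hQ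
      refine ⟨G.lineP (eL I), ⟨isProj_lineP nsq_eL, lineP_mulVec_self nsq_eL⟩, ?_⟩
      rfl
  rwa [h1] at h

end point

variable {p : ℕ} (hp : p ≠ 0) {κ K : Type} [Fintype κ] [Fintype K] [DecidableEq K]

theorem app_fibC_injective (x : SS κ) : Function.Injective (app (fibC (K := K) hp x)) := by
  intro a b hab
  induction a using OnePoint.rec with
  | infty =>
    induction b using OnePoint.rec with
    | infty => rfl
    | coe w =>
      rw [app_infty] at hab
      exact absurd hab.symm (by
        rw [app_fibC]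
        exact OnePoint.coe_ne_infty _)
  | coe v =>
    induction b using OnePoint.rec with
    | infty =>
      rw [app_infty] at hab
      exact absurd hab (by
        rw [app_fibC]
        exact OnePoint.coe_ne_infty _)
    | coe w =>
      rw [app_fibC, app_fibC, OnePoint.coe_eq_coe] at hab
      have h1 : powVec (frameΦ p x.v) v = powVec (frameΦ p x.v) w := congrArg Bun.vec hab
      have h2 := congrArg (coordVec (frameΦ p x.v)) h1
      rw [coordVec_powVec (frameΦ_isom hp x.nsq_v), coordVec_powVec (frameΦ_isom hp x.nsq_v)] at h2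
      rw [h2]

theorem range_app_fibC (x : SS κ) : range (app (fibC (K := K) hp x)) =
    overSet (Y := Gr 1 κ) (kRho p κ K) {x.line} := by
  apply Subset.antisymm
  · rintro _ ⟨a, rfl⟩
    induction a using OnePoint.rec with
    | infty => exact Or.inl (app_infty _)
    | coe w =>
      rw [app_fibC]
      exact Or.inr ⟨_, mem_singleton _, rfl⟩
  · rintro _ (h | ⟨q, hq, rfl⟩)
    · rw [mem_singleton_iff] at h
      subst h
      exact ⟨∞, app_infty _⟩
    · have hq' : Bun.base q = x.line := hq
      refine ⟨((coordVec (frameΦ p x.v) (Bun.vec q) : Fin p → K → ℂ) :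
        OnePoint (Fin p → K → ℂ)), ?_⟩
      rw [app_fibC]
      refine congrArg _ (Bun.E_ext hq'.symm ?_)
      change powVec (frameΦ p x.v) (coordVec (frameΦ p x.v) (Bun.vec q)) = Bun.vec q
      rw [powVec_coordVec]
      have h1 : ((lensFrames p hp κ).ρW K).P (x.lens p) = (kRho p κ K).P x.line := by
        rw [lens_ρW]
        rfl
      have h2 : ((lensFrames p hp κ).ρW K).P (x.lens p) =
          kroneckerMap (· * ·) (1 : Matrix K K ℂ) (frameΦ p x.v * (frameΦ p x.v)ᴴ) := by
        have h3 := (lensFrames p hp κ).ρ_P_π x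
        rw [lensFrames_π, lensFrames_Φ] at h3
        rw [Frames.ρW_P, h3]
      rw [← h2, h1, ← hq']
      exact Bun.P_vec q

theorem relCell_fibC {I : Type} [Fintype I] [DecidableEq I] (e : I ⊕ Unit ≃ κ) :
    RelCell {d | 2 * (Fintype.card K * p) + 2 ≤ d} (fibC (K := K) hp (ptS e)) := by
  classical
  have h1 := thomChain (Y := Gr 1 κ) (kRho p κ K) (kRho_isRank p κ K hp) (chain_pt e)
  rw [← range_app_fibC hp, overSet_univ] at h1
  refine (relCell_of_chain _ (app_fibC_injective hp _) h1).mono ?_
  rintro _ ⟨a, ⟨-, ha⟩, rfl⟩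
  change 2 * (Fintype.card K * p) + 2 ≤ a + 2 * (Fintype.card K * p)
  omega

end Vale.Agent.P257.V4.T
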