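import Vale.Agent.P257.V4.T.T1D
import Vale.Agent.P257.V4.T.T1Fib

/-!
# P257, part T (T1): the vanishing groups and the assembly

`t1_core`: from the pairing of a class `e₀` of `R ⊗ S(Th(CP; kρ))` with the Thom class `UV` to
`c (a δ) ⊗ ι = 0` in `S(Th(L; kρ)) ⊗ C`.
-/

set_option linter.unusedSectionVars false

open CategoryTheory MonoidalCategory Limits Pretriangulated MonObj Topology Matrix

universe v u

noncomputable section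

namespace Vale.Agent.P257.V4.T

open Vale.Agent.P251 Vale.Agent.P251.G Vale.Agent.P251.G.LC Vale.Agent.P251.G.Bun
open Vale.Agent.P251.M Vale.Agent.P251.T Vale.Agent.P251.S Vale.Agent.P251.I Vale.Agent.P251.H
open Vale.Agent.P251.G.Cell

variable {T : Type u} [Category.{v} T] [Preadditive T] [HasZeroObject T] [HasShift T ℤ]
  [∀ n : ℤ, (shiftFunctor T n).Additive] [Pretriangulated T] [IsTriangulated T]
  [MonoidalCategory T] [SymmetricCategory T] [TensorTriangulated T]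

/-- the vanishing of `π_k(N ⊗ (Y ⊗ C))` for all `k` in `Z` -/
def TopZero (N C : T) (Z : Set ℤ) (Y : T) : Prop :=
  ∀ k ∈ Z, ∀ f : (𝟙_ T)⟦k⟧ ⟶ N ⊗ (Y ⊗ C), f = 0

theorem topZero_ext (N C : T) (Z : Set ℤ) : ExtClosed (TopZero N C Z) where
  zero X hX k _ f := by
    have h1 : IsZero (X ⊗ C) := (tensorRight C).map_isZero hX
    exact ((tensorLeft N).map_isZero h1).eq_of_tgt _ _
  ext {X Y Z'} {f g h} D hX hZ k hk x := by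
    obtain ⟨c₁, h₁⟩ := dist_right D C
    obtain ⟨c₃, h₃⟩ := dist_left h₁ N
    obtain ⟨y, hy⟩ := dist_exact₂ h₃ x (hZ k hk _)
    rw [hy, hX k hk y, zero_comp]

theorem topZero_sphere {N C : T} {Z : Set ℤ} {a : ℤ}
    (h : ∀ k ∈ Z, ∀ f : (𝟙_ T)⟦k - a⟧ ⟶ N ⊗ C, f = 0) :
    TopZero N C Z ((𝟙_ T)⟦a⟧) := by
  intro k hk f
  obtain ⟨e₁⟩ := nonempty_sphere_shift C a
  let e : N ⊗ (((𝟙_ T)⟦a⟧) ⊗ C) ≅ (N ⊗ C)⟦a⟧ := whiskerLeftIso N e₁ ≪≫ tensorShiftIso N C a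
  have h1 : f ≫ e.hom = 0 := eq_zero_of_shift (k - a) a k (by ring) (h k hk) _
  rw [← cancel_mono e.hom, h1, zero_comp]

theorem top_zero (S : SpaceFunctor T) {N C : T} {Z : Set ℤ} {D : Set ℕ}
    (h : ∀ k ∈ Z, ∀ a ∈ D, ∀ f : (𝟙_ T)⟦k - (a : ℤ)⟧ ⟶ N ⊗ C, f = 0)
    {X : LC} [IsFC X] (hX : Cells D X) : TopZero N C Z (ob S.S X) :=
  of_cells S (topZero_ext N C Z) (fun a ha => topZero_sphere fun k hk => h k hk a ha) hX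

/-- the cofibre of a relative cell complex -/
theorem exists_cofibre (S : SpaceFunctor T) {P : T → Prop} (hP : ExtClosed P) {D : Set ℕ}
    (hD : ∀ a ∈ D, P ((𝟙_ T)⟦(a : ℤ)⟧)) {X Y : LC} [hX : IsFC X] [hY : IsFC Y] {f : X ⟶ Y}
    (h : RelCell D f) : ∃ (Q : T) (t : ob S.S Y ⟶ Q) (d : Q ⟶ (ob S.S X)⟦(1 : ℤ)⟧),
      Triangle.mk (mp S.S f) t d ∈ distTriang T ∧ P Q :=
  relCell_cofIn S hP hD (A := ⟨X, hX.out⟩) (B := ⟨Y, hY.out⟩) (FCat.hom f) h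

theorem cells_YC'_ge (p : ℕ) (hp : p ≠ 0) (κ K : Type) [Fintype κ] [Fintype K] [DecidableEq K] :
    Cells {d | 2 * (Fintype.card K * p) + 2 ≤ d} (YC' p κ K) := by
  classical
  have h := cells_tot _ (kRho_lineP_isRank p κ K hp) (chain_gr 1 κ)
  refine h.mono ?_
  rintro _ ⟨a, -, rfl⟩
  change 2 * (Fintype.card K * p) + 2 ≤ a + 2 * (Fintype.card K * p + 1)
  omega

theorem nonempty_source' (S : SpaceFunctor T) (p : ℕ) (K : Type) [Fintype K] (q : ℤ) :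
    Nonempty (((𝟙_ T)⟦q⟧) ⊗ ob S.S (LC.of (Fin p → K → ℂ)) ≅
      (𝟙_ T)⟦q + ((2 * (Fintype.card K * p) : ℕ) : ℤ)⟧) := by
  obtain ⟨e⟩ := nonempty_vecs S p K
  exact ⟨whiskerLeftIso _ e ≪≫ tensorUnitShiftIso ((𝟙_ T)⟦q⟧) _ ≪≫
    (shiftFunctorAdd' T q _ _ rfl).symm.app (𝟙_ T)⟩

omit [IsTriangulated T] [HasZeroObject T] [HasShift T ℤ]
  [∀ n : ℤ, (shiftFunctor T n).Additive] [Pretriangulated T] [TensorTriangulated T] in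
theorem tensor_inC [HasZeroObject T] [HasShift T ℤ]
    [∀ n : ℤ, (shiftFunctor T n).Additive] [Pretriangulated T] [TensorTriangulated T]
    {A B J E C : T} (a : A ⟶ J) (j : B ⟶ E) (i : 𝟙_ T ⟶ C) :
    (a ⊗ₘ inC j i) ≫ (α_ J E C).inv = inC (a ⊗ₘ j) i := by
  have h1 : (a ⊗ₘ inC j i) = (a ⊗ₘ j) ≫ (J ◁ ((ρ_ E).inv ≫ (E ◁ i))) := by
    rw [← id_tensorHom, tensorHom_comp_tensorHom, Category.comp_id]
  rw [h1, inC, Category.assoc]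
  congr 1
  monoidal

variable (S : SpaceFunctor T) {R : T} [MonObj R] (U : UnitCof R) {C : T} (i : 𝟙_ T ⟶ C)
variable (p : ℕ) (hp : p ≠ 0) {I κ : Type} (K : Type) [Fintype I] [DecidableEq I] [Fintype κ]
  [Fintype K] [DecidableEq K] (eI : I ⊕ Unit ≃ κ)

omit [IsTriangulated T] in
theorem zsmul_whiskerLeft_eq_zero (W : T) {X Y : T} (f : X ⟶ Y) {m : ℤ} (h : m • f = 0) :
    m • (W ◁ f) = 0 := by
  have h5 : W ◁ (m • f) = m • (W ◁ f) := (tensorLeft W).map_zsmul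
  rw [← h5, h]
  exact MonoidalPreadditive.whiskerLeft_zero

/-- The projective space: `c (a δ) ⊗ ι = 0` in `S(Th(CP; kρ)) ⊗ C`. -/
theorem t1_cp {q : ℤ} (hq1 : 1 < q)
    (hcon1 : ∀ k : ℤ, k < q → ∀ f : (𝟙_ T)⟦k⟧ ⟶ U.J ⊗ C, f = 0)
    (hcon2 : ∀ k : ℤ, k < 2 * q → ∀ f : (𝟙_ T)⟦k⟧ ⟶ U.J ⊗ (U.J ⊗ C), f = 0)
    {E : T} (UV : ob S.S (YC p κ K) ⟶ R ⊗ E) (j : ob S.S (LC.of (Fin p → K → ℂ)) ≅ E)
    (hU : mp S.S (fibC hp (ptS eI)) ≫ UV = j.hom ≫ unitMap R E)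
    (a : (𝟙_ T)⟦q⟧ ⟶ U.J) (c m : ℤ) (hm : m • i = 0)
    (e₀ : ((𝟙_ T)⟦q⟧) ⊗ ob S.S (LC.of (Fin p → K → ℂ)) ⟶ R ⊗ ob S.S (YC p κ K))
    (y : ((𝟙_ T)⟦q⟧) ⊗ ob S.S (LC.of (Fin p → K → ℂ)) ⟶ R ⊗ (U.J ⊗ E))
    (hcomp : e₀ ≫ (R ◁ (UV ≫ (U.ρ ▷ E))) =
      c • ((a ⊗ₘ j.hom) ≫ unitMap R (U.J ⊗ E)) + m • y) :
    (c • (a ⊗ₘ inC (mp S.S (fibC hp (ptS eI))) i)) ≫ (U.δ ▷ (ob S.S (YC p κ K) ⊗ C)) = 0 := by
  obtain ⟨eS⟩ := nonempty_source' S p K q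
  obtain ⟨eS1⟩ := nonempty_source S p K q
  obtain ⟨eF⟩ := nonempty_vecs S p K
  obtain ⟨Q, t, d, hQd, hQ0⟩ := exists_cofibre S
    (topZero_ext U.J C {k | k ≤ q + ((2 * (Fintype.card K * p) : ℕ) : ℤ)})
    (D := {d | 2 * (Fintype.card K * p) + 2 ≤ d}) (by
      intro b hb
      refine topZero_sphere ?_
      intro k hk f
      have h2 : k ≤ q + ((2 * (Fintype.card K * p) : ℕ) : ℤ) := hk
      have h3 : ((2 * (Fintype.card K * p) + 2 : ℕ) : ℤ) ≤ b := by exact_mod_cast hb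
      push_cast at h3 h2
      exact hcon1 _ (by omega) f) (relCell_fibC (K := K) hp eI)
  have hQ : ∀ g : ((𝟙_ T)⟦q⟧) ⊗ ob S.S (LC.of (Fin p → K → ℂ)) ⟶ U.J ⊗ (Q ⊗ C), g = 0 := by
    intro g
    rw [← cancel_epi eS.inv, comp_zero]
    refine hQ0 _ ?_ _
    rw [Set.mem_ofPred_eq]
  have hJJ : ∀ g : (((𝟙_ T)⟦q⟧) ⊗ ob S.S (LC.of (Fin p → K → ℂ)))⟦(1 : ℤ)⟧ ⟶
      U.J ⊗ ((U.J ⊗ E) ⊗ C), g = 0 := by
    intro g
    let e2 : U.J ⊗ ((U.J ⊗ E) ⊗ C) ≅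
        U.J ⊗ (U.J ⊗ (((𝟙_ T)⟦((2 * (Fintype.card K * p) : ℕ) : ℤ)⟧) ⊗ C)) :=
      whiskerLeftIso U.J (α_ U.J E C ≪≫ whiskerLeftIso U.J (whiskerRightIso (j.symm ≪≫ eF) C))
    have h1 : MidZero U.J U.J C {k | k < 2 * q + ((2 * (Fintype.card K * p) : ℕ) : ℤ)}
        ((𝟙_ T)⟦((2 * (Fintype.card K * p) : ℕ) : ℤ)⟧) := by
      refine midZero_sphere ?_
      intro k hk f
      have h2 : k < 2 * q + ((2 * (Fintype.card K * p) : ℕ) : ℤ) := hk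
      exact hcon2 _ (by omega) f
    rw [← cancel_epi eS1.inv, ← cancel_mono e2.hom, comp_zero, zero_comp]
    refine h1 _ ?_ _
    rw [Set.mem_ofPred_eq]
    omega
  have hi : ∀ {X Y : T} (x : X ⟶ Y), m • inC x i = 0 := fun x => zsmul_inC i x hm
  have key := abs_cp U hQd UV j hU hQ hJJ (e₀ ≫ (R ◁ inC (𝟙 _) i)) (c • inC (a ⊗ₘ j.hom) i) (by
    have h1 : inC (𝟙 (ob S.S (YC p κ K))) i ≫ ((UV ≫ (U.ρ ▷ E)) ▷ C) =
        (UV ≫ (U.ρ ▷ E)) ≫ inC (𝟙 (U.J ⊗ E)) i := by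
      rw [inC_comp, Category.id_comp, inC, inC, Category.id_comp]
    have h2 : (R ◁ inC (𝟙 (ob S.S (YC p κ K))) i) ≫ (R ◁ ((UV ≫ (U.ρ ▷ E)) ▷ C)) =
        (R ◁ (UV ≫ (U.ρ ▷ E))) ≫ (R ◁ inC (𝟙 (U.J ⊗ E)) i) := by
      rw [← whiskerLeft_comp, h1, whiskerLeft_comp]
    rw [Category.assoc, h2, ← Category.assoc, hcomp, Preadditive.add_comp]
    have h3 : (m • y) ≫ (R ◁ inC (𝟙 (U.J ⊗ E)) i) = 0 := by
      have h4 : m • (R ◁ inC (𝟙 (U.J ⊗ E)) i) = 0 := by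
        have h5 : R ◁ (m • inC (𝟙 (U.J ⊗ E)) i) = m • (R ◁ inC (𝟙 (U.J ⊗ E)) i) :=
          (tensorLeft R).map_zsmul
        rw [← h5, hi]
        exact MonoidalPreadditive.whiskerLeft_zero
      rw [Preadditive.zsmul_comp, ← Preadditive.comp_zsmul, h4, comp_zero]
    rw [h3, add_zero, Preadditive.zsmul_comp, Preadditive.zsmul_comp, Category.assoc,
      ← unitMap_nat, ← Category.assoc]
    congr 2
    rw [inC, inC, Category.id_comp])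
  rw [Preadditive.zsmul_comp, ← Preadditive.zsmul_comp, ← assoc_bdry_eq_zero,
    Preadditive.zsmul_comp]
  rw [Preadditive.zsmul_comp] at key
  rw [← key]
  congr 1
  have h1 : a ⊗ₘ inC (mp S.S (fibC hp (ptS eI))) i =
      (a ⊗ₘ inC j.hom i) ≫ (U.J ◁ ((j.inv ≫ mp S.S (fibC hp (ptS eI))) ▷ C)) := by
    rw [← id_tensorHom, tensorHom_comp_tensorHom, Category.comp_id, inC_comp, Iso.hom_inv_id_assoc]
  rw [h1, Category.assoc, associator_inv_naturality_middle_assoc, ← tensor_inC, Category.assoc]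

/-- **T1.** -/
theorem t1_core {q : ℤ} (hq1 : 1 < q)
    (hcon1 : ∀ k : ℤ, k < q → ∀ f : (𝟙_ T)⟦k⟧ ⟶ U.J ⊗ C, f = 0)
    (hcon2 : ∀ k : ℤ, k < 2 * q → ∀ f : (𝟙_ T)⟦k⟧ ⟶ U.J ⊗ (U.J ⊗ C), f = 0)
    (hz : R ◁ (mp S.S (zHom (Z := CPO κ) (kRho p κ K) (lineP p κ)) ▷ C) = 0)
    {E : T} (UV : ob S.S (YC p κ K) ⟶ R ⊗ E) (j : ob S.S (LC.of (Fin p → K → ℂ)) ≅ E)
    (hU : mp S.S (fibC hp (ptS eI)) ≫ UV = j.hom ≫ unitMap R E)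
    (a : (𝟙_ T)⟦q⟧ ⟶ U.J) (c m : ℤ) (hm : m • i = 0) (hcm : IsCoprime c m)
    (e₀ : ((𝟙_ T)⟦q⟧) ⊗ ob S.S (LC.of (Fin p → K → ℂ)) ⟶ R ⊗ ob S.S (YC p κ K))
    (y : ((𝟙_ T)⟦q⟧) ⊗ ob S.S (LC.of (Fin p → K → ℂ)) ⟶ R ⊗ (U.J ⊗ E))
    (hcomp : e₀ ≫ (R ◁ (UV ≫ (U.ρ ▷ E))) =
      c • ((a ⊗ₘ j.hom) ≫ unitMap R (U.J ⊗ E)) + m • y) :
    ((a ≫ U.δ) ⊗ₘ inC (mp S.S (fibL (hp := hp) (ptS eI))) i : ((𝟙_ T)⟦q⟧) ⊗
      ob S.S (LC.of (Fin p → K → ℂ)) ⟶ ((𝟙_ T)⟦(1 : ℤ)⟧) ⊗ (ob S.S (YL p hp κ K) ⊗ C)) = 0 := by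
  have hcof : IsCofSeq (lensR p hp κ K) (zHom (Z := CPO κ) (kRho p κ K) (lineP p κ))
      (cHom (Z := CPO κ) (kRho p κ K) (lineP p κ) ≫ (lensIso p hp κ K).inv ▷ RR) :=
    isCofSeq_of_iso₁ (isCofSeq_thom (Z := CPO κ) (kRho p κ K) (lineP p κ)) (lensIso p hp κ K)
  have hdist := hcof.distinguished S
  obtain ⟨e⟩ := nonempty_source S p K q
  have hJ : ∀ g : (((𝟙_ T)⟦q⟧) ⊗ ob S.S (LC.of (Fin p → K → ℂ)))⟦(1 : ℤ)⟧ ⟶
      U.J ⊗ (ob S.S (YC' p κ K) ⊗ C), g = 0 := by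
    intro g
    have h1 : TopZero U.J C {k | k ≤ q + ((2 * (Fintype.card K * p) : ℕ) : ℤ) + 1}
        (ob S.S (YC' p κ K)) := by
      refine top_zero S ?_ (cells_YC'_ge p hp κ K)
      rintro k hk b hb f
      have h2 : k ≤ q + ((2 * (Fintype.card K * p) : ℕ) : ℤ) + 1 := hk
      have h3 : ((2 * (Fintype.card K * p) + 2 : ℕ) : ℤ) ≤ b := by exact_mod_cast hb
      push_cast at h3 h2
      exact hcon1 _ (by omega) f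
    rw [← cancel_epi e.inv, comp_zero]
    refine h1 _ ?_ _
    rw [Set.mem_ofPred_eq]
  have hcp := t1_cp S U i p hp K eI hq1 hcon1 hcon2 UV j hU a c m hm e₀ y hcomp
  have h1 : (a ⊗ₘ inC (mp S.S (fibL (hp := hp) (ptS eI))) i) ≫
      (U.J ◁ (mp S.S (lensR p hp κ K) ▷ C)) = a ⊗ₘ inC (mp S.S (fibC hp (ptS eI))) i := by
    rw [← id_tensorHom, tensorHom_comp_tensorHom, Category.comp_id, inC_comp, ← mp_comp]
    rfl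
  have key := abs_lens U hdist hz hJ (c • (a ⊗ₘ inC (mp S.S (fibL (hp := hp) (ptS eI))) i)) (by
    rw [← Category.assoc, comp_bdry_eq_zero, Preadditive.zsmul_comp]
    refine Eq.trans ?_ hcp
    congr 2)
  rw [comp_bdry_eq_zero, Preadditive.zsmul_comp] at key
  have h2 : (a ⊗ₘ inC (mp S.S (fibL (hp := hp) (ptS eI))) i) ≫
      (U.δ ▷ (ob S.S (YL p hp κ K) ⊗ C)) =
      (a ≫ U.δ) ⊗ₘ inC (mp S.S (fibL (hp := hp) (ptS eI))) i := by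
    rw [← tensorHom_id, tensorHom_comp_tensorHom, Category.comp_id]
  rw [h2] at key
  refine eq_zero_of_coprime hcm key ?_
  have h3 : (a ≫ U.δ) ⊗ₘ inC (mp S.S (fibL (hp := hp) (ptS eI))) i =
      ((a ≫ U.δ) ▷ ob S.S (LC.of (Fin p → K → ℂ))) ≫
        (((𝟙_ T)⟦(1 : ℤ)⟧) ◁ inC (mp S.S (fibL (hp := hp) (ptS eI))) i) :=
    MonoidalCategory.tensorHom_def _ _
  rw [h3, ← Preadditive.comp_zsmul, zsmul_whiskerLeft_eq_zero _ _ (zsmul_inC i _ hm), comp_zero]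

end Vale.Agent.P257.V4.T
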