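import Mathlib.Data.Nat.Choose.Sum
import Mathlib.Data.Nat.Choose.Dvd
import Mathlib.Algebra.Module.BigOperators
import Mathlib.Algebra.Module.LinearMap.Basic
import Mathlib.Algebra.BigOperators.Intervals
import Mathlib.Algebra.Field.ZMod
import Mathlib.Order.Interval.Finset.Nat
import Mathlib.Tactic.Abel
import Mathlib.Tactic.Ring

/-!
# P257, V(4), part T (T3, algebra)

* `el I Z u n i`: the elementary symmetric expressions;
* `el_shift`: the effect of `Z ↦ Z + x I`;
* `key`: the cochain `∑ c_i t^{p-i} e_i` has the coboundary `∑ (binom(p,j)/p) x^j y^{p-j} e_0`.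
-/

namespace Vale.Agent.P257.V4.T.T3

open Finset

section el

variable {M : ℕ → Type*} [∀ n, AddCommGroup (M n)]

/-- Elementary symmetric expressions. -/
def el (I Z : ∀ n, M n → M (n + 1)) (u : M 0) : ∀ n : ℕ, ℕ → M n
  | 0, 0 => u
  | 0, _ + 1 => 0
  | n + 1, 0 => I n (el I Z u n 0)
  | n + 1, i + 1 => I n (el I Z u n (i + 1)) + Z n (el I Z u n i)

variable {R : Type*} [CommRing R] [∀ n, Module R (M n)]

lemma el_eq_zero (I Z : ∀ n, M n →ₗ[R] M (n + 1)) (u : M 0) (n : ℕ) :
    ∀ i, n < i → el (fun n => I n) (fun n => Z n) u n i = 0 := by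
  induction n with
  | zero =>
    intro i hi
    obtain ⟨i, rfl⟩ : ∃ j, i = j + 1 := ⟨i - 1, by omega⟩
    rfl
  | succ n ih =>
    intro i hi
    obtain ⟨i, rfl⟩ : ∃ j, i = j + 1 := ⟨i - 1, by omega⟩
    change I n (el (fun n => I n) (fun n => Z n) u n (i + 1)) +
      Z n (el (fun n => I n) (fun n => Z n) u n i) = 0
    rw [ih (i + 1) (by omega), ih i (by omega), map_zero, map_zero, add_zero]

lemma el_shift (I Z Z' : ∀ n, M n →ₗ[R] M (n + 1)) (u : M 0) (x : R)
    (hZ : ∀ n y, Z' n y = Z n y + x • I n y) (n : ℕ) :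
    ∀ i, el (fun n => I n) (fun n => Z' n) u n i =
      ∑ j ∈ range (i + 1), (n - j).choose (i - j) • x ^ (i - j) •
        el (fun n => I n) (fun n => Z n) u n j := by
  induction n with
  | zero =>
    intro i
    rw [sum_range_succ']
    have h1 : ∑ k ∈ range i, (0 - (k + 1)).choose (i - (k + 1)) • x ^ (i - (k + 1)) •
        el (fun n => I n) (fun n => Z n) u 0 (k + 1) = 0 := by
      apply sum_eq_zero
      intro k _
      rw [el_eq_zero I Z u 0 (k + 1) (by omega), smul_zero, smul_zero]
    rw [h1, zero_add]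
    cases i with
    | zero =>
      simp
      rfl
    | succ i =>
      simp
      rfl
  | succ n ih =>
    intro i
    cases i with
    | zero =>
      change I n (el (fun n => I n) (fun n => Z' n) u n 0) = _
      rw [ih 0]
      simp
      rfl
    | succ i =>
      change I n (el (fun n => I n) (fun n => Z' n) u n (i + 1)) +
        Z' n (el (fun n => I n) (fun n => Z' n) u n i) = _
      rw [ih (i + 1), ih i, hZ, map_sum, map_sum, map_sum]
      have hc : ∀ (m : ℕ) (c : ℕ) (r : R) (f : M n →ₗ[R] M (n + 1)) (y : M n),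
          f (c • r • y) = c • r • f y := by
        intro m c r f y
        rw [map_nsmul, map_smul]
      -- the right hand side
      have hR : ∑ j ∈ range (i + 1 + 1), (n + 1 - j).choose (i + 1 - j) • x ^ (i + 1 - j) •
          el (fun n => I n) (fun n => Z n) u (n + 1) j =
          (∑ j ∈ range (i + 1 + 1), (n + 1 - j).choose (i + 1 - j) • x ^ (i + 1 - j) •
            I n (el (fun n => I n) (fun n => Z n) u n j)) +
          ∑ j ∈ range (i + 1), (n - j).choose (i - j) • x ^ (i - j) •
            Z n (el (fun n => I n) (fun n => Z n) u n j) := by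
        rw [sum_range_succ' _ (i + 1), sum_range_succ' _ (i + 1)]
        have e1 : ∀ j, el (fun n => I n) (fun n => Z n) u (n + 1) (j + 1) =
            I n (el (fun n => I n) (fun n => Z n) u n (j + 1)) +
              Z n (el (fun n => I n) (fun n => Z n) u n j) := fun j => rfl
        have e0 : el (fun n => I n) (fun n => Z n) u (n + 1) 0 =
            I n (el (fun n => I n) (fun n => Z n) u n 0) := rfl
        simp only [e1, e0, smul_add, sum_add_distrib]
        rw [add_right_comm]
        congr 1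
        apply sum_congr rfl
        intro j _
        rw [Nat.add_sub_add_right, Nat.add_sub_add_right]
      rw [hR]
      have hL1 : ∑ j ∈ range (i + 1 + 1), I n ((n - j).choose (i + 1 - j) • x ^ (i + 1 - j) •
          el (fun n => I n) (fun n => Z n) u n j) +
          x • ∑ j ∈ range (i + 1), I n ((n - j).choose (i - j) • x ^ (i - j) •
            el (fun n => I n) (fun n => Z n) u n j) =
          ∑ j ∈ range (i + 1 + 1), (n + 1 - j).choose (i + 1 - j) • x ^ (i + 1 - j) •
            I n (el (fun n => I n) (fun n => Z n) u n j) := by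
        rw [sum_range_succ _ (i + 1), sum_range_succ _ (i + 1), smul_sum]
        rw [add_right_comm, ← sum_add_distrib]
        congr 1
        · apply sum_congr rfl
          intro j hj
          have hj' : j ≤ i := by
            have := mem_range.1 hj
            omega
          rw [hc 0, hc 0, smul_comm x, smul_smul x, ← pow_succ',
            show i - j + 1 = i + 1 - j by omega, ← add_smul]
          by_cases hjn : j ≤ n
          · rw [show n + 1 - j = n - j + 1 by omega, show i + 1 - j = (i - j) + 1 by omega,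
              Nat.choose_succ_succ, Nat.succ_eq_add_one, Nat.add_comm ((n - j).choose (i - j))]
          · rw [el_eq_zero I Z u n j (by omega), map_zero, smul_zero, smul_zero, smul_zero]
        · rw [hc 0, Nat.sub_self, Nat.choose_zero_right, Nat.choose_zero_right]
      have hL2 : ∑ j ∈ range (i + 1), Z n ((n - j).choose (i - j) • x ^ (i - j) •
          el (fun n => I n) (fun n => Z n) u n j) =
          ∑ j ∈ range (i + 1), (n - j).choose (i - j) • x ^ (i - j) •
            Z n (el (fun n => I n) (fun n => Z n) u n j) :=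
        sum_congr rfl fun j _ => hc 0 _ _ _ _
      rw [hL2, ← hL1]
      abel

end el

section key

variable {p : ℕ} [Fact p.Prime] {R M : Type*} [CommRing R] [AddCommGroup M] [Module R M]

lemma nsmul_congr {M : Type*} [AddCommGroup M] (hM : ∀ m : M, p • m = 0) {a b : ℕ} (h : (a : ZMod p) = b) (m : M) :
    a • m = b • m := by
  have h1 : ∀ c : ℕ, c • m = (c % p) • m := by
    intro c
    conv_lhs => rw [← Nat.div_add_mod c p]
    rw [add_smul, mul_comm, mul_smul, hM, smul_zero, zero_add]
  rw [h1 a, h1 b, (ZMod.natCast_eq_natCast_iff' a b p).1 h]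

/-- A natural number which is inverse to `p - i` modulo `p`. -/
def ccZ (p i : ℕ) : ℕ := (((p - i : ℕ) : ZMod p)⁻¹).val

lemma ccZ_spec {i : ℕ} (h0 : 0 < i) (hi : i < p) : (ccZ p i : ZMod p) * ((p - i : ℕ) : ZMod p) = 1 := by
  have hne : ((p - i : ℕ) : ZMod p) ≠ 0 := by
    rw [Ne, ZMod.natCast_eq_zero_iff]
    intro h
    have := Nat.le_of_dvd (by omega) h
    omega
  rw [ccZ, ZMod.natCast_zmod_val, inv_mul_cancel₀ hne]

lemma ccZ_choose {i j : ℕ} (h0 : 0 < j) (hji : j ≤ i) (hi : i < p) :
    ((ccZ p i * (p - 1 - j).choose (i - j) : ℕ) : ZMod p) =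
      ((ccZ p j * (p - j).choose (i - j) : ℕ) : ZMod p) := by
  have h1 := ccZ_spec (p := p) (by omega : 0 < i) hi
  have h2 := ccZ_spec (p := p) h0 (by omega : j < p)
  have h3 : (p - j) * (p - 1 - j).choose (i - j) = (p - i) * (p - j).choose (i - j) := by
    have h4 := Nat.choose_mul_succ_eq (p - 1 - j) (i - j)
    rw [show p - 1 - j + 1 = p - j by omega, show p - j - (i - j) = p - i by omega] at h4
    rw [mul_comm, h4, mul_comm]
  have h5 : (((p - j : ℕ) : ZMod p)) * ((p - 1 - j).choose (i - j) : ZMod p) =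
      ((p - i : ℕ) : ZMod p) * ((p - j).choose (i - j) : ZMod p) := by
    exact_mod_cast congrArg (Nat.cast : ℕ → ZMod p) h3
  push_cast
  calc (ccZ p i : ZMod p) * ((p - 1 - j).choose (i - j) : ZMod p)
      = ((ccZ p j : ZMod p) * ((p - j : ℕ) : ZMod p)) *
        ((ccZ p i : ZMod p) * ((p - 1 - j).choose (i - j) : ZMod p)) := by rw [h2, one_mul]
    _ = (ccZ p j : ZMod p) * (ccZ p i : ZMod p) *
        (((p - j : ℕ) : ZMod p) * ((p - 1 - j).choose (i - j) : ZMod p)) := by ring
    _ = (ccZ p j : ZMod p) * (ccZ p i : ZMod p) *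
        (((p - i : ℕ) : ZMod p) * ((p - j).choose (i - j) : ZMod p)) := by rw [h5]
    _ = ((ccZ p i : ZMod p) * ((p - i : ℕ) : ZMod p)) *
        ((ccZ p j : ZMod p) * ((p - j).choose (i - j) : ZMod p)) := by ring
    _ = _ := by rw [h1, one_mul]

lemma ccZ_choose_zero {i : ℕ} (h0 : 0 < i) (hi : i < p) :
    ((ccZ p i * (p - 1).choose i : ℕ) : ZMod p) = ((p.choose i / p : ℕ) : ZMod p) := by
  have h1 := ccZ_spec (p := p) h0 hi
  have hp := (Fact.out : p.Prime)
  obtain ⟨c, hc⟩ := hp.dvd_choose_self h0.ne' hi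
  have h4 := Nat.choose_mul_succ_eq (p - 1) i
  rw [show p - 1 + 1 = p by omega] at h4
  have h5 : (p - 1).choose i = c * (p - i) := by
    apply Nat.eq_of_mul_eq_mul_right hp.pos
    rw [h4, hc]
    ring
  rw [hc, Nat.mul_div_cancel_left _ hp.pos, h5]
  push_cast
  rw [mul_comm (c : ZMod p), ← mul_assoc, h1, one_mul]

/-- The main identity. -/
theorem key (hM : ∀ m : M, p • m = 0) (x y : R) (e e' : ℕ → M)
    (he' : ∀ i, e' i = ∑ j ∈ range (i + 1), (p - 1 - j).choose (i - j) • x ^ (i - j) • e j) :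
    ∑ i ∈ Ioo 0 p, ccZ p i • y ^ (p - i) • e' i - ∑ i ∈ Ioo 0 p, ccZ p i • (x + y) ^ (p - i) • e i +
      ∑ i ∈ Ioo 0 p, ccZ p i • x ^ (p - i) • e i =
      ∑ j ∈ Ioo 0 p, (p.choose j / p) • (x ^ j * y ^ (p - j)) • e 0 := by
  -- a term of the first sum
  have h1 : ∀ i ∈ Ioo 0 p, ccZ p i • y ^ (p - i) • e' i =
      (∑ j ∈ Ioc 0 i, (ccZ p j * (p - j).choose (i - j)) • (x ^ (i - j) * y ^ (p - i)) • e j) +
        (p.choose i / p) • (x ^ i * y ^ (p - i)) • e 0 := by
    intro i hi
    obtain ⟨hi0, hip⟩ := mem_Ioo.1 hi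
    rw [he' i, smul_sum, smul_sum, range_eq_Ico, sum_eq_sum_Ico_succ_bot (by omega), add_comm]
    congr 1
    · have : Ico (0 + 1) (i + 1) = Ioc 0 i := by
        ext k
        simp only [mem_Ico, mem_Ioc]
        omega
      rw [this]
      apply sum_congr rfl
      intro j hj
      obtain ⟨hj0, hji⟩ := mem_Ioc.1 hj
      rw [smul_comm (y ^ (p - i)), smul_smul (y ^ (p - i)), smul_smul (ccZ p i),
        mul_comm (y ^ (p - i))]
      exact nsmul_congr hM (ccZ_choose hj0 hji hip) _
    · rw [Nat.sub_zero, Nat.sub_zero, smul_comm (y ^ (p - i)), smul_smul (y ^ (p - i)),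
        smul_smul (ccZ p i), mul_comm (y ^ (p - i))]
      exact nsmul_congr hM (ccZ_choose_zero hi0 hip) _
  rw [sum_congr rfl h1, sum_add_distrib]
  -- exchange the sums
  have h2 : ∑ i ∈ Ioo 0 p, ∑ j ∈ Ioc 0 i, (ccZ p j * (p - j).choose (i - j)) •
      (x ^ (i - j) * y ^ (p - i)) • e j =
      ∑ j ∈ Ioo 0 p, ∑ i ∈ Ico j p, (ccZ p j * (p - j).choose (i - j)) •
        (x ^ (i - j) * y ^ (p - i)) • e j := by
    apply sum_comm'
    intro a b
    simp only [mem_Ioo, mem_Ioc, mem_Ico]
    omega
  have h3 : ∀ j ∈ Ioo 0 p, ∑ i ∈ Ico j p, (ccZ p j * (p - j).choose (i - j)) •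
      (x ^ (i - j) * y ^ (p - i)) • e j =
      ccZ p j • (x + y) ^ (p - j) • e j - ccZ p j • x ^ (p - j) • e j := by
    intro j hj
    obtain ⟨hj0, hjp⟩ := mem_Ioo.1 hj
    have h4 : ∑ i ∈ Ico j p, (ccZ p j * (p - j).choose (i - j)) •
        (x ^ (i - j) * y ^ (p - i)) • e j =
        ccZ p j • (∑ a ∈ range (p - j), x ^ a * y ^ (p - j - a) * ((p - j).choose a : R)) • e j := by
      rw [sum_Ico_eq_sum_range, sum_smul, smul_sum]
      apply sum_congr rfl
      intro a ha
      have := mem_range.1 ha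
      rw [show j + a - j = a by omega, show p - (j + a) = p - j - a by omega, mul_smul,
        ← Nat.cast_smul_eq_nsmul R ((p - j).choose a), smul_smul, mul_comm ((p - j).choose a : R)]
    rw [h4, ← smul_sub, ← sub_smul]
    congr 2
    rw [add_pow, sum_range_succ, Nat.sub_self, pow_zero, mul_one, Nat.choose_self, Nat.cast_one,
      mul_one, add_sub_cancel_right]
  rw [h2, sum_congr rfl h3, sum_sub_distrib]
  abel

end key

end Vale.Agent.P257.V4.T.T3
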