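import Vale.Agent.P251.M.EvenRing
import Vale.Agent.P251.S.ModTens
import Vale.Agent.P257.V4.T.Descent

/-!
# P257, V(4), part T (T3, products)

`A` a commutative monoid. `pr A Y C : (A ⊗ Y) ⊗ (A ⊗ C) ⟶ A ⊗ (Y ⊗ C)`: the product, linear in the
first variable, natural in `A`; `pr_unit`: the product with `a • 1_C`.
-/

set_option linter.unusedSectionVars false

open CategoryTheory MonoidalCategory MonObj

universe v u

namespace Vale.Agent.P257.V4.T.T3

open Vale.Agent.P251.S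

variable {T : Type u} [Category.{v} T] [MonoidalCategory T] [SymmetricCategory T]

/-- The free module `A ⊗ Y`. -/
@[reducible] def fm (A Y : T) [MonObj A] : ModStr A (A ⊗ Y) := (ModStr.self A).tensorRight Y

lemma fm_act (A Y : T) [MonObj A] : (fm A Y).act = (α_ A A Y).inv ≫ (μ[A] ▷ Y) := rfl

/-- The exchange `Y ⊗ (A ⊗ C) ⟶ A ⊗ (Y ⊗ C)`. -/
def exw (A Y C : T) : Y ⊗ (A ⊗ C) ⟶ A ⊗ (Y ⊗ C) :=
  (α_ Y A C).inv ≫ ((β_ Y A).hom ▷ C) ≫ (α_ A Y C).hom

lemma exw_nat {A A' : T} (f : A ⟶ A') (Y C : T) :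
    (Y ◁ (f ▷ C)) ≫ exw A' Y C = exw A Y C ≫ (f ▷ (Y ⊗ C)) := by
  rw [exw, exw, associator_inv_naturality_middle_assoc, ← comp_whiskerRight_assoc,
    BraidedCategory.braiding_naturality_right, comp_whiskerRight_assoc, Category.assoc,
    Category.assoc, associator_naturality_left]

variable (A Y C : T) [MonObj A]

/-- The product `(A ⊗ Y) ⊗ (A ⊗ C) ⟶ A ⊗ (Y ⊗ C)`. -/
def pr : (A ⊗ Y) ⊗ (A ⊗ C) ⟶ A ⊗ (Y ⊗ C) :=
  (α_ A Y (A ⊗ C)).hom ≫ (fm A (Y ⊗ C)).ext (exw A Y C)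

lemma pr_linear : ((fm A Y).tensorRight (A ⊗ C)).IsLinear (fm A (Y ⊗ C)) (pr A Y C) :=
  ModStr.IsLinear.comp (ModStr.isLinear_assoc (ModStr.self A) Y (A ⊗ C))
    (ModStr.ext_linear (fm A (Y ⊗ C)) (exw A Y C))

lemma pr_eq : pr A Y C = (α_ A Y (A ⊗ C)).hom ≫ (A ◁ exw A Y C) ≫ (α_ A A (Y ⊗ C)).inv ≫
    (μ[A] ▷ (Y ⊗ C)) := rfl

variable {A} in
lemma pr_nat {A' : T} [MonObj A'] (f : A ⟶ A') [IsMonHom f] :
    ((f ▷ Y) ⊗ₘ (f ▷ C)) ≫ pr A' Y C = pr A Y C ≫ (f ▷ (Y ⊗ C)) := by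
  rw [pr_eq, pr_eq, tensorHom_def, Category.assoc, associator_naturality_right_assoc,
    associator_naturality_left_assoc, ← whiskerLeft_comp_assoc, exw_nat,
    whiskerLeft_comp_assoc, ← whisker_exchange_assoc, associator_inv_naturality_middle_assoc,
    associator_inv_naturality_left_assoc, ← comp_whiskerRight, ← comp_whiskerRight,
    Category.assoc, Category.assoc, Category.assoc, ← comp_whiskerRight, IsMonHom.mul_hom,
    tensorHom_def, Category.assoc]

variable {C} in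
lemma exw_unit (i : 𝟙_ T ⟶ C) : (Y ◁ itS i A) ≫ exw A Y C = (β_ Y A).hom ≫ (A ◁ itS i Y) := by
  have h1 : (Y ◁ itS i A) ≫ (α_ Y A C).inv = itS i (Y ⊗ A) := by
    rw [itS, itS, MonoidalCategory.whiskerLeft_comp, Category.assoc,
      associator_inv_naturality_right]
    monoidal
  have h2 : itS i (A ⊗ Y) ≫ (α_ A Y C).hom = A ◁ itS i Y := by
    rw [itS, itS, MonoidalCategory.whiskerLeft_comp, Category.assoc, associator_naturality_right]
    monoidal
  have h3 : itS i (Y ⊗ A) ≫ ((β_ Y A).hom ▷ C) = (β_ Y A).hom ≫ itS i (A ⊗ Y) := by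
    rw [itS, itS, Category.assoc, whisker_exchange, rightUnitor_inv_naturality_assoc]
  rw [exw, reassoc_of% h1, reassoc_of% h3, h2]

variable {C} in
/-- The product with a multiple of the unit. -/
lemma pr_unit [IsCommMonObj A] (i : 𝟙_ T ⟶ C) :
    ((A ⊗ Y) ◁ itS i A) ≫ pr A Y C = (β_ (A ⊗ Y) A).hom ≫ (fm A Y).act ≫ (A ◁ itS i Y) := by
  have h1 : (β_ (A ⊗ Y) A).hom = (α_ A Y A).hom ≫ (A ◁ (β_ Y A).hom) ≫ (α_ A A Y).inv ≫
      ((β_ A A).hom ▷ Y) ≫ (α_ A A Y).hom := by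
    rw [BraidedCategory.braiding_tensor_left_hom]
  have h2 : (A ◁ (A ◁ itS i Y)) ≫ (α_ A A (Y ⊗ C)).inv ≫ (μ[A] ▷ (Y ⊗ C)) =
      (α_ A A Y).inv ≫ (μ[A] ▷ Y) ≫ (A ◁ itS i Y) := by
    rw [associator_inv_naturality_right_assoc, whisker_exchange]
  rw [pr_eq, associator_naturality_right_assoc, ← whiskerLeft_comp_assoc, exw_unit,
    whiskerLeft_comp_assoc, h2, h1, fm_act]
  simp only [Category.assoc, Iso.hom_inv_id_assoc]
  rw [← comp_whiskerRight_assoc, IsCommMonObj.mul_comm]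

/-! ### Homotopy modules -/

section elements

open Vale.Agent.P251.M Vale.Agent.P251.M.EvenSpheres

variable {A Y C} [Preadditive T] [MonoidalPreadditive T] {E : EvenSpheres T}

omit [MonObj A] [MonoidalPreadditive T] in
/-- The map of homotopy groups. -/
noncomputable def hm {N N' : T} (f : N ⟶ N') : HMod E N →+ HMod E N' :=
  DirectSum.toAddMonoid fun n => AddMonoidHom.mk'
    (fun a : E.Gr N n => DirectSum.of (E.Gr N') n (a ≫ f)) fun a b => by
      rw [Preadditive.add_comp]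
      exact (DirectSum.of (E.Gr N') n).map_add _ _

omit [MonObj A] [MonoidalPreadditive T] in
@[simp] lemma hm_of {N N' : T} (f : N ⟶ N') (n : ℤ) (a : E.S n ⟶ N) :
    hm (E := E) f (DirectSum.of (E.Gr N) n a) = DirectSum.of (E.Gr N') n (a ≫ f) :=
  DirectSum.toAddMonoid_of _ _ _

omit [MonObj A] [MonoidalPreadditive T] in
lemma hm_comp {N N' N'' : T} (f : N ⟶ N') (g : N' ⟶ N'') (x : HMod E N) :
    hm (f ≫ g) x = hm g (hm f x) := by
  induction x using DirectSum.induction_on with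
  | zero => rw [map_zero, map_zero, map_zero]
  | of n a => rw [hm_of, hm_of, hm_of, Category.assoc]
  | add x y hx hy => rw [map_add, map_add, map_add, hx, hy]

noncomputable instance instFM : Module (HRing E A) (HMod E (A ⊗ Y)) := hModule (E := E) (fm A Y)

lemma smul_of {m n k : ℤ} (h : m + n = k) (a : E.S m ⟶ A) (y : E.S n ⟶ A ⊗ Y) :
    HRing.of E A m a • (DirectSum.of (E.Gr (A ⊗ Y)) n y : HMod E (A ⊗ Y)) =
      DirectSum.of (E.Gr (A ⊗ Y)) k (gsmul (fm A Y) h a y) :=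
  of_smul_of (fm A Y) h a y

/-- Additive maps which are linear on homogeneous elements are linear. -/
noncomputable def mkLin {A' Y' : T} [MonObj A'] (g : HRing E A →+* HRing E A')
    (f : HMod E (A ⊗ Y) →+ HMod E (A' ⊗ Y'))
    (h : ∀ (m n : ℤ) (a : E.S m ⟶ A) (y : E.S n ⟶ A ⊗ Y),
      f (HRing.of E A m a • DirectSum.of (E.Gr (A ⊗ Y)) n y) =
        g (HRing.of E A m a) • f (DirectSum.of (E.Gr (A ⊗ Y)) n y)) :
    HMod E (A ⊗ Y) →ₛₗ[g] HMod E (A' ⊗ Y') where
  toFun := f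
  map_add' := map_add f
  map_smul' r x := by
    induction r using DirectSum.induction_on with
    | zero => rw [zero_smul, map_zero, map_zero, zero_smul]
    | add r s hr hs => rw [add_smul, map_add, hr, hs, map_add, add_smul]
    | of m a =>
      induction x using DirectSum.induction_on with
      | zero => rw [smul_zero, map_zero, smul_zero]
      | add x y hx hy => rw [smul_add, map_add, hx, hy, map_add, smul_add]
      | of n y => exact h m n a y

lemma ext_gsmul {N : T} (M : ModStr A N) {C' : T} {m n k mn nk q : ℤ} (h1 : m + n = mn)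
    (h2 : mn + k = q) (h3 : n + k = nk) (h4 : m + nk = q) (a : E.S m ⟶ A) (y : E.S n ⟶ N)
    (c : E.S k ⟶ C') :
    E.ext h2 (gsmul M h1 a y) c = gsmul (M.tensorRight C') h4 a (E.ext h3 y c) := by
  unfold gsmul
  rw [ext_comp_left, ← ext_assoc h1 h2 h3 h4]
  change _ = (_ ≫ _) ≫ (α_ A N C').inv ≫ (M.act ▷ C')
  rw [Category.assoc, Iso.hom_inv_id_assoc]

lemma of_congr {N : T} {m n : ℤ} (h : m = n) (a : E.S m ⟶ N) (b : E.S n ⟶ N)
    (hab : (E.castIso m n h).hom ≫ b = a) :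
    (DirectSum.of (E.Gr N) m a : HMod E N) = DirectSum.of (E.Gr N) n b := by
  subst h
  rw [castIso_refl, Iso.refl_hom, Category.id_comp] at hab
  rw [hab]

/-- The product with a homogeneous element of `A ⊗ C`, as an additive map. -/
noncomputable def zcA {m : ℤ} (c : E.S m ⟶ A ⊗ C) (Y : T) :
    HMod E (A ⊗ Y) →+ HMod E (A ⊗ (Y ⊗ C)) :=
  DirectSum.toAddMonoid fun n => AddMonoidHom.mk'
    (fun y : E.Gr (A ⊗ Y) n =>
      DirectSum.of (E.Gr (A ⊗ (Y ⊗ C))) (n + m) (E.ext rfl y c ≫ pr A Y C)) fun a b => by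
      rw [ext_add_left, Preadditive.add_comp]
      exact (DirectSum.of (E.Gr (A ⊗ (Y ⊗ C))) (n + m)).map_add _ _

lemma zcA_of {m n k : ℤ} (h : n + m = k) (c : E.S m ⟶ A ⊗ C) (y : E.S n ⟶ A ⊗ Y) :
    zcA c Y (DirectSum.of (E.Gr (A ⊗ Y)) n y) =
      DirectSum.of (E.Gr (A ⊗ (Y ⊗ C))) k (E.ext h y c ≫ pr A Y C) := by
  subst h
  exact DirectSum.toAddMonoid_of _ _ _

/-- The product with a homogeneous element of `A ⊗ C`. -/
noncomputable def zc {m : ℤ} (c : E.S m ⟶ A ⊗ C) (Y : T) :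
    HMod E (A ⊗ Y) →ₗ[HRing E A] HMod E (A ⊗ (Y ⊗ C)) :=
  mkLin (RingHom.id _) (zcA c Y) fun k n a y => by
    rw [smul_of (k := k + n) rfl, zcA_of (k := k + (n + m)) (by ring), zcA_of (k := n + m) rfl,
      RingHom.id_apply, smul_of (k := k + (n + m)) rfl,
      ext_gsmul (fm A Y) rfl _ rfl rfl, gsmul_comp _ _ (pr_linear A Y C)]

lemma zc_of {m n k : ℤ} (h : n + m = k) (c : E.S m ⟶ A ⊗ C) (y : E.S n ⟶ A ⊗ Y) :
    zc c Y (DirectSum.of (E.Gr (A ⊗ Y)) n y) =
      DirectSum.of (E.Gr (A ⊗ (Y ⊗ C))) k (E.ext h y c ≫ pr A Y C) :=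
  zcA_of h c y

lemma zc_add {m : ℤ} (c c' : E.S m ⟶ A ⊗ C) (y : HMod E (A ⊗ Y)) :
    zc (c + c') Y y = zc c Y y + zc c' Y y := by
  induction y using DirectSum.induction_on with
  | zero => rw [map_zero, map_zero, map_zero, add_zero]
  | add x y hx hy => rw [map_add, map_add, map_add, hx, hy]; abel
  | of n y =>
    rw [zc_of (k := n + m) rfl, zc_of (k := n + m) rfl, zc_of (k := n + m) rfl, ext_add_right,
      Preadditive.add_comp]
    exact (DirectSum.of (E.Gr (A ⊗ (Y ⊗ C))) (n + m)).map_add _ _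

/-- The map induced by a map `Y ⟶ Y'`. -/
noncomputable def hY {Y' : T} (A : T) [MonObj A] (f : Y ⟶ Y') :
    HMod E (A ⊗ Y) →ₗ[HRing E A] HMod E (A ⊗ Y') :=
  mkLin (RingHom.id _) (hm (A ◁ f)) fun k n a y => by
    rw [smul_of (k := k + n) rfl, hm_of, hm_of, RingHom.id_apply, smul_of (k := k + n) rfl,
      gsmul_comp _ _ (ModStr.isLinear_whiskerLeft (ModStr.self A) f)]

@[simp] lemma hY_of {Y' : T} (f : Y ⟶ Y') {n : ℤ} (y : E.S n ⟶ A ⊗ Y) :
    hY A f (DirectSum.of (E.Gr (A ⊗ Y)) n y) = DirectSum.of (E.Gr (A ⊗ Y')) n (y ≫ (A ◁ f)) :=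
  hm_of _ _ _

/-- The product with a multiple of the unit. -/
lemma zc_unit [IsCommMonObj A] (i : 𝟙_ T ⟶ C) {m : ℤ} (a : E.S m ⟶ A) (y : HMod E (A ⊗ Y)) :
    zc (a ≫ itS i A) Y y = HRing.of E A m a • hY A (itS i Y) y := by
  induction y using DirectSum.induction_on with
  | zero => rw [map_zero, map_zero, smul_zero]
  | add x y hx hy => rw [map_add, map_add, smul_add, hx, hy]
  | of n y =>
    rw [zc_of (k := m + n) (by ring), hY_of, smul_of (k := m + n) rfl,
      gsmul_comp _ _ (ModStr.isLinear_whiskerLeft (ModStr.self A) (itS i Y)), ext_comp_right,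
      Category.assoc, pr_unit, ← Category.assoc, ext_comm _ rfl, ← Category.assoc]
    rfl

section nat

variable {A' : T} [MonObj A'] (f : A ⟶ A') [IsMonHom f]

omit [MonObj A] [MonObj A'] [IsMonHom f] in
lemma act_nat [MonObj A] [MonObj A'] [IsMonHom f] (Y : T) :
    (fm A Y).act ≫ (f ▷ Y) = (f ⊗ₘ (f ▷ Y)) ≫ (fm A' Y).act := by
  rw [fm_act, fm_act, Category.assoc, ← comp_whiskerRight, IsMonHom.mul_hom, comp_whiskerRight,
    tensorHom_def, tensorHom_def, Category.assoc, comp_whiskerRight,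
    associator_inv_naturality_middle_assoc, associator_inv_naturality_left_assoc]
  simp

/-- The map induced by a homomorphism of monoids. -/
noncomputable def hA (Y : T) : HMod E (A ⊗ Y) →ₛₗ[HRing.map (E := E) f] HMod E (A' ⊗ Y) :=
  mkLin (HRing.map (E := E) f) (hm (f ▷ Y)) fun k n a y => by
    rw [smul_of (k := k + n) rfl, hm_of, hm_of, HRing.map_of, smul_of (k := k + n) rfl]
    unfold gsmul
    rw [Category.assoc, act_nat, ext_comp, Category.assoc]

@[simp] lemma hA_of {n : ℤ} (y : E.S n ⟶ A ⊗ Y) :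
    hA f Y (DirectSum.of (E.Gr (A ⊗ Y)) n y) = DirectSum.of (E.Gr (A' ⊗ Y)) n (y ≫ (f ▷ Y)) :=
  hm_of _ _ _

lemma hA_zc {m : ℤ} (c : E.S m ⟶ A ⊗ C) (y : HMod E (A ⊗ Y)) :
    hA f (Y ⊗ C) (zc c Y y) = zc (c ≫ (f ▷ C)) Y (hA f Y y) := by
  induction y using DirectSum.induction_on with
  | zero => simp only [map_zero]
  | add x y hx hy => simp only [map_add, hx, hy]
  | of n y =>
    rw [zc_of (k := n + m) rfl, hA_of, hA_of, zc_of (k := n + m) rfl, Category.assoc, ← pr_nat,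
      ← Category.assoc, ← ext_comp]

lemma hA_hY {Y' : T} (g : Y ⟶ Y') (y : HMod E (A ⊗ Y)) :
    hA f Y' (hY A g y) = hY A' g (hA f Y y) := by
  induction y using DirectSum.induction_on with
  | zero => simp only [map_zero]
  | add x y hx hy => simp only [map_add, hx, hy]
  | of n y =>
    rw [hY_of, hA_of, hA_of, hY_of, Category.assoc, Category.assoc, whisker_exchange]

lemma hA_hA {A'' : T} [MonObj A''] (g : A' ⟶ A'') [IsMonHom g] (y : HMod E (A ⊗ Y)) :
    hA g Y (hA f Y y) = hA (f ≫ g) Y y := by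
  induction y using DirectSum.induction_on with
  | zero => simp only [map_zero]
  | add x y hx hy => simp only [map_add, hx, hy]
  | of n y => rw [hA_of, hA_of, hA_of, Category.assoc, comp_whiskerRight]

end nat

end elements

end Vale.Agent.P257.V4.T.T3
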