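import Vale.Agent.P251.S.Amitsur
import Vale.Agent.P257.V4.T.T3Alg
import Vale.Agent.P257.V4.T.T3Pair

/-!
# P257, V(4), part T (T3, the cochain)

`E` even spheres, `i : 𝟙 ⟶ C`, `e : 𝟙 ⟶ X`, `z : S^{2m} ⟶ R ⊗ C` with
`v_1 z = v_0 z + τ 1_C` for a cocycle `τ`. Then the cochain `∑ (binom(p,j)/p) τ_01^j τ_12^{p-j}`
becomes a coboundary in `R^{⊗ 3} ⊗ (X ⊗ C ⊗ ... ⊗ C)` (`p - 1` factors): `exists_cochain`.
-/

set_option linter.unusedSectionVars false

open CategoryTheory MonoidalCategory MonObj Finset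

universe v u

namespace Vale.Agent.P257.V4.T.T3

open Vale.Agent.P251.S Vale.Agent.P251.M Vale.Agent.P251.M.EvenSpheres

variable {T : Type u} [Category.{v} T] [MonoidalCategory T] [SymmetricCategory T]
  [Preadditive T] [MonoidalPreadditive T] {E : EvenSpheres T} {C X : T}

section elA

variable {A : T} [MonObj A]

/-- The elements of the homotopy of `A ⊗ (X ⊗ C ⊗ ... ⊗ C)`. -/
noncomputable def elA (i : 𝟙_ T ⟶ C) {m : ℤ} (c : E.S m ⟶ A ⊗ C) (u : HMod E (A ⊗ X)) (n k : ℕ) :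
    HMod E (A ⊗ It C n X) :=
  el (M := fun n => HMod E (A ⊗ It C n X)) (fun n => hY A (itS i (It C n X)))
    (fun n => zc c (It C n X)) u n k

/-- The unit. -/
noncomputable def uA (E : EvenSpheres T) (e : 𝟙_ T ⟶ X) (A : T) [MonObj A] : HMod E (A ⊗ X) :=
  DirectSum.of (E.Gr (A ⊗ X)) 0 (E.zero.inv ≫ η[A] ≫ itS e A)

omit [SymmetricCategory T] [Preadditive T] [MonoidalPreadditive T] [MonObj A] in
lemma itS_comp {Y : T} (e : 𝟙_ T ⟶ X) (f : X ⟶ Y) (A : T) :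
    itS e A ≫ (A ◁ f) = itS (e ≫ f) A := by
  rw [itS, itS, Category.assoc, ← MonoidalCategory.whiskerLeft_comp]

omit [SymmetricCategory T] [Preadditive T] [MonoidalPreadditive T] [MonObj A] in
lemma itS_nat {A' : T} (e : 𝟙_ T ⟶ X) (f : A ⟶ A') :
    itS e A ≫ (f ▷ X) = f ≫ itS e A' := by
  rw [itS, itS, Category.assoc, whisker_exchange, rightUnitor_inv_naturality_assoc]

lemma elA_zero (i : 𝟙_ T ⟶ C) (e : 𝟙_ T ⟶ X) {m : ℤ} (c : E.S m ⟶ A ⊗ C) (n : ℕ) :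
    elA i c (uA E e A) n 0 = uA E (e ≫ itι i n X) A := by
  induction n with
  | zero =>
    change uA E e A = uA E (e ≫ 𝟙 X) A
    rw [Category.comp_id]
  | succ n ih =>
    change hY A (itS i (It C n X)) (elA i c (uA E e A) n 0) = _
    rw [ih, uA, hY_of, uA, itι_succ, Category.assoc, Category.assoc, itS_comp, Category.assoc]

lemma hA_uA {A' : T} [MonObj A'] (f : A ⟶ A') [IsMonHom f] (e : 𝟙_ T ⟶ X) :
    hA f X (uA E e A) = uA E e A' := by
  rw [uA, hA_of, uA, Category.assoc, Category.assoc, itS_nat, ← Category.assoc η[A] f,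
    IsMonHom.one_hom]

lemma hA_elA {A' : T} [MonObj A'] (f : A ⟶ A') [IsMonHom f] (i : 𝟙_ T ⟶ C) {m : ℤ}
    (c : E.S m ⟶ A ⊗ C) (u : HMod E (A ⊗ X)) (n : ℕ) :
    ∀ k : ℕ, hA f (It C n X) (elA i c u n k) = elA i (c ≫ (f ▷ C)) (hA f X u) n k := by
  induction n with
  | zero =>
    intro k
    cases k with
    | zero => rfl
    | succ k => exact map_zero _
  | succ n ih =>
    intro k
    cases k with
    | zero =>
      change hA f (It C n X ⊗ C) (hY A (itS i (It C n X)) (elA i c u n 0)) =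
        hY A' (itS i (It C n X)) (elA i (c ≫ (f ▷ C)) (hA f X u) n 0)
      rw [hA_hY, ih]
    | succ k =>
      change hA f (It C n X ⊗ C) (hY A (itS i (It C n X)) (elA i c u n (k + 1)) +
        zc c (It C n X) (elA i c u n k)) =
        hY A' (itS i (It C n X)) (elA i (c ≫ (f ▷ C)) (hA f X u) n (k + 1)) +
          zc (c ≫ (f ▷ C)) (It C n X) (elA i (c ≫ (f ▷ C)) (hA f X u) n k)
      rw [map_add, hA_hY, hA_zc, ih, ih]

/-- The effect of a change of `c`. -/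
lemma elA_shift [IsCommMonObj A] (i : 𝟙_ T ⟶ C) {m : ℤ} (c c' : E.S m ⟶ A ⊗ C)
    (τ : E.S m ⟶ A) (hc : c' = c + τ ≫ itS i A) (u : HMod E (A ⊗ X)) (n k : ℕ) :
    elA i c' u n k = ∑ j ∈ range (k + 1), (n - j).choose (k - j) •
      HRing.of E A m τ ^ (k - j) • elA i c u n j :=
  el_shift (M := fun n => HMod E (A ⊗ It C n X)) (fun n => hY A (itS i (It C n X)))
    (fun n => zc c (It C n X)) (fun n => zc c' (It C n X)) u (HRing.of E A m τ)
    (fun n y => by rw [hc, zc_add, zc_unit]) n k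

end elA

/-! ### Homogeneous elements -/

section hg

/-- Homogeneous elements. -/
def Hg (E : EvenSpheres T) {N : T} (k : ℤ) (x : HMod E N) : Prop :=
  ∃ a : E.S k ⟶ N, x = DirectSum.of (E.Gr N) k a

variable {N : T} {k : ℤ}

lemma Hg.add {x y : HMod E N} (hx : Hg E k x) (hy : Hg E k y) : Hg E k (x + y) := by
  obtain ⟨a, rfl⟩ := hx
  obtain ⟨b, rfl⟩ := hy
  exact ⟨a + b, ((DirectSum.of (E.Gr N) k).map_add a b).symm⟩

lemma Hg.zero : Hg E k (0 : HMod E N) := ⟨0, ((DirectSum.of (E.Gr N) k).map_zero).symm⟩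

lemma Hg.nsmul {x : HMod E N} (hx : Hg E k x) (n : ℕ) : Hg E k (n • x) := by
  obtain ⟨a, rfl⟩ := hx
  exact ⟨n • a, ((DirectSum.of (E.Gr N) k).map_nsmul n a).symm⟩

lemma Hg.sum {ι : Type*} (s : Finset ι) (x : ι → HMod E N) (hx : ∀ i ∈ s, Hg E k (x i)) :
    Hg E k (∑ i ∈ s, x i) := by
  classical
  induction s using Finset.induction_on with
  | empty => exact Hg.zero
  | insert a s ha ih =>
    rw [sum_insert ha]
    exact (hx a (mem_insert_self a s)).add (ih fun i hi => hx i (mem_insert_of_mem hi))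

lemma Hg.cast {k k' : ℤ} (h : k = k') {x : HMod E N} (hx : Hg E k x) : Hg E k' x := by
  subst h
  exact hx

variable {A Y : T} [MonObj A]

lemma Hg.smul {m n : ℤ} (k : ℤ) (h : m + n = k) {a : HRing E A} (ha : Hg E m a)
    {y : HMod E (A ⊗ Y)} (hy : Hg E n y) : Hg E k (a • y) := by
  obtain ⟨a, rfl⟩ := ha
  obtain ⟨y, rfl⟩ := hy
  exact ⟨_, smul_of h a y⟩

lemma Hg.pow {m : ℤ} {a : HRing E A} (ha : Hg E m a) (n : ℕ) : Hg E (n * m) (a ^ n) := by
  induction n with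
  | zero =>
    rw [pow_zero]
    exact Hg.cast (k := 0) (by simp) ⟨_, rfl⟩
  | succ n ih =>
    rw [pow_succ]
    obtain ⟨b, hb⟩ := ih
    obtain ⟨a, rfl⟩ := ha
    rw [hb]
    exact ⟨_, of_mul_of (by push_cast; ring) b a⟩

lemma Hg.elA (i : 𝟙_ T ⟶ C) {m : ℤ} (c : E.S m ⟶ A ⊗ C) {u : HMod E (A ⊗ X)} (hu : Hg E 0 u)
    (n : ℕ) : ∀ k : ℕ, Hg E (k * m) (elA i c u n k) := by
  induction n with
  | zero =>
    intro k
    cases k with
    | zero => exact hu.cast (by simp)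
    | succ k => exact Hg.zero
  | succ n ih =>
    intro k
    cases k with
    | zero =>
      change Hg E _ (hY A (itS i (It C n X)) (T3.elA i c u n 0))
      obtain ⟨a, ha⟩ := ih 0
      rw [ha, hY_of]
      exact ⟨_, rfl⟩
    | succ k =>
      change Hg E _ (hY A (itS i (It C n X)) (T3.elA i c u n (k + 1)) +
        zc c (It C n X) (T3.elA i c u n k))
      obtain ⟨a, ha⟩ := ih (k + 1)
      obtain ⟨b, hb⟩ := ih k
      rw [ha, hb, hY_of]
      exact Hg.add ⟨_, rfl⟩ ⟨_, zc_of (by push_cast; ring) c b⟩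

end hg

/-! ### The cochain -/

section cochain

variable {R : T} [MonObj R] [IsCommMonObj R] {p : ℕ} [Fact p.Prime]

/-- The vertices of `R^{⊗ n}`, defined on `R^{⊗ 1}`. -/
def vv (R : T) [MonObj R] [IsCommMonObj R] {n : ℕ} (j : Fin n) : Am R 1 ⟶ Am R n :=
  Am.map R (fun _ => j)

instance {n : ℕ} (j : Fin n) : IsMonHom (vv R j) := by
  unfold vv
  infer_instance

lemma vv_map {n k : ℕ} (j : Fin n) (α : Fin n → Fin k) : vv R j ≫ Am.map R α = vv R (α j) := by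
  rw [vv, vv, ← Am.map_comp]
  rfl

/-- The `k`-th coface. -/
def cf (R : T) [MonObj R] [IsCommMonObj R] {n : ℕ} (k : Fin (n + 1)) : Am R n ⟶ Am R (n + 1) :=
  Am.map R (Fin.succAbove k)

instance {n : ℕ} (k : Fin (n + 1)) : IsMonHom (cf R k : Am R n ⟶ Am R (n + 1)) := by
  unfold cf
  infer_instance

lemma vv_cf {n : ℕ} (j : Fin n) (k : Fin (n + 1)) : vv R j ≫ cf R k = vv R (k.succAbove j) :=
  vv_map j _

lemma dist_hmod {N : T} (hN : ∀ {k : ℤ} (f : E.S k ⟶ N), p • f = 0) (x : HMod E N) :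
    p • x = 0 := by
  induction x using DirectSum.induction_on with
  | zero => exact smul_zero _
  | add x y hx hy => rw [smul_add, hx, hy, add_zero]
  | of n y =>
    have h := (DirectSum.of (E.Gr N) n).map_nsmul p y
    rw [hN y, map_zero] at h
    exact h.symm

/-- The coboundary of the cochain. -/
theorem exists_cochain (i : 𝟙_ T ⟶ C) (e : 𝟙_ T ⟶ X)
    (hX : ∀ {k : ℤ} (f : E.S k ⟶ Am R 3 ⊗ It C (p - 1) X), p • f = 0)
    {m : ℤ} (z : E.S m ⟶ Am R 1 ⊗ C) (τ : E.S m ⟶ Am R 2)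
    (hz : z ≫ (vv R (1 : Fin 2) ▷ C) = z ≫ (vv R (0 : Fin 2) ▷ C) + τ ≫ itS i (Am R 2))
    (hτ : τ ≫ cf R 1 = τ ≫ cf R 2 + τ ≫ cf R 0)
    {w : ℤ} (hw : w = p * m) (b : E.S w ⟶ Am R 3)
    (hb : HRing.of E (Am R 3) w b = ∑ j ∈ Ioo 0 p, (p.choose j / p) •
      (HRing.of E (Am R 3) m (τ ≫ cf R 2) ^ j * HRing.of E (Am R 3) m (τ ≫ cf R 0) ^ (p - j))) :
    ∃ W : E.S w ⟶ Am R 2 ⊗ It C (p - 1) X,
      W ≫ (cf R 0 ▷ It C (p - 1) X) - W ≫ (cf R 1 ▷ It C (p - 1) X) +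
        W ≫ (cf R 2 ▷ It C (p - 1) X) = b ≫ itS (e ≫ itι i (p - 1) X) (Am R 3) := by
  have hp := (Fact.out : p.Prime)
  -- the cochain
  let W0 : HMod E (Am R 2 ⊗ It C (p - 1) X) := ∑ k ∈ Ioo 0 p, ccZ p k •
    HRing.of E (Am R 2) m τ ^ (p - k) •
      elA i (z ≫ (vv R (0 : Fin 2) ▷ C)) (uA E e (Am R 2)) (p - 1) k
  have hW0 : Hg E w W0 := by
    apply Hg.sum
    intro k hk
    obtain ⟨hk0, hkp⟩ := mem_Ioo.1 hk
    apply Hg.nsmul
    have h1 : Hg E m (HRing.of E (Am R 2) m τ) := ⟨τ, rfl⟩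
    refine Hg.smul w ?_ (h1.pow (p - k)) (Hg.elA i _ ⟨_, rfl⟩ (p - 1) k)
    rw [hw, ← add_mul]
    congr 1
    rw [Nat.cast_sub hkp.le]
    ring
  obtain ⟨W, hW⟩ := hW0
  refine ⟨W, ?_⟩
  -- the cofaces
  let e' : Fin 3 → ℕ → HMod E (Am R 3 ⊗ It C (p - 1) X) := fun j k =>
    elA i (z ≫ (vv R j ▷ C)) (uA E e (Am R 3)) (p - 1) k
  have hcf : ∀ k : Fin 3, hA (cf R k) (It C (p - 1) X) W0 = ∑ l ∈ Ioo 0 p, ccZ p l •
      HRing.of E (Am R 3) m (τ ≫ cf R k) ^ (p - l) • e' (k.succAbove 0) l := by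
    intro k
    rw [map_sum]
    apply sum_congr rfl
    intro l _
    rw [map_nsmul, map_smulₛₗ, map_pow, HRing.map_of, hA_elA, hA_uA]
    congr 3
    rw [Category.assoc, ← comp_whiskerRight, vv_cf]
  have hM : ∀ x : HMod E (Am R 3 ⊗ It C (p - 1) X), p • x = 0 := dist_hmod hX
  have hshift : ∀ k, e' 1 k = ∑ j ∈ range (k + 1), (p - 1 - j).choose (k - j) •
      HRing.of E (Am R 3) m (τ ≫ cf R 2) ^ (k - j) • e' 0 j := by
    intro k
    apply elA_shift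
    have h1 := congrArg (· ≫ (cf R 2 ▷ C)) hz
    simp only [Preadditive.add_comp, Category.assoc, ← comp_whiskerRight, vv_cf] at h1
    rw [itS_nat] at h1
    exact h1.trans (by rw [Category.assoc]; rfl)
  have hkey := key (p := p) hM (HRing.of E (Am R 3) m (τ ≫ cf R 2))
    (HRing.of E (Am R 3) m (τ ≫ cf R 0)) (e' 0) (e' 1) hshift
  have hadd : HRing.of E (Am R 3) m (τ ≫ cf R 2) + HRing.of E (Am R 3) m (τ ≫ cf R 0) =
      HRing.of E (Am R 3) m (τ ≫ cf R 1) := by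
    rw [hτ]
    exact ((DirectSum.of (E.Gr (Am R 3)) m).map_add _ _).symm
  rw [hadd] at hkey
  have h0 := hcf 0
  have h1 := hcf 1
  have h2 := hcf 2
  have hs0 : (0 : Fin 3).succAbove (0 : Fin 2) = 1 := rfl
  have hs1 : (1 : Fin 3).succAbove (0 : Fin 2) = 0 := rfl
  have hs2 : (2 : Fin 3).succAbove (0 : Fin 2) = 0 := rfl
  rw [hs0] at h0
  rw [hs1] at h1
  rw [hs2] at h2
  rw [← h0, ← h1, ← h2] at hkey
  have he0 : e' 0 0 = uA E (e ≫ itι i (p - 1) X) (Am R 3) := elA_zero i e _ (p - 1)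
  have hr : ∑ j ∈ Ioo 0 p, (p.choose j / p) • (HRing.of E (Am R 3) m (τ ≫ cf R 2) ^ j *
      HRing.of E (Am R 3) m (τ ≫ cf R 0) ^ (p - j)) • e' 0 0 =
      HRing.of E (Am R 3) w b • uA E (e ≫ itι i (p - 1) X) (Am R 3) := by
    rw [hb, sum_smul, he0]
    apply sum_congr rfl
    intro j _
    rw [smul_assoc]
  rw [hr, hW, hA_of, hA_of, hA_of, uA, smul_of (k := w) (add_zero w)] at hkey
  have hfin : gsmul (fm (Am R 3) (It C (p - 1) X)) (add_zero w) b
      (E.zero.inv ≫ η[Am R 3] ≫ itS (e ≫ itι i (p - 1) X) (Am R 3)) =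
      b ≫ itS (e ≫ itι i (p - 1) X) (Am R 3) := by
    unfold gsmul
    rw [ext_one, Category.assoc, Category.assoc]
    congr 1
    rw [fm_act, MonoidalCategory.whiskerLeft_comp]
    have h3 : ((Am R 3) ◁ itS (e ≫ itι i (p - 1) X) (Am R 3)) ≫
        (α_ (Am R 3) (Am R 3) (It C (p - 1) X)).inv ≫ (μ[Am R 3] ▷ It C (p - 1) X) =
        μ[Am R 3] ≫ itS (e ≫ itι i (p - 1) X) (Am R 3) := by
      rw [← itS_nat, itS, itS, MonoidalCategory.whiskerLeft_comp]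
      simp only [Category.assoc]
      rw [associator_inv_naturality_right_assoc]
      monoidal
    rw [Category.assoc, h3, MonObj.mul_one_assoc, Iso.inv_hom_id_assoc]
  rw [hfin] at hkey
  apply DirectSum.of_injective (β := E.Gr (Am R 3 ⊗ It C (p - 1) X)) w
  rw [← hkey]
  exact ((DirectSum.of (E.Gr (Am R 3 ⊗ It C (p - 1) X)) w).map_add _ _).trans
    (congrArg (· + _) ((DirectSum.of (E.Gr (Am R 3 ⊗ It C (p - 1) X)) w).map_sub _ _))

end cochain

end Vale.Agent.P257.V4.T.T3
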