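import Vale.Agent.P257.V4.E.TenR
import Vale.Agent.P257.V4.T.Descent
import Vale.Agent.P257.V4.O.Num
import Vale.Agent.P257.V4.K.ClE

/-!
# P257, part T (T4b): products with elements of the homotopy of the sphere in the tower

`at : Sa ⟶ B 1 𝟙` and `bt : Sb ⟶ B 2 𝟙` are lifts of `α : A ⟶ 𝟙`, `β : Bb ⟶ 𝟙` to the tower.

* `lm s a y : A' ⊗ V ⟶ B (b + s) X` for `a : A' ⟶ B s 𝟙` and `y : V ⟶ B b X`: the product;
* `ann_of_lm`: if `lm 1 at y` dies in `B b X` then `y α = 0`;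
* `zP bt y k`: the product of `bt ^ k` and `y`; `zP_bdN`: it dies in `B b X` if `y β ^ k = 0`;
* `proj_eq_zero`: the same in the couple.
-/

open CategoryTheory MonoidalCategory Limits Pretriangulated MonObj

set_option linter.unusedSectionVars false

universe v u

namespace Vale.Agent.P257.V4.T

open Vale.Agent.P251.T Vale.Agent.P251.S Vale.Agent.P257.V4.E

variable {T : Type u} [Category.{v} T] [Preadditive T] [HasZeroObject T] [HasShift T ℤ]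
  [∀ n : ℤ, (shiftFunctor T n).Additive] [Pretriangulated T] [MonoidalCategory T]
  [SymmetricCategory T] [TensorTriangulated T] {R : T} [MonObj R] (U : UnitCof R)

/-! ### Transport of the index -/

/-- Transport of the index. -/
def cB {a b : ℕ} (h : a = b) (Y : T) : U.cobar.B a Y ⟶ U.cobar.B b Y :=
  eqToHom (congrArg (fun n => U.cobar.B n Y) h)

lemma cB_rfl (a : ℕ) (Y : T) : cB U (rfl : a = a) Y = 𝟙 _ := rfl

lemma cB_cB {a b c : ℕ} (h : a = b) (h' : b = c) (Y : T) :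
    cB U h Y ≫ cB U h' Y = cB U (h.trans h') Y := by
  subst h h'
  exact Category.comp_id _

lemma cB_bd {a b : ℕ} (h : a + 1 = b + 1) (h' : a = b) (Y : T) :
    cB U h Y ≫ U.bd b Y = U.bd a Y ≫ (cB U h' Y)⟦(1 : ℤ)⟧' := by
  subst h'
  rw [cB_rfl, cB_rfl, Category.id_comp, CategoryTheory.Functor.map_id, Category.comp_id]

theorem BB_bd (s b : ℕ) (Y : T) (h : s + 1 + b = s + b + 1) :
    (BB U.cobar (s + 1) b Y).hom ≫ cB U h Y ≫ U.bd (s + b) Y =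
      U.bd s (U.cobar.B b Y) ≫ ((BB U.cobar s b Y).hom)⟦(1 : ℤ)⟧' := by
  induction b generalizing Y with
  | zero =>
    have h1 : ((BB U.cobar s 0 Y).hom)⟦(1 : ℤ)⟧' = 𝟙 _ :=
      CategoryTheory.Functor.map_id _ _
    rw [h1]
    exact (Category.id_comp _).trans ((Category.id_comp _).trans (Category.comp_id _).symm)
  | succ b ih => exact ih (U.J ⊗ Y) (by omega)

/-! ### The product -/

/-- The product `B s 𝟙 ⊗ B b X ⟶ B (b + s) X`. -/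
def FF (s b : ℕ) (X : T) : U.cobar.B s (𝟙_ T) ⊗ U.cobar.B b X ⟶ U.cobar.B (b + s) X :=
  tB U s (𝟙_ T) (U.cobar.B b X) ≫ U.cobar.Bm s (λ_ (U.cobar.B b X)).hom ≫
    (BB U.cobar s b X).hom ≫ cB U (Nat.add_comm s b) X

lemma FF_zero (b : ℕ) (X : T) : FF U 0 b X = (λ_ (U.cobar.B b X)).hom := by
  have h : ∀ (b : ℕ) (X : T), (BB U.cobar 0 b X).hom ≫ cB U (Nat.add_comm 0 b) X = 𝟙 _ := by
    intro b
    induction b with
    | zero => intro X; exact Category.id_comp _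
    | succ b ih => intro X; exact ih (U.J ⊗ X)
  unfold FF
  rw [h]
  exact (Category.id_comp _).trans (Category.comp_id _)

lemma FF_bd (s b : ℕ) (X : T) :
    FF U (s + 1) b X ≫ U.bd (b + s) X =
      U.bd s (𝟙_ T) ▷ U.cobar.B b X ≫ (shR _ _).hom ≫ (FF U s b X)⟦(1 : ℤ)⟧' := by
  have h0 : s + 1 + b = s + b + 1 := by omega
  have h1 := bd_tB U s (𝟙_ T) (U.cobar.B b X)
  have h2 := U.bd_naturality s (λ_ (U.cobar.B b X)).hom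
  have h3 := BB_bd U s b X h0
  have h4 : cB U (Nat.add_comm (s + 1) b) X ≫ U.bd (b + s) X =
      cB U h0 X ≫ U.bd (s + b) X ≫ (cB U (Nat.add_comm s b) X)⟦(1 : ℤ)⟧' := by
    rw [← cB_bd U (by omega) (Nat.add_comm s b) X, ← Category.assoc, cB_cB]
  unfold FF
  simp only [Category.assoc, Functor.map_comp]
  rw [h4, reassoc_of% h3, reassoc_of% h1]
  exact congrArg _ ((reassoc_of% h2) _)

/-- The product of `a : A' ⟶ B s 𝟙` and `y : V ⟶ B b X`. -/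
def lm (s : ℕ) {b : ℕ} {X A' V : T} (a : A' ⟶ U.cobar.B s (𝟙_ T)) (y : V ⟶ U.cobar.B b X) :
    A' ⊗ V ⟶ U.cobar.B (b + s) X :=
  (a ⊗ₘ y) ≫ FF U s b X

/-- The product of `f : A ⟶ 𝟙` and `y : V ⟶ Y`. -/
def l0 {A V Y : T} (f : A ⟶ 𝟙_ T) (y : V ⟶ Y) : A ⊗ V ⟶ Y := (f ⊗ₘ y) ≫ (λ_ Y).hom

lemma l0_eq {A V Y : T} (f : A ⟶ 𝟙_ T) (y : V ⟶ Y) : l0 f y = (f ▷ V ≫ (λ_ V).hom) ≫ y := by
  rw [l0, tensorHom_def, Category.assoc, Category.assoc, leftUnitor_naturality]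

@[reassoc]
lemma shR_natW (W : T) {V Y : T} (y : V ⟶ Y) :
    W⟦(1 : ℤ)⟧ ◁ y ≫ (shR W Y).hom = (shR W V).hom ≫ (W ◁ y)⟦(1 : ℤ)⟧' :=
  (NatTrans.shift_app_comm (trMap y) (1 : ℤ) W).symm

/-- The boundary of a product. -/
lemma lm_bd {s b : ℕ} {X A' V W : T} {a : A' ⟶ U.cobar.B (s + 1) (𝟙_ T)}
    {a' : W ⟶ U.cobar.B s (𝟙_ T)} (e : A' ⟶ W⟦(1 : ℤ)⟧)
    (h : a ≫ U.bd s (𝟙_ T) = e ≫ a'⟦(1 : ℤ)⟧') (y : V ⟶ U.cobar.B b X) :
    lm U (s + 1) a y ≫ U.bd (b + s) X = (e ▷ V ≫ (shR W V).hom) ≫ (lm U s a' y)⟦(1 : ℤ)⟧' := by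
  have h1 := FF_bd U s b X
  have h4 : A' ◁ y ≫ e ▷ U.cobar.B b X = e ▷ V ≫ W⟦(1 : ℤ)⟧ ◁ y := whisker_exchange _ _
  rw [lm, lm, tensorHom_def', tensorHom_def']
  simp only [Category.assoc, Functor.map_comp]
  rw [h1, ← comp_whiskerRight_assoc, h, comp_whiskerRight_assoc, shR_nat_assoc, reassoc_of% h4,
    shR_natW_assoc]

lemma lm_zero {b : ℕ} {X A V : T} (f : A ⟶ 𝟙_ T) (y : V ⟶ U.cobar.B b X) :
    lm U 0 f y = l0 f y := by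
  rw [lm, l0, FF_zero]

lemma lm1_bd {b : ℕ} {X A Sa V : T} {α : A ⟶ 𝟙_ T} {at' : Sa ⟶ U.cobar.B 1 (𝟙_ T)}
    (ea : Sa ≅ A⟦(1 : ℤ)⟧) (hat : at' ≫ U.bd 0 (𝟙_ T) = ea.hom ≫ α⟦(1 : ℤ)⟧')
    (y : V ⟶ U.cobar.B b X) :
    lm U 1 at' y ≫ U.bd b X = (ea.hom ▷ V ≫ (shR A V).hom) ≫ (l0 α y)⟦(1 : ℤ)⟧' :=
  (lm_bd U (s := 0) (a' := α) ea.hom hat y).trans (by rw [lm_zero])

/-- If the product with `at` dies in `B b X` then `α y = 0`. -/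
lemma l0_of_lm {b : ℕ} {X A Sa V : T} {α : A ⟶ 𝟙_ T} {at' : Sa ⟶ U.cobar.B 1 (𝟙_ T)}
    (ea : Sa ≅ A⟦(1 : ℤ)⟧) (hat : at' ≫ U.bd 0 (𝟙_ T) = ea.hom ≫ α⟦(1 : ℤ)⟧')
    (y : V ⟶ U.cobar.B b X) (h : lm U 1 at' y ≫ U.bd b X = 0) : l0 α y = 0 := by
  rw [lm1_bd U ea hat] at h
  have h1 : (l0 α y)⟦(1 : ℤ)⟧' = 0 := by
    rw [← cancel_epi (shR A V).hom, ← cancel_epi (ea.hom ▷ V), comp_zero, comp_zero,
      ← Category.assoc, h]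
  exact (shiftFunctor T (1 : ℤ)).map_injective (h1.trans (Functor.map_zero _ _ _).symm)

/-- The two connecting maps. -/
def bd2 (b : ℕ) (X : T) : U.cobar.B (b + 2) X ⟶ ((U.cobar.B b X)⟦(1 : ℤ)⟧)⟦(1 : ℤ)⟧ :=
  U.bd (b + 1) X ≫ (U.bd b X)⟦(1 : ℤ)⟧'

/-- The double shift. -/
noncomputable def shR2 (W Y : T) :
    ((W⟦(1 : ℤ)⟧)⟦(1 : ℤ)⟧) ⊗ Y ≅ ((W ⊗ Y)⟦(1 : ℤ)⟧)⟦(1 : ℤ)⟧ :=
  shR (W⟦(1 : ℤ)⟧) Y ≪≫ (shiftFunctor T (1 : ℤ)).mapIso (shR W Y)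

lemma shR2_hom (W Y : T) : (shR2 W Y).hom = (shR (W⟦(1 : ℤ)⟧) Y).hom ≫ ((shR W Y).hom)⟦(1 : ℤ)⟧' :=
  rfl

@[reassoc]
lemma shR2_nat {W W' : T} (f : W ⟶ W') (Y : T) :
    ((f⟦(1 : ℤ)⟧')⟦(1 : ℤ)⟧' ▷ Y) ≫ (shR2 W' Y).hom =
      (shR2 W Y).hom ≫ ((f ▷ Y)⟦(1 : ℤ)⟧')⟦(1 : ℤ)⟧' := by
  rw [shR2_hom, shR2_hom, shR_nat_assoc, Category.assoc, ← Functor.map_comp, ← Functor.map_comp,
    shR_nat]

@[reassoc]
lemma shR2_natW (W : T) {V Y : T} (y : V ⟶ Y) :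
    ((W⟦(1 : ℤ)⟧)⟦(1 : ℤ)⟧ ◁ y) ≫ (shR2 W Y).hom =
      (shR2 W V).hom ≫ ((W ◁ y)⟦(1 : ℤ)⟧')⟦(1 : ℤ)⟧' := by
  rw [shR2_hom, shR2_hom, shR_natW_assoc, Category.assoc, ← Functor.map_comp, ← Functor.map_comp,
    shR_natW]

lemma FF_bd2 (b : ℕ) (X : T) :
    FF U 2 b X ≫ bd2 U b X = bd2 U 0 (𝟙_ T) ▷ U.cobar.B b X ≫ (shR2 _ _).hom ≫
      (((λ_ (U.cobar.B b X)).hom)⟦(1 : ℤ)⟧')⟦(1 : ℤ)⟧' := by
  have h1 := FF_bd U 1 b X
  have h2 := FF_bd U 0 b X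
  rw [FF_zero] at h2
  have h3 := shR_nat (U.bd 0 (𝟙_ T)) (U.cobar.B b X)
  rw [bd2, bd2, reassoc_of% h1]
  rw [← Functor.map_comp]
  refine (congrArg (fun f => U.bd 1 (𝟙_ T) ▷ U.cobar.B b X ≫ (shR _ _).hom ≫ f⟦(1 : ℤ)⟧') h2).trans ?_
  rw [Functor.map_comp, Functor.map_comp, comp_whiskerRight_assoc, shR2_hom, Category.assoc]
  exact congrArg _ ((reassoc_of% h3) _).symm

/-- The product with `bt` is `β y` in `B b X`. -/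
lemma lm2_bd {b : ℕ} {X B' Sb V : T} {β : B' ⟶ 𝟙_ T} {bt : Sb ⟶ U.cobar.B 2 (𝟙_ T)}
    (eb : Sb ≅ (B'⟦(1 : ℤ)⟧)⟦(1 : ℤ)⟧)
    (hbt : bt ≫ bd2 U 0 (𝟙_ T) = eb.hom ≫ (β⟦(1 : ℤ)⟧')⟦(1 : ℤ)⟧')
    (y : V ⟶ U.cobar.B b X) :
    lm U 2 bt y ≫ bd2 U b X = (eb.hom ▷ V ≫ (shR2 B' V).hom) ≫
      ((l0 β y)⟦(1 : ℤ)⟧')⟦(1 : ℤ)⟧' := by
  have h1 : eb.hom ▷ V ≫ (shR2 B' V).hom ≫ ((B' ◁ y)⟦(1 : ℤ)⟧')⟦(1 : ℤ)⟧' =
      Sb ◁ y ≫ eb.hom ▷ U.cobar.B b X ≫ (shR2 B' (U.cobar.B b X)).hom := by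
    rw [← shR2_natW, whisker_exchange_assoc]
  have h2 := shR2_nat β (U.cobar.B b X)
  rw [lm, Category.assoc, FF_bd2, tensorHom_def', l0, tensorHom_def']
  simp only [Category.assoc, Functor.map_comp]
  rw [reassoc_of% h1, ← comp_whiskerRight_assoc, hbt, comp_whiskerRight_assoc, reassoc_of% h2]

/-! ### The powers -/

/-- The source of the product with the `k`-th power. -/
@[reducible] def Vk (Sb V : T) : ℕ → T
  | 0 => V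
  | k + 1 => Sb ⊗ Vk Sb V k

/-- `Vk` is functorial. -/
def Vk.map {V V' : T} (Sb : T) (g : V ⟶ V') : ∀ k, Vk Sb V k ⟶ Vk Sb V' k
  | 0 => g
  | k + 1 => Sb ◁ Vk.map Sb g k

/-- The product of the `k`-th power of `bt` and `y`. -/
def zP {b : ℕ} {X Sb V : T} (bt : Sb ⟶ U.cobar.B 2 (𝟙_ T)) (y : V ⟶ U.cobar.B b X) :
    ∀ k : ℕ, Vk Sb V k ⟶ U.cobar.B (b + 2 * k) X
  | 0 => y
  | k + 1 => lm U 2 bt (zP bt y k)

/-- The `2 k` connecting maps. -/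
def sh2 : ℕ → T → T
  | 0, Y => Y
  | k + 1, Y => ((sh2 k Y)⟦(1 : ℤ)⟧)⟦(1 : ℤ)⟧

/-- The `2 k` connecting maps. -/
def bdN (b : ℕ) (X : T) : ∀ k : ℕ, U.cobar.B (b + 2 * k) X ⟶ sh2 k (U.cobar.B b X)
  | 0 => 𝟙 _
  | k + 1 => bd2 U (b + 2 * k) X ≫ ((bdN b X k)⟦(1 : ℤ)⟧')⟦(1 : ℤ)⟧'

lemma zP_nat {b : ℕ} {X Sb V V' : T} (bt : Sb ⟶ U.cobar.B 2 (𝟙_ T)) (g : V' ⟶ V)
    (y : V ⟶ U.cobar.B b X) (k : ℕ) : Vk.map Sb g k ≫ zP U bt y k = zP U bt (g ≫ y) k := by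
  induction k with
  | zero => rfl
  | succ k ih =>
    change Sb ◁ Vk.map Sb g k ≫ lm U 2 bt (zP U bt y k) = lm U 2 bt (zP U bt (g ≫ y) k)
    rw [← ih, lm, lm, tensorHom_def', tensorHom_def', MonoidalCategory.whiskerLeft_comp]
    simp only [Category.assoc]

lemma exists_swap {B' Sb V : T} (β : B' ⟶ 𝟙_ T) (k : ℕ) :
    ∃ e : B' ⊗ Vk Sb V k ≅ Vk Sb (B' ⊗ V) k,
      β ▷ Vk Sb V k ≫ (λ_ (Vk Sb V k)).hom = e.hom ≫ Vk.map Sb (β ▷ V ≫ (λ_ V).hom) k := by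
  induction k with
  | zero => exact ⟨Iso.refl _, (Category.id_comp _).symm⟩
  | succ k ih =>
    obtain ⟨e, he⟩ := ih
    refine ⟨(α_ B' Sb (Vk Sb V k)).symm ≪≫ whiskerRightIso (β_ B' Sb) _ ≪≫ α_ _ _ _ ≪≫
      whiskerLeftIso Sb e, ?_⟩
    change β ▷ (Sb ⊗ Vk Sb V k) ≫ (λ_ (Sb ⊗ Vk Sb V k)).hom = _ ≫ Sb ◁ _
    simp only [Iso.trans_hom, Iso.symm_hom, whiskerRightIso_hom, whiskerLeftIso_hom,
      Category.assoc]
    rw [← MonoidalCategory.whiskerLeft_comp, ← he, MonoidalCategory.whiskerLeft_comp]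
    have h1 : (β_ B' Sb).hom ≫ Sb ◁ β = β ▷ Sb ≫ (β_ (𝟙_ T) Sb).hom :=
      (BraidedCategory.braiding_naturality_left β Sb).symm
    rw [← associator_naturality_middle_assoc, ← comp_whiskerRight_assoc, h1,
      comp_whiskerRight_assoc, braiding_tensorUnit_left]
    monoidal

/-- **The product of the powers dies.** -/
theorem zP_bdN {b : ℕ} {X B' Sb : T} {β : B' ⟶ 𝟙_ T} {bt : Sb ⟶ U.cobar.B 2 (𝟙_ T)}
    (eb : Sb ≅ (B'⟦(1 : ℤ)⟧)⟦(1 : ℤ)⟧)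
    (hbt : bt ≫ bd2 U 0 (𝟙_ T) = eb.hom ≫ (β⟦(1 : ℤ)⟧')⟦(1 : ℤ)⟧') (k : ℕ) :
    ∀ {V : T} (y : V ⟶ U.cobar.B b X), mulPow y β k = 0 → zP U bt y k ≫ bdN U b X k = 0 := by
  induction k with
  | zero =>
    intro V y hy
    have h : y = 0 := hy
    rw [h]
    exact zero_comp
  | succ k ih =>
    intro V y hy
    have h1 : mulPow (mulPow y β 1) β k = 0 := by
      obtain ⟨e, he⟩ := exists_mulPow_mulPow y β 1 k
      have h : ∀ n, n = k + 1 → mulPow y β n = 0 := by rintro n rfl; exact hy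
      rw [he, h _ (add_comm _ _), comp_zero]
    have h2 : mulPow (l0 β y) β k = 0 := by
      have h : l0 β y = (β_ B' V).hom ≫ mulE y β := by
        rw [mulE_swap, ← Category.assoc, SymmetricCategory.symmetry, Category.id_comp]
        rfl
      rw [h, comp_mulPow]
      have : mulPow (mulE y β) β k = 0 := h1
      rw [this, comp_zero]
    obtain ⟨e, he⟩ := exists_swap (Sb := Sb) (V := V) β k
    have h3 : l0 β (zP U bt y k) = e.hom ≫ zP U bt (l0 β y) k := by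
      rw [l0_eq, he, Category.assoc, zP_nat, l0_eq]
    change lm U 2 bt (zP U bt y k) ≫ bd2 U (b + 2 * k) X ≫ ((bdN U b X k)⟦(1 : ℤ)⟧')⟦(1 : ℤ)⟧' = 0
    rw [← Category.assoc, lm2_bd U eb hbt, h3, Category.assoc, ← Functor.map_comp,
      ← Functor.map_comp, Category.assoc e.hom]
    have h4 : zP U bt (l0 β y) k ≫ bdN U b X k = 0 := ih _ h2
    rw [h4, comp_zero, Functor.map_zero, Functor.map_zero, comp_zero]

/-! ### The couple -/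

open Vale.Agent.P257.V4.O in
/-- An element of the couple which dies under the connecting maps has image zero. -/
theorem proj_of_bdN {b : ℕ} {X : T} (k : ℕ) :
    ∀ {m t : ℤ} (h : m + ((b + 2 * k : ℕ) : ℤ) = t) (w : (cpl U X).D (b + 2 * k) m),
      dT U X (𝟙_ T) h w ≫ bdN U b X k = 0 →
        (cpl U X).proj m (Nat.le_add_right b (2 * k)) w = 0 := by
  induction k with
  | zero =>
    intro m t h w hw
    have h1 : dT U X (𝟙_ T) h w = 0 := (Category.comp_id _).symm.trans hw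
    have h2 : w = 0 := (dT U X (𝟙_ T) h).injective (h1.trans (map_zero _).symm)
    rw [h2]
    exact (cpl U X).proj_zero' m _
  | succ k ih =>
    intro m t h w hw
    have h1 : m + ((b + 2 * k : ℕ) : ℤ) = t - 2 := by push_cast at h ⊢; omega
    have h2 : m + ((b + 2 * k + 1 : ℕ) : ℤ) = t - 1 := by push_cast at h ⊢; omega
    have h3 := dT_i U X (𝟙_ T) h2 h (by ring) w
    have h4 := dT_i U X (𝟙_ T) h1 h2 (by ring) ((cpl U X).i (b + 2 * k + 1) m w)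
    have h5 := (cpl U X).proj_succ m (show b ≤ b + 2 * k + 1 by omega) w
    have h6 := (cpl U X).proj_succ m (show b ≤ b + 2 * k by omega)
      ((cpl U X).i (b + 2 * k + 1) m w)
    refine h5.trans (h6.trans (ih h1 _ ?_))
    apply (sh (t - 2) 1 (t - 1) (by ring)).injective
    rw [sh_comp, map_zero]
    have h7 := congrArg (fun f => f ≫ (bdN U b X k)⟦(1 : ℤ)⟧') h4
    refine h7.trans ?_
    apply (sh (t - 1) 1 t (by ring)).injective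
    rw [map_zero]
    refine (sh_comp _ _ _ _ _ _).trans ?_
    refine (congrArg (fun f => f ≫ ((bdN U b X k)⟦(1 : ℤ)⟧')⟦(1 : ℤ)⟧') (sh_comp _ _ _ _ _ _)).trans ?_
    refine (congrArg (fun f => (f ≫ (U.bd (b + 2 * k) X)⟦(1 : ℤ)⟧') ≫
      ((bdN U b X k)⟦(1 : ℤ)⟧')⟦(1 : ℤ)⟧') h3).trans ?_
    simp only [Category.assoc]
    have h8 : dT U X (𝟙_ T) h w ≫ (U.bd (b + 2 * k + 1) X ≫ (U.bd (b + 2 * k) X)⟦(1 : ℤ)⟧') ≫
      ((bdN U b X k)⟦(1 : ℤ)⟧')⟦(1 : ℤ)⟧' = 0 := hw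
    rw [Category.assoc] at h8
    exact h8

end Vale.Agent.P257.V4.T
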