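import Vale.Agent.P257.V4.T.Fib
import Vale.Agent.P257.V4.T.T1Abs
import Vale.Agent.P251.M.FamCls
import Vale.Agent.P251.M.ThFCInst
import Vale.Agent.P251.M.ThomCl
import Vale.Agent.P251.M.BUTheta
import Vale.Agent.P251.M.ActForm
import Vale.Agent.P251.Q.HasLaw

/-!
# P257, part T (T1): the zero section `Th(W) → Th(W ⊕ l^p)` is divisible by `p`

* `zeroHom_Theta`: the zero section followed by the Thom map is the cap product with the Euler
  class;
* `z_div`: if `π_{2 j}(R ⊗ S/p) = 0` for `0 < j < p - 1`, the map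
  `S(Th(CP; kρ)) ⟶ R ⊗ S(Th(CP; kρ ⊕ l^p))` is divisible by `p`.
-/

set_option linter.unusedSectionVars false
set_option linter.style.haveILetI false

open CategoryTheory MonoidalCategory Limits Pretriangulated Topology OnePoint Matrix MonObj

universe v u

noncomputable section

namespace Vale.Agent.P257.V4.T

open Vale.Agent.P251 Vale.Agent.P251.G Vale.Agent.P251.G.LC Vale.Agent.P251.G.Bun
open Vale.Agent.P251.M Vale.Agent.P251.T Vale.Agent.P251.I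

/-! ### The cap product with the Euler class -/

section geom

variable {Z : LC} [CompactSpace Z] {A L : Type} [Fintype A] [Fintype L] {n : ℕ}

/-- `z ↦ (V_z, 0)` -/
def eulHom (V : Bun Z A) (hV : V.IsRank n) : Z ⟶ ThO n A := Q.zeroMor V ≫ Q.toThHom V hV

/-- the projection of the total space -/
abbrev baseC (W : Bun Z L) : C(W.tot, Z) := ⟨Bun.base, Bun.continuous_base⟩

/-- `y ↦ (y, base y)` -/
def grH (W : Bun Z L) : W.tot ⟶ W.tot ⊗ Z := Q.graph (baseC W) ≫ (β_ Z W.tot).hom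

theorem zeroHom_thomMor (W : Bun Z L) (V : Bun Z A) (hV : V.IsRank n)
    (hV' : (V.pullback (⟨base, continuous_base⟩ : C(W.E, Z))).IsRank n) :
    (V.pullback (⟨base, continuous_base⟩ : C(W.E, Z))).zeroHom ≫
      thomMor (Z := W.tot) (V.pullback (⟨base, continuous_base⟩ : C(W.E, Z))) hV' =
    grH W ≫ (W.tot ◁ eulHom V hV) := by
  apply LC.hom_ext
  intro y
  rfl

variable {D : Type u} [Category.{v} D] [MonoidalCategory D] [SymmetricCategory D]
variable {F : FCat ⥤ D} [F.Braided] [∀ (n : ℕ) (I : Type) [Fintype I], IsFC (ThO n I)]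
variable (t : ThomStr F)

theorem zeroHom_Theta [IsFC Z] (W : Bun Z L) [IsFC W.tot] (V : Bun Z A) (hV : V.IsRank n)
    [IsFC (V.pullback (⟨base, continuous_base⟩ : C(W.E, Z))).tot]
    (hV' : (V.pullback (⟨base, continuous_base⟩ : C(W.E, Z))).IsRank n) :
    mp F (V.pullback (⟨base, continuous_base⟩ : C(W.E, Z))).zeroHom ≫
      t.Theta (Z := W.tot) (V.pullback (⟨base, continuous_base⟩ : C(W.E, Z))) hV' =
    mp F (grH W) ≫ (tn F W.tot Z).inv ≫
      (ob F W.tot ◁ (mp F (eulHom V hV) ≫ t.th n A)) := by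
  rw [ThomStr.Theta, ← t.sl_comp, zeroHom_thomMor W V hV hV', ThomStr.sl, mp_comp,
    Category.assoc, tn_inv_natural_right_assoc, ← MonoidalCategory.whiskerLeft_comp]

variable [Preadditive D] [MonoidalPreadditive D]

theorem exists_mp_zHom_eq_zsmul [IsFC Z] (W : Bun Z L) [IsFC W.tot] (V : Bun Z A) (hV : V.IsRank n)
    [IsFC (W.sum V).tot] {m : ℤ} {y : ob F Z ⟶ t.S n}
    (hy : mp F (eulHom V hV) ≫ t.th n A = m • y) :
    ∃ g : ob F W.tot ⟶ ob F (W.sum V).tot, mp F (zHom W V) = m • g := by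
  have hV' := Q.isRank_pullback_base (V := W) hV
  haveI : IsFC (V.pullback (⟨base, continuous_base⟩ : C(W.E, Z))).tot :=
    IsFC.of_iso (Q.sumIso W V)
  have h1 := zeroHom_Theta t W V hV hV'
  have h2 := t.isIso_Theta' (Z := W.tot) (V.pullback (⟨base, continuous_base⟩ : C(W.E, Z))) hV'
  have h3 : (ob F W.tot ◁ (m • y)) = m • (ob F W.tot ◁ y) :=
    (tensorLeft (ob F W.tot)).map_zsmul
  rw [hy, h3, Preadditive.comp_zsmul, Preadditive.comp_zsmul] at h1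
  have h4 : mp F (V.pullback (⟨base, continuous_base⟩ : C(W.E, Z))).zeroHom =
      m • ((mp F (grH W) ≫ (tn F W.tot Z).inv ≫ (ob F W.tot ◁ y)) ≫
        inv (t.Theta (Z := W.tot) (V.pullback (⟨base, continuous_base⟩ : C(W.E, Z))) hV')) := by
    rw [← Preadditive.zsmul_comp, ← h1, Category.assoc, IsIso.hom_inv_id, Category.comp_id]
  refine ⟨((mp F (grH W) ≫ (tn F W.tot Z).inv ≫ (ob F W.tot ◁ y)) ≫
        inv (t.Theta (Z := W.tot) (V.pullback (⟨base, continuous_base⟩ : C(W.E, Z))) hV')) ≫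
      mp F (Q.sumIso W V).inv, ?_⟩
  rw [← Preadditive.zsmul_comp, ← h4]
  exact mp_comp F _ _

end geom

/-! ### The Thom classes -/

section cls

variable {T : Type u} [Category.{v} T] [Preadditive T] [HasZeroObject T]
    [HasShift T ℤ] [∀ n : ℤ, (shiftFunctor T n).Additive] [Pretriangulated T]
    [MonoidalCategory T] [SymmetricCategory T] [TensorTriangulated T]
variable {S : SpaceFunctor T} {E : EvenSpheres T} {e : S.S.obj CCF ≅ E.L}
  {R : T} [MonObj R] [IsCommMonObj R]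

theorem hom_th (W : ThomFam (RSys R E) S (lineCls e (SeqMonoid.const R))) (n : ℕ) (A : Type)
    [Fintype A] :
    FM.Hom.hom ((thomStrK (clsOfFam e W)).th n A) = hq R E n _ (W.wC n A) := by
  classical
  have h := (thomSeqK (clsOfFam e W)).th_eq_of_le (I := A) n (N := Fintype.card A) (by simp)
  have h2 : (thomStrK (clsOfFam e W)).th n A =
      tj (FR S R) n (by simp) ≫ (clsOfFam e W).wK n (Fintype.card A) := h.symm
  rw [h2, tj_FR, W.wC_eq, ThomFam.wI, hq_pull, ← tj_eq_TO]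
  exact FM.free_map_comp_hom (R := R) _ _

end cls

/-! ### The Euler class of `l^p` -/

section euler

open Vale.Agent.P251.Q Vale.Agent.P251.Q.MultTheory Vale.Agent.P217 Vale.Agent.P251.F

variable {E : MultTheory.{v}} (o : Orientation E)

theorem exists_e_lineP {p : ℕ} (hdiv : ∀ l : ℕ, 2 ≤ l → l < p → ∀ a ∈ E.degA (1 - (l : ℤ)),
      ∃ a' : E.A, a = (p : ℤ) • a') :
    ∃ u ∈ E.deg (CPO (Fin p)) 1,
      o.e (B := CPO (Fin p)) (lineP p (Fin p)) ((taut_isRank 1 (Fin p)).tpow1 p) = (p : ℤ) • u := by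
  haveI := o.goodTh
  haveI hgb : GoodBase E (CPO (Fin p)) := inferInstance
  haveI hg : E.Good (CPO (Fin p)) := good_gr_one o (Fin p)
  haveI hg2 : E.Good (Bun.tot (X := CPO (Fin p)) (lineP p (Fin p))) :=
    hgb.tot _ ((taut_isRank 1 (Fin p)).tpow1 p)
  have h1 := e_tpow o (hasLaw o) (B := CPO (Fin p)) (taut 1 (Fin p)) (taut_isRank 1 (Fin p)) p
  rw [e_taut_z, nev_unit_eq_sum (z_pow_eq_zero o p (Fin p) (by simp))] at h1
  have h2 : ∀ l ∈ Finset.range p, ∃ y : E.U (CPO (Fin p)),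
      PowerSeries.coeff l (multSeries o.law.toFG p) • (o.z (Fin p)) ^ l = (p : ℤ) • y := by
    intro l hl
    rcases l with _ | _ | l
    · refine ⟨0, ?_⟩
      rw [PowerSeries.coeff_zero_eq_constantCoeff_apply, constantCoeff_multSeries, zero_smul,
        smul_zero]
    · refine ⟨o.z (Fin p) ^ 1, ?_⟩
      rw [zero_add, coeff_one_multSeries, Nat.cast_smul_eq_nsmul, natCast_zsmul]
    · obtain ⟨a', ha'⟩ := hdiv (l + 2) (by omega) (Finset.mem_range.mp hl)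
        (PowerSeries.coeff (l + 2) (multSeries o.law.toFG p))
        (coeff_multSeries_mem (isMulGr_degA E) (homPS_law o) p (l + 2))
      refine ⟨a' • (o.z (Fin p)) ^ (l + 2), ?_⟩
      rw [show l + 1 + 1 = l + 2 from rfl, ha', smul_assoc]
  choose! y hy using h2
  have h3 : o.e (B := CPO (Fin p)) (lineP p (Fin p)) ((taut_isRank 1 (Fin p)).tpow1 p) =
      (p : ℤ) • ∑ l ∈ Finset.range p, y l := by
    rw [Finset.smul_sum, ← Finset.sum_congr rfl hy]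
    exact h1
  have h4 := e_deg o (B := CPO (Fin p)) (lineP p (Fin p)) ((taut_isRank 1 (Fin p)).tpow1 p)
  refine ⟨E.proj _ 1 (∑ l ∈ Finset.range p, y l), E.proj_mem 1 _, ?_⟩
  rw [← map_zsmul, ← h3]
  exact (proj_of_mem h4).symm

end euler

/-! ### Coefficients divisible by `p` -/

section coef

variable {T : Type u} [Category.{v} T] [Preadditive T] [HasZeroObject T]
    [HasShift T ℤ] [∀ n : ℤ, (shiftFunctor T n).Additive] [Pretriangulated T]
    [MonoidalCategory T] [SymmetricCategory T] [TensorTriangulated T]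
variable {S : SpaceFunctor T} {E : EvenSpheres T} {R : T} [MonObj R] [IsCommMonObj R]

theorem zsmul_hom {X Y : FM R} (m : ℤ) (f : X ⟶ Y) : FM.Hom.hom (m • f) = m • FM.Hom.hom f := rfl

variable {hF : CofTriangles S} {s : S.S.obj CCF ⟶ (RSys R E).obj 0 1} {hs : (RSys R E).IsSusp s}

theorem exists_zsmul_of_degA {k m : ℤ} {a : (theory (RSys R E) S hF s hs).A}
    (ha : a ∈ (theory (RSys R E) S hF s hs).degA k)
    (h : ∀ b : E.S (-k) ⟶ R, ∃ b' : E.S (-k) ⟶ R, b = m • b') :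
    ∃ a' : (theory (RSys R E) S hF s hs).A, a = m • a' := by
  obtain ⟨x, hx⟩ := coeffHom_deg hF hs ha
  obtain ⟨x', hx'⟩ := h x
  refine ⟨coefOf hF hs x', (coeffHom_bijective hF hs).1 ?_⟩
  rw [map_zsmul, coeffHom_coefOf, hx, hx']
  exact (DirectSum.of (E.Gr R) (-k)).map_zsmul m x'

/-- Divisibility of homotopy classes from the vanishing of the next group. -/
theorem exists_eq_zsmul {C : T} {i : 𝟙_ T ⟶ C} {δ : C ⟶ (𝟙_ T)⟦(1 : ℤ)⟧} {m : ℤ}
    (hC : Triangle.mk (m • 𝟙 (𝟙_ T)) i δ ∈ distTriang T) {A R' : T}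
    (h : ∀ f : A ⟶ R' ⊗ C, f = 0) (b : A ⟶ R') : ∃ b' : A ⟶ R', b = m • b' := by
  obtain ⟨k, h1⟩ := dist_left hC R'
  obtain ⟨y, hy⟩ : ∃ y : A ⟶ R' ⊗ 𝟙_ T, b ≫ (ρ_ R').inv = y ≫ (R' ◁ (m • 𝟙 (𝟙_ T))) :=
    Triangle.coyoneda_exact₂ _ h1 (b ≫ (ρ_ R').inv) (h _)
  have h2 : R' ◁ (m • 𝟙 (𝟙_ T)) = m • 𝟙 (R' ⊗ 𝟙_ T) := by
    have h3 : R' ◁ (m • 𝟙 (𝟙_ T)) = m • (R' ◁ 𝟙 (𝟙_ T)) := (tensorLeft R').map_zsmul
    rw [h3, whiskerLeft_id]
  refine ⟨y ≫ (ρ_ R').hom, ?_⟩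
  rw [h2, Preadditive.comp_zsmul, Category.comp_id] at hy
  rw [← Preadditive.zsmul_comp, ← hy, Category.assoc, Iso.inv_hom_id, Category.comp_id]

end coef

/-! ### The Euler class in `T` -/

section eul

open Vale.Agent.P251.Q Vale.Agent.P251.Q.MultTheory

variable {T : Type u} [Category.{v} T] [Preadditive T] [HasZeroObject T]
    [HasShift T ℤ] [∀ n : ℤ, (shiftFunctor T n).Additive] [Pretriangulated T]
    [MonoidalCategory T] [SymmetricCategory T] [TensorTriangulated T]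
variable {S : SpaceFunctor T} {E : EvenSpheres T} {R : T} [MonObj R] [IsCommMonObj R]
variable {hF : CofTriangles S} {s : S.S.obj CCF ⟶ (RSys R E).obj 0 1} {hs : (RSys R E).IsSusp s}

theorem e_eq_tuel (W : ThomFam (RSys R E) S s) {B : LC} [CompactSpace B] [IsFC B] {A : Type}
    [Fintype A] {n : ℕ} (V : Bun B A) [IsFC V.tot] (hV : V.IsRank n) :
    (W.orientation hF hs).e V hV =
      tuel hF hs (IsFC.out : FC B) n (mp S.S (eulHom V hV) ≫ hq R E n _ (W.wC n A)) := by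
  haveI h1 : (theory (RSys R E) S hF s hs).Good B := ⟨IsFC.out⟩
  haveI h2 : (theory (RSys R E) S hF s hs).Good V.tot := ⟨IsFC.out⟩
  haveI := (W.orientation hF hs).goodTh
  rw [← map_zeroMor_thom, thom_eq, ← MultTheory.map_comp]
  have h3 : (W.orientation hF hs).tau n A =
      tuel hF hs (ThFC.fc n A) n (hq R E n _ (W.wC n A)) := umk_tof (ThFC.fc n A) n (W.wC n A)
  rw [h3, map_tuel (IsFC.out : FC B) (ThFC.fc n A)]
  rfl

theorem tuel_zsmul {B : LC} (hB : FC B) {k m : ℤ} (y : S.S.obj ⟨B, hB⟩ ⟶ R ⊗ E.S k) :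
    tuel hF hs hB k (m • y) = m • tuel hF hs hB k y := (uel R E S hB k).map_zsmul m y

theorem exists_tuel_of_deg {B : LC} (hB : FC B) {k : ℤ}
    {u : (theory (RSys R E) S hF s hs).U B} (hu : u ∈ (theory (RSys R E) S hF s hs).deg B k) :
    ∃ y : S.S.obj ⟨B, hB⟩ ⟶ R ⊗ E.S k, u = tuel hF hs hB k y := by
  obtain ⟨b, hb⟩ := MSys.mem_tdeg.mp ((mem_udeg hB).mp hu)
  refine ⟨hq R E k _ b, ?_⟩
  refine Eq.trans ?_ (umk_tof hB k b)
  apply uev_inj hB
  rw [uev_umk]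
  exact hb.symm

end eul

section final

open Vale.Agent.P251.Q Vale.Agent.P251.Q.MultTheory

variable {T : Type u} [Category.{v} T] [Preadditive T] [HasZeroObject T]
    [HasShift T ℤ] [∀ n : ℤ, (shiftFunctor T n).Additive] [Pretriangulated T]
    [MonoidalCategory T] [SymmetricCategory T] [TensorTriangulated T]
variable {S : SpaceFunctor T} {E : EvenSpheres T} {e : S.S.obj CCF ≅ E.L}
  {R : T} [MonObj R] [IsCommMonObj R]

/-- The Euler class of `l^p` is divisible by `p`. -/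
theorem exists_eul_eq (W : ThomFam (RSys R E) S (lineCls e (SeqMonoid.const R)))
    {C : T} {i : 𝟙_ T ⟶ C} {δ : C ⟶ (𝟙_ T)⟦(1 : ℤ)⟧} {p : ℕ}
    (hC : Triangle.mk ((p : ℤ) • 𝟙 (𝟙_ T)) i δ ∈ distTriang T)
    (hev : ∀ j : ℤ, 0 < j → j < (p : ℤ) - 1 → ∀ f : E.S j ⟶ R ⊗ C, f = 0) :
    ∃ y : ob S.S (CPO (Fin p)) ⟶ R ⊗ E.S ((1 : ℕ) : ℤ),
      mp S.S (eulHom (Z := CPO (Fin p)) (lineP p (Fin p)) ((taut_isRank 1 (Fin p)).tpow1 p)) ≫
        hq R E ((1 : ℕ) : ℤ) _ (W.wC 1 (Fin p → Fin p)) = (p : ℤ) • y := by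
  have h1 : ∀ l : ℕ, 2 ≤ l → l < p → ∀ a ∈ (thK e R).degA (1 - (l : ℤ)),
      ∃ a' : (thK e R).A, a = (p : ℤ) • a' := by
    intro l hl hl' a ha
    exact exists_zsmul_of_degA ha (exists_eq_zsmul hC (hev _ (by omega) (by omega)))
  obtain ⟨u, hu, hu'⟩ := exists_e_lineP (W.orientation _ (isSusp_lineCls e _)) h1
  obtain ⟨y, hy⟩ := exists_tuel_of_deg (IsFC.out : FC (CPO (Fin p))) hu
  refine ⟨y, ?_⟩
  rw [e_eq_tuel W (B := CPO (Fin p)), hy, ← tuel_zsmul] at hu'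
  exact tuel_injective _ _ hu'

/-- **The zero section `S(Th(CP; kρ)) ⟶ S(Th(CP; kρ ⊕ l^p))` is divisible by `p` in `R`-homology.** -/
theorem z_div (W : ThomFam (RSys R E) S (lineCls e (SeqMonoid.const R)))
    {C : T} {i : 𝟙_ T ⟶ C} {δ : C ⟶ (𝟙_ T)⟦(1 : ℤ)⟧} {p : ℕ}
    (hC : Triangle.mk ((p : ℤ) • 𝟙 (𝟙_ T)) i δ ∈ distTriang T)
    (hev : ∀ j : ℤ, 0 < j → j < (p : ℤ) - 1 → ∀ f : E.S j ⟶ R ⊗ C, f = 0)
    (K : Type) [Fintype K] [DecidableEq K] :
    ∃ g : ob S.S (YC p (Fin p) K) ⟶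
        R ⊗ ob S.S (Bun.tot (X := CPO (Fin p)) ((kRho p (Fin p) K).sum (lineP p (Fin p)))),
      mp S.S (zHom (Z := CPO (Fin p)) (kRho p (Fin p) K) (lineP p (Fin p))) ≫
        Vale.Agent.P251.S.unitMap R _ = (p : ℤ) • g := by
  obtain ⟨y, hy⟩ := exists_eul_eq W hC hev
  have h1 : mp (FR S R) (eulHom (Z := CPO (Fin p)) (lineP p (Fin p))
      ((taut_isRank 1 (Fin p)).tpow1 p)) ≫ (thomStrK (clsOfFam e W)).th 1 (Fin p → Fin p) =
      (p : ℤ) • (⟨y⟩ : (FM.free R).obj (ob S.S (CPO (Fin p))) ⟶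
        (FM.free R).obj (E.S ((1 : ℕ) : ℤ))) := by
    apply FM.hom_ext
    refine (FM.free_map_comp_hom _ _).trans ?_
    rw [hom_th]
    exact hy
  obtain ⟨g, hg⟩ := exists_mp_zHom_eq_zsmul (F := FR S R) (thomStrK (clsOfFam e W))
    (Z := CPO (Fin p)) (kRho p (Fin p) K) (lineP p (Fin p)) ((taut_isRank 1 (Fin p)).tpow1 p) h1
  exact ⟨FM.Hom.hom g, congrArg FM.Hom.hom hg⟩

theorem zsmul_whiskerRight_eq_zero {X Y C : T} {m : ℤ} (hm : m • 𝟙 C = 0) (f : X ⟶ Y) :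
    (m • f) ▷ C = 0 := by
  have h1 : (m • f) ▷ C = m • (f ▷ C) := (tensorRight C).map_zsmul
  have h2 : Y ◁ (m • 𝟙 C) = m • 𝟙 (Y ⊗ C) := by
    have h3 : Y ◁ (m • 𝟙 C) = m • (Y ◁ 𝟙 C) := (tensorLeft Y).map_zsmul
    rw [h3, whiskerLeft_id]
  have h4 : Y ◁ (0 : C ⟶ C) = 0 := MonoidalPreadditive.whiskerLeft_zero
  rw [h1, ← Category.comp_id (f ▷ C), ← Preadditive.comp_zsmul, ← h2, hm, h4, comp_zero]

/-- The zero section vanishes in `R`-homology with coefficients in the cone of `p`. -/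
theorem z_zero (W : ThomFam (RSys R E) S (lineCls e (SeqMonoid.const R)))
    {C : T} {i : 𝟙_ T ⟶ C} {δ : C ⟶ (𝟙_ T)⟦(1 : ℤ)⟧} {p : ℕ}
    (hC : Triangle.mk ((p : ℤ) • 𝟙 (𝟙_ T)) i δ ∈ distTriang T) (hpC : (p : ℤ) • 𝟙 C = 0)
    (hev : ∀ j : ℤ, 0 < j → j < (p : ℤ) - 1 → ∀ f : E.S j ⟶ R ⊗ C, f = 0)
    (K : Type) [Fintype K] [DecidableEq K] :
    R ◁ (mp S.S (zHom (Z := CPO (Fin p)) (kRho p (Fin p) K) (lineP p (Fin p))) ▷ C) = 0 := by
  obtain ⟨g, hg⟩ := z_div W hC hev K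
  have h1 : R ◁ mp S.S (zHom (Z := CPO (Fin p)) (kRho p (Fin p) K) (lineP p (Fin p))) =
      (p : ℤ) • (R ◁ g ≫ (α_ R R _).inv ≫ (μ[R] ▷ _)) := by
    have h2 := FM.bind_comp_unit (R := R)
      (mp S.S (zHom (Z := CPO (Fin p)) (kRho p (Fin p) K) (lineP p (Fin p))))
    rw [← h2]
    have h3 : FM.bind ((p : ℤ) • g) = (p : ℤ) • FM.bind g := by
      have h4 : R ◁ ((p : ℤ) • g) = (p : ℤ) • (R ◁ g) := (tensorLeft R).map_zsmul
      rw [FM.bind, FM.bind, h4, Preadditive.zsmul_comp]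
    exact (congrArg FM.bind hg).trans h3
  have h5 := zsmul_whiskerRight_eq_zero hpC (R ◁ g ≫ (α_ R R _).inv ≫ (μ[R] ▷ _))
  rw [← h1] at h5
  have h6 : R ◁ (mp S.S (zHom (Z := CPO (Fin p)) (kRho p (Fin p) K) (lineP p (Fin p))) ▷ C) =
      (α_ _ _ _).inv ≫ ((R ◁ mp S.S (zHom (Z := CPO (Fin p)) (kRho p (Fin p) K)
        (lineP p (Fin p)))) ▷ C) ≫ (α_ _ _ _).hom := by
    rw [associator_naturality_middle, Iso.inv_hom_id_assoc]
  rw [h6, h5, zero_comp, comp_zero]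

end final

end Vale.Agent.P257.V4.T
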